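import Crest.Agent.HS.Calc
set_option autoImplicit false
noncomputable section
namespace Crest.Agent.HS
open MeasureTheory Complex Metric Set
open scoped ComplexConjugate Topology

theorem Adm.dif {g : ℂ → ℂ} (hg : Adm g) (w : ℂ) : DifferentiableAt ℝ g w :=
  (hg.smooth.differentiable (by norm_num)).differentiableAt

theorem Adm.cont_fderiv {g : ℂ → ℂ} (hg : Adm g) : Continuous (fderiv ℝ g) :=
  hg.smooth.continuous_fderiv (by norm_num)

theorem Adm.cont_dd {g : ℂ → ℂ} (hg : Adm g) : Continuous (dd g) := by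
  unfold dd
  have h := hg.cont_fderiv
  fun_prop

/-- bounds for admissible functions on the disc -/
theorem adm_bounds {g : ℂ → ℂ} (hg : Adm g) : ∃ C : ℝ, 0 ≤ C ∧ ∀ w ∈ D,
    ‖g w‖ ≤ C ∧ ‖dd g w‖ ≤ C ∧ |(g w).im| ≤ C * (1 - ‖w‖) := by
  have hK : IsCompact (closedBall (0 : ℂ) 1) := isCompact_closedBall 0 1
  obtain ⟨C1, h1⟩ := hK.exists_bound_of_continuousOn (hg.smooth.continuous.continuousOn)
  obtain ⟨C2, h2⟩ := hK.exists_bound_of_continuousOn (hg.cont_dd.continuousOn)
  obtain ⟨C3, h3⟩ := hK.exists_bound_of_continuousOn (hg.cont_fderiv.continuousOn)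
  refine ⟨|C1| + |C2| + |C3|, by positivity, fun w hw => ?_⟩
  have hwc : w ∈ closedBall (0 : ℂ) 1 := ball_subset_closedBall hw
  have hw1 : ‖w‖ < 1 := by simpa using hw
  refine ⟨?_, ?_, ?_⟩
  · have := h1 w hwc
    have := le_abs_self C1; have := abs_nonneg C2; have := abs_nonneg C3; linarith
  · have := h2 w hwc
    have := le_abs_self C2; have := abs_nonneg C1; have := abs_nonneg C3; linarith
  · -- a boundary point at distance 1 - ‖w‖
    obtain ⟨z, hz, hzw⟩ : ∃ z : ℂ, ‖z‖ = 1 ∧ ‖w - z‖ = 1 - ‖w‖ := by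
      by_cases h0 : w = 0
      · exact ⟨1, by simp, by simp [h0]⟩
      · have hpos : 0 < ‖w‖ := norm_pos_iff.2 h0
        refine ⟨((‖w‖⁻¹ : ℝ) : ℂ) * w, ?_, ?_⟩
        · rw [norm_mul, Complex.norm_real, Real.norm_eq_abs, abs_of_pos (inv_pos.2 hpos),
            inv_mul_cancel₀ hpos.ne']
        · have : w - ((‖w‖⁻¹ : ℝ) : ℂ) * w = ((1 - ‖w‖⁻¹ : ℝ) : ℂ) * w := by push_cast; ring
          rw [this, norm_mul, Complex.norm_real, Real.norm_eq_abs]
          have h1' : 1 - ‖w‖⁻¹ ≤ 0 := by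
            have : 1 ≤ ‖w‖⁻¹ := (one_le_inv₀ hpos).2 hw1.le
            linarith
          rw [abs_of_nonpos h1']
          field_simp
          ring
    have hzc : z ∈ closedBall (0 : ℂ) 1 := by simp [hz]
    have hlip : ‖g w - g z‖ ≤ C3 * ‖w - z‖ :=
      (convex_closedBall (0 : ℂ) 1).norm_image_sub_le_of_norm_fderiv_le
        (fun x _ => hg.dif x) (fun x hx => h3 x hx) hzc hwc
    have him : (g z).im = 0 := hg.bdry z hz
    have e : |(g w).im| ≤ ‖g w - g z‖ := by
      have := Complex.abs_im_le_norm (g w - g z)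
      rwa [Complex.sub_im, him, sub_zero] at this
    calc |(g w).im| ≤ C3 * (1 - ‖w‖) := by rw [← hzw]; exact e.trans hlip
      _ ≤ (|C1| + |C2| + |C3|) * (1 - ‖w‖) := by
          apply mul_le_mul_of_nonneg_right _ (by linarith)
          have := le_abs_self C3; have := abs_nonneg C1; have := abs_nonneg C2; linarith

end Crest.Agent.HS
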