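import Crest.Agent.HS.Defs
set_option autoImplicit false
noncomputable section
namespace Crest.Agent.HS.Al
open MeasureTheory Complex Metric Set
open scoped ComplexConjugate Topology

lemma tt_eq (w : ℂ) : tt w = w.re ^ 2 + w.im ^ 2 := by
  rw [tt, ← Complex.normSq_eq_norm_sq, Complex.normSq_apply]; ring

lemma tt_pos {w : ℂ} (hw : w ≠ 0) : 0 < tt w := by
  rw [tt]; positivity

lemma tt_ne {w : ℂ} (hw : w ≠ 0) : tt w ≠ 0 := (tt_pos hw).ne'

lemma inv_re' {w : ℂ} : (w⁻¹).re = w.re / tt w := by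
  rw [Complex.inv_re, tt, Complex.normSq_eq_norm_sq]

lemma inv_im' {w : ℂ} : (w⁻¹).im = -w.im / tt w := by
  rw [Complex.inv_im, tt, Complex.normSq_eq_norm_sq]

lemma ph1_re (w : ℂ) : (ph 1 w).re = w.re * (1 + (tt w)⁻¹) := by
  simp only [ph, one_div, map_one, one_mul, Complex.add_re, inv_re']
  ring

lemma ph1_im (w : ℂ) : (ph 1 w).im = w.im * (1 - (tt w)⁻¹) := by
  simp only [ph, one_div, map_one, one_mul, Complex.add_im, inv_im']
  ring

lemma phI_re (w : ℂ) : (ph I w).re = w.im * (1 + (tt w)⁻¹) := by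
  simp only [ph, Complex.conj_I, div_eq_mul_inv, Complex.add_re, Complex.mul_re, Complex.I_re,
    Complex.I_im, inv_re', inv_im', Complex.neg_re, Complex.neg_im]
  ring

lemma phI_im (w : ℂ) : (ph I w).im = w.re * ((tt w)⁻¹ - 1) := by
  simp only [ph, Complex.conj_I, div_eq_mul_inv, Complex.add_im, Complex.mul_im, Complex.I_re,
    Complex.I_im, inv_re', inv_im', Complex.neg_re, Complex.neg_im]
  ring

lemma invsq_re (w : ℂ) : ((w ^ 2)⁻¹).re = (w.re ^ 2 - w.im ^ 2) / tt w ^ 2 := by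
  rw [Complex.inv_re, Complex.normSq_eq_norm_sq, norm_pow, tt, pow_two w, Complex.mul_re]
  ring

lemma invsq_im (w : ℂ) : ((w ^ 2)⁻¹).im = -(2 * w.re * w.im) / tt w ^ 2 := by
  rw [Complex.inv_im, Complex.normSq_eq_norm_sq, norm_pow, tt, pow_two w, Complex.mul_im]
  ring

lemma dph1_re (w : ℂ) : (dph 1 w).re = 1 - (w.re ^ 2 - w.im ^ 2) / tt w ^ 2 := by
  simp only [dph, map_one, neg_div, one_div, Complex.add_re, Complex.neg_re, invsq_re,
    Complex.one_re]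
  ring

lemma dph1_im (w : ℂ) : (dph 1 w).im = 2 * w.re * w.im / tt w ^ 2 := by
  simp only [dph, map_one, neg_div, one_div, Complex.add_im, Complex.neg_im, invsq_im,
    Complex.one_im]
  ring

lemma dphI_re (w : ℂ) : (dph I w).re = -(2 * w.re * w.im) / tt w ^ 2 := by
  simp only [dph, Complex.conj_I, div_eq_mul_inv, Complex.add_re, Complex.mul_re, Complex.I_re,
    Complex.I_im, invsq_re, invsq_im, Complex.neg_re, Complex.neg_im]
  ring

lemma dphI_im (w : ℂ) : (dph I w).im = -(w.re ^ 2 - w.im ^ 2) / tt w ^ 2 - 1 := by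
  simp only [dph, Complex.conj_I, div_eq_mul_inv, Complex.add_im, Complex.mul_im, Complex.I_re,
    Complex.I_im, invsq_re, invsq_im, Complex.neg_re, Complex.neg_im]
  ring

lemma nsq (z : ℂ) : ‖z‖ ^ 2 = z.re ^ 2 + z.im ^ 2 := by
  rw [← Complex.normSq_eq_norm_sq, Complex.normSq_apply]; ring

/-- `Σ |ph|² = Ph` -/
lemma sum_ph_sq {w : ℂ} (hw : w ≠ 0) : ‖ph 1 w‖ ^ 2 + ‖ph I w‖ ^ 2 = Ph w := by
  have ht := tt_ne hw
  rw [nsq, nsq, ph1_re, ph1_im, phI_re, phI_im, Ph]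
  have h := tt_eq w
  set x := w.re
  set y := w.im
  set t := tt w
  have : (x * (1 + t⁻¹)) ^ 2 + (y * (1 - t⁻¹)) ^ 2 + ((y * (1 + t⁻¹)) ^ 2 + (x * (t⁻¹ - 1)) ^ 2)
      = (x ^ 2 + y ^ 2) * ((1 + t⁻¹) ^ 2 + (1 - t⁻¹) ^ 2) := by ring
  rw [this, ← h]
  field_simp
  ring

/-- `Σ (Im ph)² = Yf` -/
lemma sum_im_sq {w : ℂ} (hw : w ≠ 0) : (ph 1 w).im ^ 2 + (ph I w).im ^ 2 = Yf w := by
  have ht := tt_ne hw
  rw [ph1_im, phI_im, Yf]
  have h := tt_eq w
  set x := w.re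
  set y := w.im
  set t := tt w
  have : (y * (1 - t⁻¹)) ^ 2 + (x * (t⁻¹ - 1)) ^ 2 = (x ^ 2 + y ^ 2) * (1 - t⁻¹) ^ 2 := by ring
  rw [this, ← h]
  field_simp
  ring

lemma sum_re_sq {w : ℂ} (hw : w ≠ 0) : (ph 1 w).re ^ 2 + (ph I w).re ^ 2 = Yf w + 4 := by
  have ht := tt_ne hw
  rw [ph1_re, phI_re, Yf]
  have h := tt_eq w
  set x := w.re
  set y := w.im
  set t := tt w
  have : (x * (1 + t⁻¹)) ^ 2 + (y * (1 + t⁻¹)) ^ 2 = (x ^ 2 + y ^ 2) * (1 + t⁻¹) ^ 2 := by ring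
  rw [this, ← h]
  field_simp
  ring

lemma sum_dph_sq {w : ℂ} (hw : w ≠ 0) :
    ‖dph 1 w‖ ^ 2 + ‖dph I w‖ ^ 2 = 2 * (1 + (tt w ^ 2)⁻¹) := by
  have ht := tt_ne hw
  rw [nsq, nsq, dph1_re, dph1_im, dphI_re, dphI_im]
  have h := tt_eq w
  set x := w.re
  set y := w.im
  set t := tt w
  have h2 : (x ^ 2 - y ^ 2) ^ 2 + (2 * x * y) ^ 2 = t ^ 2 := by rw [h]; ring
  have : (1 - (x ^ 2 - y ^ 2) / t ^ 2) ^ 2 + (2 * x * y / t ^ 2) ^ 2
      + ((-(2 * x * y) / t ^ 2) ^ 2 + (-(x ^ 2 - y ^ 2) / t ^ 2 - 1) ^ 2)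
      = 2 + 2 * ((x ^ 2 - y ^ 2) ^ 2 + (2 * x * y) ^ 2) / t ^ 4 := by
    field_simp
    ring
  rw [this, h2]
  field_simp

/-- `Σ Im ph * Re dph` -/
lemma sum_im_dph_re {w : ℂ} (hw : w ≠ 0) :
    (ph 1 w).im * (dph 1 w).re + (ph I w).im * (dph I w).re
      = -((1 - tt w ^ 2) / tt w ^ 2) * w.im := by
  have ht := tt_ne hw
  rw [ph1_im, phI_im, dph1_re, dphI_re]
  have h := tt_eq w
  set x := w.re
  set y := w.im
  set t := tt w
  have hx : x ^ 2 = t - y ^ 2 := by rw [h]; ring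
  field_simp
  linear_combination (y * (t - 1)) * hx

lemma sum_im_dph_im {w : ℂ} (hw : w ≠ 0) :
    (ph 1 w).im * (dph 1 w).im + (ph I w).im * (dph I w).im
      = -((1 - tt w ^ 2) / tt w ^ 2) * w.re := by
  have ht := tt_ne hw
  rw [ph1_im, phI_im, dph1_im, dphI_im]
  have h := tt_eq w
  set x := w.re
  set y := w.im
  set t := tt w
  have hy : y ^ 2 = t - x ^ 2 := by rw [h]; ring
  field_simp
  linear_combination (2 * x * (t - 1) + x * (1 - t)) * hy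

lemma sum_re_dph_re {w : ℂ} (hw : w ≠ 0) :
    (ph 1 w).re * (dph 1 w).re + (ph I w).re * (dph I w).re
      = (1 - (tt w ^ 2)⁻¹) * w.re := by
  have ht := tt_ne hw
  rw [ph1_re, phI_re, dph1_re, dphI_re]
  have h := tt_eq w
  set x := w.re
  set y := w.im
  set t := tt w
  have hy : y ^ 2 = t - x ^ 2 := by rw [h]; ring
  field_simp
  linear_combination (x * (t + 1) - 2 * x * (t + 1)) * hy

lemma sum_re_dph_im {w : ℂ} (hw : w ≠ 0) :
    (ph 1 w).re * (dph 1 w).im + (ph I w).re * (dph I w).im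
      = -(1 - (tt w ^ 2)⁻¹) * w.im := by
  have ht := tt_ne hw
  rw [ph1_re, phI_re, dph1_im, dphI_im]
  have h := tt_eq w
  set x := w.re
  set y := w.im
  set t := tt w
  have hx : x ^ 2 = t - y ^ 2 := by rw [h]; ring
  field_simp
  linear_combination (2 * y * (t + 1) - y * (t + 1)) * hx

/-- `f w = w * hh f w` -/
lemma f_eq {f : ℂ → ℂ} (hf0 : f 0 = 0) (w : ℂ) : f w = w * hh f w := by
  have := sub_smul_dslope f 0 w
  simp only [sub_zero, hf0, smul_eq_mul] at this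
  rw [hh, this]

lemma N_eq {f : ℂ → ℂ} (hf0 : f 0 = 0) (w : ℂ) : ‖f w‖ ^ 2 = tt w * ‖hh f w‖ ^ 2 := by
  rw [f_eq hf0 w, norm_mul, mul_pow, tt]

lemma R_eq {f : ℂ → ℂ} (hf0 : f 0 = 0) (w : ℂ) :
    (w * (conj (f w) * deriv f w)).re = tt w * (deriv f w * conj (hh f w)).re := by
  have h1 : w * (conj (f w) * deriv f w)
      = ((tt w : ℝ) : ℂ) * (deriv f w * conj (hh f w)) := by
    rw [f_eq hf0 w, map_mul]
    have : w * conj w = ((tt w : ℝ) : ℂ) := by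
      rw [Complex.mul_conj, tt, Complex.normSq_eq_norm_sq]
    calc w * (conj w * conj (hh f w) * deriv f w)
        = (w * conj w) * (deriv f w * conj (hh f w)) := by ring
      _ = _ := by rw [this]
  rw [h1, Complex.re_ofReal_mul]

lemma Kf_sq (f : ℂ → ℂ) (q w : ℂ) :
    ‖Kf f q w‖ ^ 2 = (1 / 4) * ((ph q w).im ^ 2 * (‖f w‖ ^ 2 * tau f w)
      + (1 / 4) * (‖f w‖ ^ 2) ^ 2 * ‖dph q w‖ ^ 2
      - ‖f w‖ ^ 2 * ((conj (f w) * deriv f w).re * ((ph q w).im * (dph q w).im)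
        - (conj (f w) * deriv f w).im * ((ph q w).im * (dph q w).re))) := by
  have hG : ‖f w‖ ^ 2 * tau f w = ‖conj (f w) * deriv f w‖ ^ 2 := by
    rw [norm_mul, mul_pow, Complex.norm_conj, tau]
  rw [hG]
  have hK : Kf f q w = (1 / 2) * (I * ((ph q w).im : ℂ) * (conj (f w) * deriv f w)
      - (1 / 2) * ((‖f w‖ ^ 2 : ℝ) : ℂ) * dph q w) := by
    rw [Kf]; ring
  rw [hK]
  generalize conj (f w) * deriv f w = G
  generalize ‖f w‖ ^ 2 = N
  generalize (ph q w).im = y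
  generalize dph q w = d
  rw [nsq, nsq d, nsq G]
  simp only [Complex.mul_re, Complex.mul_im, Complex.sub_re, Complex.sub_im, Complex.I_re,
    Complex.I_im, Complex.ofReal_re, Complex.ofReal_im, Complex.one_re, Complex.one_im,
    Complex.div_ofNat_re, Complex.div_ofNat_im]
  ring

lemma sum_Kf_sq {f : ℂ → ℂ} (hf0 : f 0 = 0) {w : ℂ} (hw : w ≠ 0) :
    ‖Kf f 1 w‖ ^ 2 + ‖Kf f I w‖ ^ 2 = K2 f w := by
  have ht := tt_ne hw
  have h1 := sum_im_sq hw
  have h2 := sum_dph_sq hw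
  have h3 := sum_im_dph_re hw
  have h4 := sum_im_dph_im hw
  have hR := R_eq hf0 w
  have hN := N_eq hf0 w
  rw [Kf_sq, Kf_sq]
  rw [Complex.mul_re] at hR
  set G := conj (f w) * deriv f w
  set N := ‖f w‖ ^ 2
  have e1 : (1 / 4) * ((ph 1 w).im ^ 2 * (N * tau f w) + (1 / 4) * N ^ 2 * ‖dph 1 w‖ ^ 2
      - N * (G.re * ((ph 1 w).im * (dph 1 w).im) - G.im * ((ph 1 w).im * (dph 1 w).re)))
      + (1 / 4) * ((ph I w).im ^ 2 * (N * tau f w) + (1 / 4) * N ^ 2 * ‖dph I w‖ ^ 2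
      - N * (G.re * ((ph I w).im * (dph I w).im) - G.im * ((ph I w).im * (dph I w).re)))
      = (1 / 4) * (((ph 1 w).im ^ 2 + (ph I w).im ^ 2) * (N * tau f w)
        + (1 / 4) * N ^ 2 * (‖dph 1 w‖ ^ 2 + ‖dph I w‖ ^ 2)
        - N * (G.re * ((ph 1 w).im * (dph 1 w).im + (ph I w).im * (dph I w).im)
          - G.im * ((ph 1 w).im * (dph 1 w).re + (ph I w).im * (dph I w).re))) := by ring
  rw [e1, h1, h2, h3, h4]
  have e2 : G.re * (-((1 - tt w ^ 2) / tt w ^ 2) * w.re) - G.im * (-((1 - tt w ^ 2) / tt w ^ 2) * w.im)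
      = -((1 - tt w ^ 2) / tt w ^ 2) * (w.re * G.re - w.im * G.im) := by ring
  rw [e2, hR, hN, K2, Yf]
  field_simp
  ring

lemma tau_chi {f : ℂ → ℂ} {w : ℂ} (hd : deriv f w ≠ 0) (q : ℂ) :
    tau f w * chi f q w = tau f w * (ph q w).re
      + (f w * conj (deriv f w) * dph q w).re := by
  have h1 : ((tau f w : ℝ) : ℂ) = deriv f w * conj (deriv f w) := by
    rw [Complex.mul_conj, tau, Complex.normSq_eq_norm_sq]
  have h2 : ((tau f w * chi f q w : ℝ) : ℂ).re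
      = (((tau f w : ℝ) : ℂ) * (ph q w + f w * dph q w / deriv f w)).re := by
    rw [Complex.re_ofReal_mul, Complex.ofReal_re, chi]
  have h3 : ((tau f w : ℝ) : ℂ) * (ph q w + f w * dph q w / deriv f w)
      = ((tau f w : ℝ) : ℂ) * ph q w + f w * conj (deriv f w) * dph q w := by
    rw [mul_add]
    congr 1
    rw [h1]
    field_simp
  rw [Complex.ofReal_re] at h2
  rw [h2, h3, Complex.add_re, Complex.re_ofReal_mul]

lemma sum_chi {f : ℂ → ℂ} (hf0 : f 0 = 0) {w : ℂ} (hw : w ≠ 0) (hd : deriv f w ≠ 0) :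
    tau f w * ((ph 1 w).re * chi f 1 w + (ph I w).re * chi f I w)
      = tau f w * (Yf w + 4) + (1 - (tt w ^ 2)⁻¹) * (tt w * (deriv f w * conj (hh f w)).re) := by
  have h1 := sum_re_sq hw
  have h3 := sum_re_dph_re hw
  have h4 := sum_re_dph_im hw
  have hR := R_eq hf0 w
  have c1 := tau_chi hd 1
  have c2 := tau_chi hd I
  have hH : f w * conj (deriv f w) = conj (conj (f w) * deriv f w) := by
    rw [map_mul, Complex.conj_conj]
  rw [hH, Complex.mul_re, Complex.conj_re, Complex.conj_im] at c1 c2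
  rw [Complex.mul_re] at hR
  set G := conj (f w) * deriv f w
  have e1 : tau f w * ((ph 1 w).re * chi f 1 w + (ph I w).re * chi f I w)
      = (ph 1 w).re * (tau f w * chi f 1 w) + (ph I w).re * (tau f w * chi f I w) := by ring
  rw [e1, c1, c2, ← hR]
  have e2 : (ph 1 w).re * (tau f w * (ph 1 w).re + (G.re * (dph 1 w).re - -G.im * (dph 1 w).im))
      + (ph I w).re * (tau f w * (ph I w).re + (G.re * (dph I w).re - -G.im * (dph I w).im))
      = tau f w * ((ph 1 w).re ^ 2 + (ph I w).re ^ 2)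
        + G.re * ((ph 1 w).re * (dph 1 w).re + (ph I w).re * (dph I w).re)
        + G.im * ((ph 1 w).re * (dph 1 w).im + (ph I w).re * (dph I w).im) := by ring
  rw [e2, h1, h3, h4]
  ring

lemma final_pt {f : ℂ → ℂ} (hf0 : f 0 = 0) {w : ℂ} (hw : w ≠ 0) (hd : deriv f w ≠ 0) :
    -(tau f w * Ph w) + 2 * (Yf w * tau f w - ‖f w‖ ^ 2 * (1 + (tt w ^ 2)⁻¹))
      + 2 * (tau f w * ((ph 1 w).re * chi f 1 w + (ph I w).re * chi f I w))
      = 4 * tau f w - 2 / tt w * B0 f w := by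
  have ht := tt_ne hw
  rw [sum_chi hf0 hw hd, N_eq hf0 w, Ph, Yf, B0]
  field_simp
  ring

end Crest.Agent.HS.Al
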