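import Crest.Agent.HS.Pars
set_option autoImplicit false
noncomputable section
namespace Crest.Agent.HS
open MeasureTheory Complex Metric Set
open scoped ComplexConjugate Topology

/-- uniqueness of power series coefficients in the disc -/
lemma coef_unique {h : ℂ → ℂ} {b c : ℕ → ℂ} (hb : ∀ w ∈ D, HasSum (fun m => b m * w ^ m) (h w))
    (hc : ∀ w ∈ D, HasSum (fun m => c m * w ^ m) (h w)) : b = c := by
  funext m
  have h1 := coefB hb (1 / 2) (by norm_num) (by norm_num) m
  have h2 := coefB hc (1 / 2) (by norm_num) (by norm_num) m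
  rw [h1] at h2
  have hpi : (2 * Real.pi : ℂ) ≠ 0 := by
    exact_mod_cast (by positivity : (2 * Real.pi : ℝ) ≠ 0)
  have h3 := mul_left_cancel₀ hpi h2
  have h4 := (starRingEnd ℂ).injective h3
  have h5 : (((1 / 2 : ℝ) : ℂ)) ^ m ≠ 0 := by
    refine pow_ne_zero _ ?_
    norm_num
  exact mul_right_cancel₀ h5 h4

lemma taylor {g : ℂ → ℂ} (hg : DifferentiableOn ℂ g D) :
    ∀ w ∈ D, HasSum (fun n : ℕ => ((n.factorial : ℂ)⁻¹ * iteratedDeriv n g 0) * w ^ n) (g w) := by
  intro w hw
  have := Complex.hasSum_taylorSeries_on_ball hg hw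
  simp only [sub_zero, smul_eq_mul] at this
  have e : (fun n : ℕ => ((n.factorial : ℂ)⁻¹ * iteratedDeriv n g 0) * w ^ n)
      = fun n : ℕ => (n.factorial : ℂ)⁻¹ * (w ^ n * iteratedDeriv n g 0) := by
    funext n; ring
  rw [e]
  exact this

theorem exists_coef {f : ℂ → ℂ} (hf : Conf f) : ∃ a : ℕ → ℂ, Coef f a := by
  refine ⟨fun j => ((j + 1).factorial : ℂ)⁻¹ * iteratedDeriv (j + 1) f 0, fun w hw => ?_⟩
  have h := taylor hf.diff w hw
  rw [← hasSum_nat_add_iff' 1] at h
  simpa [hf.zero] using h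

/-- coefficients of the derivative -/
lemma deriv_coef {f : ℂ → ℂ} (hf : Conf f) (a : ℕ → ℂ) (ha : Coef f a) :
    ∀ w ∈ D, HasSum (fun m : ℕ => (((m : ℂ) + 1) * a m) * w ^ m) (deriv f w) := by
  have hb : ∀ w ∈ D, HasSum (fun m : ℕ => (if m = 0 then 0 else a (m - 1)) * w ^ m) (f w) := by
    intro w hw
    rw [← hasSum_nat_add_iff' 1]
    simpa using ha w hw
  have hu := coef_unique hb (taylor hf.diff)
  have hd : DifferentiableOn ℂ (deriv f) D := hf.diff.deriv isOpen_ball
  intro w hw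
  have h := taylor hd w hw
  have e : (fun n : ℕ => ((n.factorial : ℂ)⁻¹ * iteratedDeriv n (deriv f) 0) * w ^ n)
      = fun m : ℕ => (((m : ℂ) + 1) * a m) * w ^ m := by
    funext n
    congr 1
    have h1 := congrFun hu (n + 1)
    simp only [Nat.add_eq_zero_iff, one_ne_zero, and_false, if_false, Nat.add_sub_cancel] at h1
    rw [h1, ← iteratedDeriv_succ']
    rw [Nat.factorial_succ]
    have h2 : ((n : ℂ) + 1) ≠ 0 := by exact_mod_cast Nat.succ_ne_zero n
    have h3 : (n.factorial : ℂ) ≠ 0 := by exact_mod_cast n.factorial_ne_zero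
    push_cast
    field_simp
  rw [e] at h
  exact h

/-- area formula -/
theorem area_sum {f : ℂ → ℂ} (hf : Conf f) (a : ℕ → ℂ) (ha : Coef f a) :
    HasSum (fun j : ℕ => Real.pi * ((j : ℝ) + 1) * ‖a j‖ ^ 2) (∫ w in D, tau f w) := by
  have hd := deriv_coef hf a ha
  have h1 := pars_summable (deriv f) _ hd (fun _ => 1) continuous_const (fun _ _ => zero_le_one)
    (by simpa [tau] using! hf.area)
  have h2 := (pars2 (deriv f) (deriv f) _ _ hd hd (fun _ => 1) continuous_const
    (by simpa using! h1) (by simpa using! h1)).2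
  have e1 : (∫ w in D, (1 : ℝ) * (deriv f w * conj (deriv f w)).re) = ∫ w in D, tau f w := by
    congr 1
    funext w
    rw [one_mul, Complex.mul_conj, Complex.normSq_eq_norm_sq, Complex.ofReal_re, tau]
  rw [e1] at h2
  convert h2 using 2 with j
  rw [Complex.mul_conj, Complex.normSq_eq_norm_sq, Complex.ofReal_re]
  simp only [mul_one, integral_pow, one_pow]
  rw [norm_mul]
  have : ‖((j : ℂ) + 1)‖ = (j : ℝ) + 1 := by
    have h0 : ((j : ℂ) + 1) = ((j + 1 : ℕ) : ℂ) := by push_cast; ring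
    rw [h0, Complex.norm_natCast]; push_cast; ring
  rw [this]
  have h2 : ((j : ℝ) + 1) ≠ 0 := by positivity
  field_simp
  ring

end Crest.Agent.HS
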