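import Crest.Agent.HS.CoefI
set_option autoImplicit false
noncomputable section
namespace Crest.Agent.HS
open MeasureTheory Complex Metric Set
open scoped ComplexConjugate Topology

/-- partial sums of `(k+1)(N-k+1)` -/
theorem block_sum1 (N : ℝ) (K : ℕ) :
    ∑ k ∈ Finset.range K, ((k : ℝ) + 1) * (N - k + 1)
      = (N + 1) * K + N * (K * (K - 1) / 2) - ((K : ℝ) - 1) * K * (2 * K - 1) / 6 := by
  induction K with
  | zero => simp
  | succ K ih => rw [Finset.sum_range_succ, ih]; push_cast; ring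

/-- partial sums of `((k+1)(N-k+1))²` -/
theorem block_sum2 (N : ℝ) (K : ℕ) :
    ∑ k ∈ Finset.range K, (((k : ℝ) + 1) * (N - k + 1)) ^ 2
      = (N + 1) ^ 2 * K + 2 * N * (N + 1) * (K * (K - 1) / 2)
        + (N ^ 2 - 2 * (N + 1)) * (((K : ℝ) - 1) * K * (2 * K - 1) / 6)
        - 2 * N * ((K : ℝ) ^ 2 * (K - 1) ^ 2 / 4)
        + ((K : ℝ) - 1) * K * (2 * K - 1) * (3 * K ^ 2 - 3 * K - 1) / 30 := by
  induction K with
  | zero => simp
  | succ K ih => rw [Finset.sum_range_succ, ih]; push_cast; ring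

theorem block_G1 (m : ℕ) :
    ∑ p ∈ Finset.HasAntidiagonal.antidiagonal m, ((p.1 : ℝ) + 1) * ((p.2 : ℝ) + 1)
      = ((m : ℝ) + 1) * (m + 2) * (m + 3) / 6 := by
  rw [Finset.Nat.sum_antidiagonal_eq_sum_range_succ_mk]
  have h : ∀ k ∈ Finset.range m.succ,
      (((k, m - k).1 : ℕ) + 1 : ℝ) * (((k, m - k).2 : ℕ) + 1 : ℝ)
        = ((k : ℝ) + 1) * ((m : ℝ) - k + 1) := by
    intro k hk
    have hk' : k ≤ m := Nat.lt_succ_iff.mp (Finset.mem_range.mp hk)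
    simp only
    rw [Nat.cast_sub hk']
  rw [Finset.sum_congr rfl h, block_sum1]
  push_cast
  ring

theorem block_G2 (m : ℕ) :
    ∑ p ∈ Finset.HasAntidiagonal.antidiagonal m, (((p.1 : ℝ) + 1) * ((p.2 : ℝ) + 1)) ^ 2
      = ((m : ℝ) + 1) * (m + 2) * (m + 3) * ((m : ℝ) ^ 2 + 4 * m + 5) / 30 := by
  rw [Finset.Nat.sum_antidiagonal_eq_sum_range_succ_mk]
  have h : ∀ k ∈ Finset.range m.succ,
      ((((k, m - k).1 : ℕ) + 1 : ℝ) * (((k, m - k).2 : ℕ) + 1 : ℝ)) ^ 2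
        = (((k : ℝ) + 1) * ((m : ℝ) - k + 1)) ^ 2 := by
    intro k hk
    have hk' : k ≤ m := Nat.lt_succ_iff.mp (Finset.mem_range.mp hk)
    simp only
    rw [Nat.cast_sub hk']
  rw [Finset.sum_congr rfl h, block_sum2]
  push_cast
  ring

/-- complex Cauchy-Schwarz with real weights -/
theorem block_cs {ι : Type*} (s : Finset ι) (g : ι → ℝ) (x : ι → ℂ) :
    ‖∑ p ∈ s, (g p : ℂ) * x p‖ ^ 2 ≤ (∑ p ∈ s, g p ^ 2) * ∑ p ∈ s, ‖x p‖ ^ 2 := by
  have h1 : ‖∑ p ∈ s, (g p : ℂ) * x p‖ ≤ ∑ p ∈ s, |g p| * ‖x p‖ := by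
    refine (norm_sum_le _ _).trans (le_of_eq ?_)
    refine Finset.sum_congr rfl fun p _ => ?_
    rw [norm_mul, Complex.norm_real, Real.norm_eq_abs]
  have h2 := Finset.sum_mul_sq_le_sq_mul_sq s (fun p => |g p|) (fun p => ‖x p‖)
  simp only [sq_abs] at h2
  exact (pow_le_pow_left₀ (norm_nonneg _) h1 2).trans h2

/-- one block of the quadratic form (Cauchy-Schwarz) -/
theorem block_ineq (a : ℕ → ℂ) (m : ℕ) :
    alC m * ‖cc a m‖ ^ 2 - beC m * (dc a m * conj (cc a m)).re + gaC m * ‖dc a m‖ ^ 2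
      ≤ (21 / 100) * ∑ p ∈ Finset.HasAntidiagonal.antidiagonal m, ‖a p.1‖ ^ 2 * ‖a p.2‖ ^ 2 := by
  obtain ⟨hal, hga, hdisc, htr⟩ := coef_ineq m
  set S := Finset.HasAntidiagonal.antidiagonal m with hS
  set G : ℕ × ℕ → ℝ := fun p => ((p.1 : ℝ) + 1) * ((p.2 : ℝ) + 1) with hG
  set x : ℕ × ℕ → ℂ := fun p => a p.1 * a p.2 with hx
  set X : ℝ := ∑ p ∈ S, ‖x p‖ ^ 2 with hX
  have hXeq : ∑ p ∈ S, ‖a p.1‖ ^ 2 * ‖a p.2‖ ^ 2 = X := by
    rw [hX]
    refine Finset.sum_congr rfl fun p _ => ?_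
    rw [hx]; simp only [norm_mul]; ring
  have hX0 : 0 ≤ X := Finset.sum_nonneg fun p _ => by positivity
  set al := alC m with hal'
  set be := beC m with hbe'
  set ga := gaC m with hga'
  set lam : ℝ := be / (2 * al) with hlam
  have hbe : be = 2 * al * lam := by rw [hlam]; field_simp
  have hc : cc a m = ∑ p ∈ S, x p := rfl
  have hd : dc a m = ∑ p ∈ S, (G p : ℂ) * x p := by
    unfold dc
    refine Finset.sum_congr rfl fun p _ => ?_
    rw [hG, hx]; push_cast; ring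
  set c := cc a m with hc'
  set d := dc a m with hd'
  -- the two Cauchy-Schwarz inequalities
  have h1 : ‖c - (lam : ℂ) * d‖ ^ 2 ≤ (∑ p ∈ S, (1 - lam * G p) ^ 2) * X := by
    have : c - (lam : ℂ) * d = ∑ p ∈ S, ((1 - lam * G p : ℝ) : ℂ) * x p := by
      rw [hc, hd, Finset.mul_sum, ← Finset.sum_sub_distrib]
      refine Finset.sum_congr rfl fun p _ => ?_
      push_cast; ring
    rw [this]
    exact block_cs S _ x
  have h2 : ‖d‖ ^ 2 ≤ (∑ p ∈ S, (G p) ^ 2) * X := by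
    rw [hd]; exact block_cs S _ x
  -- the algebraic identity
  have hid : al * ‖c‖ ^ 2 - be * (d * conj c).re + ga * ‖d‖ ^ 2
      = al * ‖c - (lam : ℂ) * d‖ ^ 2 + (ga - al * lam ^ 2) * ‖d‖ ^ 2 := by
    rw [hbe]
    simp only [← Complex.normSq_eq_norm_sq, Complex.normSq_apply, Complex.sub_re, Complex.sub_im,
      Complex.mul_re, Complex.mul_im, Complex.ofReal_re, Complex.ofReal_im, Complex.conj_re,
      Complex.conj_im]
    ring
  have hnn : 0 ≤ ga - al * lam ^ 2 := by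
    rw [hbe] at hdisc
    have : 0 ≤ 4 * al * (ga - al * lam ^ 2) := by nlinarith
    by_contra hneg
    push Not at hneg
    nlinarith
  have hs0 : ∑ p ∈ S, (1 : ℝ) = (m : ℝ) + 1 := by
    rw [Finset.sum_const, hS, Finset.Nat.card_antidiagonal]; simp
  have hs1 : ∑ p ∈ S, G p = ((m : ℝ) + 1) * (m + 2) * (m + 3) / 6 := block_G1 m
  have hs2 : ∑ p ∈ S, (G p) ^ 2
      = ((m : ℝ) + 1) * (m + 2) * (m + 3) * ((m : ℝ) ^ 2 + 4 * m + 5) / 30 := block_G2 m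
  have hs3 : ∑ p ∈ S, (1 - lam * G p) ^ 2
      = ((m : ℝ) + 1) - 2 * lam * (∑ p ∈ S, G p) + lam ^ 2 * ∑ p ∈ S, (G p) ^ 2 := by
    rw [← hs0, Finset.mul_sum, Finset.mul_sum, ← Finset.sum_sub_distrib, ← Finset.sum_add_distrib]
    refine Finset.sum_congr rfl fun p _ => ?_
    ring
  rw [hXeq, hid]
  calc al * ‖c - (lam : ℂ) * d‖ ^ 2 + (ga - al * lam ^ 2) * ‖d‖ ^ 2
      ≤ al * ((∑ p ∈ S, (1 - lam * G p) ^ 2) * X)
          + (ga - al * lam ^ 2) * ((∑ p ∈ S, (G p) ^ 2) * X) :=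
        add_le_add (mul_le_mul_of_nonneg_left h1 hal.le) (mul_le_mul_of_nonneg_left h2 hnn)
    _ = (al * (m + 1) - be * (((m : ℝ) + 1) * (m + 2) * (m + 3) / 6)
          + ga * (((m : ℝ) + 1) * (m + 2) * (m + 3) * ((m : ℝ) ^ 2 + 4 * m + 5) / 30)) * X := by
        rw [hs3, hs1, hs2, hbe]; ring
    _ ≤ 21 / 100 * X := mul_le_mul_of_nonneg_right htr hX0

end Crest.Agent.HS
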