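import Crest.Agent.HS.Defs
set_option autoImplicit false
noncomputable section
namespace Crest.Agent.HS
open MeasureTheory Complex Metric Set
open scoped ComplexConjugate Topology

theorem db_mul {X Y : ℂ → ℂ} {w : ℂ} (hX : DifferentiableAt ℝ X w) (hY : DifferentiableAt ℝ Y w) :
    db (fun z => X z * Y z) w = db X w * Y w + X w * db Y w := by
  unfold db
  have h : HasFDerivAt (fun z => X z * Y z) (X w • fderiv ℝ Y w + Y w • fderiv ℝ X w) w :=
    hX.hasFDerivAt.mul hY.hasFDerivAt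
  rw [h.fderiv]
  simp only [ContinuousLinearMap.add_apply, ContinuousLinearMap.smul_apply, smul_eq_mul]
  ring

theorem dd_mul {X Y : ℂ → ℂ} {w : ℂ} (hX : DifferentiableAt ℝ X w) (hY : DifferentiableAt ℝ Y w) :
    dd (fun z => X z * Y z) w = dd X w * Y w + X w * dd Y w := by
  unfold dd
  have h : HasFDerivAt (fun z => X z * Y z) (X w • fderiv ℝ Y w + Y w • fderiv ℝ X w) w :=
    hX.hasFDerivAt.mul hY.hasFDerivAt
  rw [h.fderiv]
  simp only [ContinuousLinearMap.add_apply, ContinuousLinearMap.smul_apply, smul_eq_mul]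
  ring

theorem db_add {X Y : ℂ → ℂ} {w : ℂ} (hX : DifferentiableAt ℝ X w) (hY : DifferentiableAt ℝ Y w) :
    db (fun z => X z + Y z) w = db X w + db Y w := by
  unfold db
  have h : HasFDerivAt (fun z => X z + Y z) (fderiv ℝ X w + fderiv ℝ Y w) w :=
    hX.hasFDerivAt.add hY.hasFDerivAt
  rw [h.fderiv]
  simp only [ContinuousLinearMap.add_apply]
  ring

theorem db_sub {X Y : ℂ → ℂ} {w : ℂ} (hX : DifferentiableAt ℝ X w) (hY : DifferentiableAt ℝ Y w) :
    db (fun z => X z - Y z) w = db X w - db Y w := by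
  unfold db
  have h : HasFDerivAt (fun z => X z - Y z) (fderiv ℝ X w - fderiv ℝ Y w) w :=
    hX.hasFDerivAt.sub hY.hasFDerivAt
  rw [h.fderiv]
  simp only [ContinuousLinearMap.sub_apply]
  ring

theorem db_const_mul {X : ℂ → ℂ} {w : ℂ} (c : ℂ) (hX : DifferentiableAt ℝ X w) :
    db (fun z => c * X z) w = c * db X w := by
  unfold db
  have h : HasFDerivAt (fun z => c * X z) (c • fderiv ℝ X w) w := hX.hasFDerivAt.const_mul c
  rw [h.fderiv]
  simp only [ContinuousLinearMap.smul_apply, smul_eq_mul]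
  ring

theorem conjCLE_fderiv {X : ℂ → ℂ} {w : ℂ} (hX : DifferentiableAt ℝ X w) :
    HasFDerivAt (fun z => conj (X z))
      ((Complex.conjCLE : ℂ →L[ℝ] ℂ).comp (fderiv ℝ X w)) w :=
  (Complex.conjCLE : ℂ →L[ℝ] ℂ).hasFDerivAt.comp w hX.hasFDerivAt

theorem db_conj {X : ℂ → ℂ} {w : ℂ} (hX : DifferentiableAt ℝ X w) :
    db (fun z => conj (X z)) w = conj (dd X w) := by
  unfold db dd
  rw [(conjCLE_fderiv hX).fderiv]
  simp

theorem dd_conj {X : ℂ → ℂ} {w : ℂ} (hX : DifferentiableAt ℝ X w) :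
    dd (fun z => conj (X z)) w = conj (db X w) := by
  unfold db dd
  rw [(conjCLE_fderiv hX).fderiv]
  simp
  ring

theorem db_hol {X : ℂ → ℂ} {w : ℂ} (hX : DifferentiableAt ℂ X w) : db X w = 0 := by
  unfold db
  have h := hX.hasDerivAt.hasFDerivAt.restrictScalars ℝ
  rw [h.fderiv]
  simp only [ContinuousLinearMap.coe_restrictScalars', ContinuousLinearMap.toSpanSingleton_apply,
    smul_eq_mul, one_mul]
  have : I * (I * deriv X w) = - deriv X w := by
    rw [← mul_assoc, I_mul_I]; ring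
  rw [this]; ring

theorem dd_hol {X : ℂ → ℂ} {w : ℂ} (hX : DifferentiableAt ℂ X w) : dd X w = 2 * deriv X w := by
  unfold dd
  have h := hX.hasDerivAt.hasFDerivAt.restrictScalars ℝ
  rw [h.fderiv]
  simp only [ContinuousLinearMap.coe_restrictScalars', ContinuousLinearMap.toSpanSingleton_apply,
    smul_eq_mul, one_mul]
  have : I * (I * deriv X w) = - deriv X w := by
    rw [← mul_assoc, I_mul_I]; ring
  rw [this]; ring

theorem db_congr {X Y : ℂ → ℂ} {w : ℂ} (h : X =ᶠ[𝓝 w] Y) : db X w = db Y w := by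
  unfold db; rw [h.fderiv_eq]

theorem dd_congr {X Y : ℂ → ℂ} {w : ℂ} (h : X =ᶠ[𝓝 w] Y) : dd X w = dd Y w := by
  unfold dd; rw [h.fderiv_eq]

/-- `2∂` of a real function is its complex gradient. -/
theorem dd_ofReal {χ : ℂ → ℝ} {w : ℂ} (h : DifferentiableAt ℝ χ w) :
    dd (fun z => (χ z : ℂ)) w = gr χ w := by
  unfold dd gr
  have h' : HasFDerivAt (fun z => (χ z : ℂ)) (Complex.ofRealCLM.comp (fderiv ℝ χ w)) w :=
    Complex.ofRealCLM.hasFDerivAt.comp w h.hasFDerivAt
  rw [h'.fderiv]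
  apply Complex.ext <;> simp

theorem db_ofReal {χ : ℂ → ℝ} {w : ℂ} (h : DifferentiableAt ℝ χ w) :
    db (fun z => (χ z : ℂ)) w = conj (gr χ w) := by
  unfold db gr
  have h' : HasFDerivAt (fun z => (χ z : ℂ)) (Complex.ofRealCLM.comp (fderiv ℝ χ w)) w :=
    Complex.ofRealCLM.hasFDerivAt.comp w h.hasFDerivAt
  rw [h'.fderiv]
  apply Complex.ext <;> simp

end Crest.Agent.HS
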