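import Crest.Agent.HS.Defs
set_option autoImplicit false
noncomputable section
namespace Crest.Agent.HS
open MeasureTheory Complex Metric Set
open scoped ComplexConjugate Topology

theorem CoefI.int_poly (m : ℕ) (c0 c1 c2 c3 c4 c5 c6 : ℝ) :
    ∫ t in (0 : ℝ)..1, t ^ m * (c0 + c1 * t + c2 * t ^ 2 + c3 * t ^ 3 + c4 * t ^ 4 + c5 * t ^ 5
      + c6 * t ^ 6)
      = c0 / ((m : ℝ) + 1) + c1 / ((m : ℝ) + 2) + c2 / ((m : ℝ) + 3) + c3 / ((m : ℝ) + 4)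
        + c4 / ((m : ℝ) + 5) + c5 / ((m : ℝ) + 6) + c6 / ((m : ℝ) + 7) := by
  have e : ∀ t : ℝ, t ^ m * (c0 + c1 * t + c2 * t ^ 2 + c3 * t ^ 3 + c4 * t ^ 4 + c5 * t ^ 5
      + c6 * t ^ 6) = c0 * t ^ m + c1 * t ^ (m + 1) + c2 * t ^ (m + 2) + c3 * t ^ (m + 3)
        + c4 * t ^ (m + 4) + c5 * t ^ (m + 5) + c6 * t ^ (m + 6) := by
    intro t
    ring
  have ii : ∀ (c : ℝ) (k : ℕ), IntervalIntegrable (fun t : ℝ => c * t ^ k) volume 0 1 :=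
    fun c k => (by fun_prop : Continuous (fun t : ℝ => c * t ^ k)).intervalIntegrable 0 1
  have iv : ∀ (c : ℝ) (k : ℕ), ∫ t in (0 : ℝ)..1, c * t ^ k = c / ((k : ℝ) + 1) := by
    intro c k
    rw [intervalIntegral.integral_const_mul, integral_pow]
    simp [div_eq_mul_inv]
  simp only [e]
  rw [intervalIntegral.integral_add, intervalIntegral.integral_add, intervalIntegral.integral_add,
    intervalIntegral.integral_add, intervalIntegral.integral_add, intervalIntegral.integral_add,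
    iv, iv, iv, iv, iv, iv, iv]
  · push_cast
    have h1 : (m : ℝ) + 1 + 1 = m + 2 := by ring
    have h2 : (m : ℝ) + 2 + 1 = m + 3 := by ring
    have h3 : (m : ℝ) + 3 + 1 = m + 4 := by ring
    have h4 : (m : ℝ) + 4 + 1 = m + 5 := by ring
    have h5 : (m : ℝ) + 5 + 1 = m + 6 := by ring
    have h6 : (m : ℝ) + 6 + 1 = m + 7 := by ring
    rw [h1, h2, h3, h4, h5, h6]
  all_goals
    exact (by fun_prop : Continuous _).intervalIntegrable 0 1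

theorem CoefI.al_eq (m : ℕ) :
    alC m = ((1/4) * (m : ℝ) ^ 6 + (61/8) * (m : ℝ) ^ 5 + (695/8) * (m : ℝ) ^ 4
      + 473 * (m : ℝ) ^ 3 + 1309 * (m : ℝ) ^ 2 + 1766 * (m : ℝ) + 918) /
      (((m : ℝ) + 1) * (m + 2) * (m + 3) * (m + 4) * (m + 5) * (m + 6) * (m + 7)) := by
  have e : alC m = ∫ t in (0 : ℝ)..1, t ^ m * ((-1/4 - 1/2 * (m:ℝ) - 5/32 * (m:ℝ)^2)
      + (3/2 + 3/2 * (m:ℝ) + 3/8 * (m:ℝ)^2) * t + (-17/16 - 21/16 * (m:ℝ) - 21/64 * (m:ℝ)^2) * t ^ 2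
      + (1/2 + 1/2 * (m:ℝ) + 1/8 * (m:ℝ)^2) * t ^ 3 + (-1/4 + 1/16 * (m:ℝ)^2) * t ^ 4
      + (-1/2 - 1/2 * (m:ℝ) - 1/8 * (m:ℝ)^2) * t ^ 5
      + (5/16 + 5/16 * (m:ℝ) + 3/64 * (m:ℝ)^2) * t ^ 6) := by
    unfold alC
    congr 1
    funext t
    unfold alP
    ring
  rw [e, CoefI.int_poly]
  have hm : (0 : ℝ) ≤ m := Nat.cast_nonneg m
  have h1 : (m : ℝ) + 1 ≠ 0 := by positivity
  have h2 : (m : ℝ) + 2 ≠ 0 := by positivity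
  have h3 : (m : ℝ) + 3 ≠ 0 := by positivity
  have h4 : (m : ℝ) + 4 ≠ 0 := by positivity
  have h5 : (m : ℝ) + 5 ≠ 0 := by positivity
  have h6 : (m : ℝ) + 6 ≠ 0 := by positivity
  have h7 : (m : ℝ) + 7 ≠ 0 := by positivity
  field_simp
  ring

theorem CoefI.be_eq (m : ℕ) :
    beC m = ((m : ℝ) ^ 4 + (53/2) * (m : ℝ) ^ 3 + (379/2) * (m : ℝ) ^ 2 + 488 * (m : ℝ) + 414) /
      (((m : ℝ) + 1) * (m + 2) * (m + 3) * (m + 4) * (m + 5) * (m + 6) * (m + 7)) := by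
  have e : beC m = ∫ t in (0 : ℝ)..1, t ^ m * ((3/8 + 1/4 * (m:ℝ))
      + (-1 - 1/2 * (m:ℝ)) * t + (1/16 - 1/8 * (m:ℝ)) * t ^ 2
      + (3/2 + 3/4 * (m:ℝ)) * t ^ 3 + (-3/4 - 1/4 * (m:ℝ)) * t ^ 4
      + (-1/2 - 1/4 * (m:ℝ)) * t ^ 5
      + (5/16 + 1/8 * (m:ℝ)) * t ^ 6) := by
    unfold beC
    congr 1
    funext t
    unfold beP
    ring
  rw [e, CoefI.int_poly]
  have hm : (0 : ℝ) ≤ m := Nat.cast_nonneg m
  have h1 : (m : ℝ) + 1 ≠ 0 := by positivity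
  have h2 : (m : ℝ) + 2 ≠ 0 := by positivity
  have h3 : (m : ℝ) + 3 ≠ 0 := by positivity
  have h4 : (m : ℝ) + 4 ≠ 0 := by positivity
  have h5 : (m : ℝ) + 5 ≠ 0 := by positivity
  have h6 : (m : ℝ) + 6 ≠ 0 := by positivity
  have h7 : (m : ℝ) + 7 ≠ 0 := by positivity
  field_simp
  ring

theorem CoefI.ga_eq (m : ℕ) :
    gaC m = (3 * (m : ℝ) ^ 2 + 69 * (m : ℝ) + 246) /
      (((m : ℝ) + 1) * (m + 2) * (m + 3) * (m + 4) * (m + 5) * (m + 6) * (m + 7)) := by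
  have e : gaC m = ∫ t in (0 : ℝ)..1, t ^ m * ((1/4)
      + (-1) * t + (11/8) * t ^ 2
      + (-1/2) * t ^ 3 + (-1/2) * t ^ 4
      + (1/2) * t ^ 5
      + (-1/8) * t ^ 6) := by
    unfold gaC
    congr 1
    funext t
    unfold gaP
    ring
  rw [e, CoefI.int_poly]
  have hm : (0 : ℝ) ≤ m := Nat.cast_nonneg m
  have h1 : (m : ℝ) + 1 ≠ 0 := by positivity
  have h2 : (m : ℝ) + 2 ≠ 0 := by positivity
  have h3 : (m : ℝ) + 3 ≠ 0 := by positivity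
  have h4 : (m : ℝ) + 4 ≠ 0 := by positivity
  have h5 : (m : ℝ) + 5 ≠ 0 := by positivity
  have h6 : (m : ℝ) + 6 ≠ 0 := by positivity
  have h7 : (m : ℝ) + 7 ≠ 0 := by positivity
  field_simp
  ring

/-- the remainder polynomial of the trace inequality is nonnegative -/
theorem CoefI.rem_nonneg (m : ℕ) :
    (0 : ℝ) ≤ 2/75 * (m : ℝ) ^ 7 + 73/600 * (m : ℝ) ^ 6 - 649/300 * (m : ℝ) ^ 5
      - 1183/120 * (m : ℝ) ^ 4 + 3788/75 * (m : ℝ) ^ 3 + 25514/75 * (m : ℝ) ^ 2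
      + 14762/25 * (m : ℝ) + 1542/5 := by
  rcases lt_or_ge m 6 with h | h
  · interval_cases m <;> norm_num
  · obtain ⟨n, rfl⟩ := Nat.exists_eq_add_of_le h
    have e : (2/75 * (((6 + n : ℕ) : ℝ)) ^ 7 + 73/600 * (((6 + n : ℕ) : ℝ)) ^ 6
        - 649/300 * (((6 + n : ℕ) : ℝ)) ^ 5
      - 1183/120 * (((6 + n : ℕ) : ℝ)) ^ 4 + 3788/75 * (((6 + n : ℕ) : ℝ)) ^ 3
      + 25514/75 * (((6 + n : ℕ) : ℝ)) ^ 2
      + 14762/25 * (((6 + n : ℕ) : ℝ)) + 1542/5 : ℝ)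
      = 52752/5 + 49426/25 * (n : ℝ) + 17503/15 * (n : ℝ) ^ 2 + 57773/75 * (n : ℝ) ^ 3
        + 4621/24 * (n : ℝ) ^ 4 + 6713/300 * (n : ℝ) ^ 5 + 149/120 * (n : ℝ) ^ 6
        + 2/75 * (n : ℝ) ^ 7 := by
      push_cast
      ring
    rw [e]
    positivity

/-- the coefficient inequality (exact rational functions of `m`) -/
theorem coef_ineq (m : ℕ) :
    0 < alC m ∧ 0 < gaC m ∧ beC m ^ 2 ≤ 4 * alC m * gaC m ∧
    alC m * (m + 1) - beC m * (((m : ℝ) + 1) * (m + 2) * (m + 3) / 6)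
      + gaC m * (((m : ℝ) + 1) * (m + 2) * (m + 3) * ((m : ℝ) ^ 2 + 4 * m + 5) / 30)
        ≤ 21 / 100 := by
  rw [CoefI.al_eq, CoefI.be_eq, CoefI.ga_eq]
  have hm : (0 : ℝ) ≤ m := Nat.cast_nonneg m
  set Q : ℝ := ((m : ℝ) + 1) * (m + 2) * (m + 3) * (m + 4) * (m + 5) * (m + 6) * (m + 7) with hQ
  have hQp : 0 < Q := by positivity
  refine ⟨by positivity, by positivity, ?_, ?_⟩
  · have e : 4 * (((1/4) * (m : ℝ) ^ 6 + (61/8) * (m : ℝ) ^ 5 + (695/8) * (m : ℝ) ^ 4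
      + 473 * (m : ℝ) ^ 3 + 1309 * (m : ℝ) ^ 2 + 1766 * (m : ℝ) + 918) / Q)
      * ((3 * (m : ℝ) ^ 2 + 69 * (m : ℝ) + 246) / Q)
      = (((m : ℝ) ^ 4 + (53/2) * (m : ℝ) ^ 3 + (379/2) * (m : ℝ) ^ 2 + 488 * (m : ℝ) + 414) / Q) ^ 2
      + (731916 + 1587048 * (m : ℝ) + 1391438 * (m : ℝ) ^ 2 + 641014 * (m : ℝ) ^ 3
        + 676555/4 * (m : ℝ) ^ 4 + 26137 * (m : ℝ) ^ 5 + 9247/4 * (m : ℝ) ^ 6
        + 215/2 * (m : ℝ) ^ 7 + 2 * (m : ℝ) ^ 8) / Q ^ 2 := by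
      field_simp
      ring
    rw [e]
    have : 0 ≤ (731916 + 1587048 * (m : ℝ) + 1391438 * (m : ℝ) ^ 2 + 641014 * (m : ℝ) ^ 3
        + 676555/4 * (m : ℝ) ^ 4 + 26137 * (m : ℝ) ^ 5 + 9247/4 * (m : ℝ) ^ 6
        + 215/2 * (m : ℝ) ^ 7 + 2 * (m : ℝ) ^ 8) / Q ^ 2 := by positivity
    linarith
  · have e : ((1/4) * (m : ℝ) ^ 6 + (61/8) * (m : ℝ) ^ 5 + (695/8) * (m : ℝ) ^ 4
      + 473 * (m : ℝ) ^ 3 + 1309 * (m : ℝ) ^ 2 + 1766 * (m : ℝ) + 918) / Q * (m + 1)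
      - ((m : ℝ) ^ 4 + (53/2) * (m : ℝ) ^ 3 + (379/2) * (m : ℝ) ^ 2 + 488 * (m : ℝ) + 414) / Q
        * (((m : ℝ) + 1) * (m + 2) * (m + 3) / 6)
      + (3 * (m : ℝ) ^ 2 + 69 * (m : ℝ) + 246) / Q
        * (((m : ℝ) + 1) * (m + 2) * (m + 3) * ((m : ℝ) ^ 2 + 4 * m + 5) / 30)
      = 21 / 100 - (2/75 * (m : ℝ) ^ 7 + 73/600 * (m : ℝ) ^ 6 - 649/300 * (m : ℝ) ^ 5
      - 1183/120 * (m : ℝ) ^ 4 + 3788/75 * (m : ℝ) ^ 3 + 25514/75 * (m : ℝ) ^ 2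
      + 14762/25 * (m : ℝ) + 1542/5) / Q := by
      rw [eq_sub_iff_add_eq]
      field_simp
      rw [hQ]
      ring
    rw [e]
    have := CoefI.rem_nonneg m
    have h2 := div_nonneg this hQp.le
    linarith

end Crest.Agent.HS
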