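import Crest.Agent.HS.CutAux
set_option autoImplicit false
noncomputable section
namespace Crest.Agent.HS
open MeasureTheory Complex Metric Set Filter
open scoped ComplexConjugate Topology

/-- outer cut-off -/
def cou (n : ℝ) (w : ℂ) : ℝ := Real.smoothTransition (n * (1 - ‖w‖ ^ 2) - 1)

theorem cou_contDiff (n : ℝ) {k : ℕ∞} : ContDiff ℝ k (cou n) := by
  unfold cou
  exact Real.smoothTransition.contDiff.comp
    ((contDiff_const.mul (contDiff_const.sub contDiff_tsq)).sub contDiff_const)

theorem cou_nonneg (n : ℝ) (w : ℂ) : 0 ≤ cou n w := Real.smoothTransition.nonneg _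
theorem cou_le_one (n : ℝ) (w : ℂ) : cou n w ≤ 1 := Real.smoothTransition.le_one _

theorem cou_zero {n : ℝ} {w : ℂ} (h : n * (1 - ‖w‖ ^ 2) ≤ 1) : cou n w = 0 :=
  Real.smoothTransition.zero_of_nonpos (by linarith)

theorem cou_one {n : ℝ} {w : ℂ} (h : 2 ≤ n * (1 - ‖w‖ ^ 2)) : cou n w = 1 :=
  Real.smoothTransition.one_of_one_le (by linarith)

theorem hasFDerivAt_cou (n : ℝ) (w : ℂ) :
    HasFDerivAt (cou n) ((-(deriv Real.smoothTransition (n * (1 - ‖w‖ ^ 2) - 1) * n)) •
      ((2 * w.re) • reCLM + (2 * w.im) • imCLM)) w := by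
  have h1 : HasFDerivAt (fun w : ℂ => n * (1 - ‖w‖ ^ 2) - 1)
      (n • (-((2 * w.re) • reCLM + (2 * w.im) • imCLM))) w :=
    (((hasFDerivAt_tsq w).const_sub 1).const_mul n).sub_const 1
  have h2 : HasDerivAt Real.smoothTransition
      (deriv Real.smoothTransition (n * (1 - ‖w‖ ^ 2) - 1)) (n * (1 - ‖w‖ ^ 2) - 1) :=
    ((Real.smoothTransition.contDiff (n := 1)).differentiable (by norm_num) _).hasDerivAt
  have := h2.comp_hasFDerivAt w h1
  rw [smul_smul, smul_neg, ← neg_smul] at this
  exact this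

/-- full cut-off -/
def om (n : ℝ) (w : ℂ) : ℝ := cou n w * cin n w

/-- the derivative of `om` with respect to `|w|²` -/
def om' (n : ℝ) (w : ℂ) : ℝ :=
  cou n w * (deriv Real.smoothTransition (n * ‖w‖ ^ 2 - 1) * n)
    - cin n w * (deriv Real.smoothTransition (n * (1 - ‖w‖ ^ 2) - 1) * n)

theorem hasFDerivAt_om (n : ℝ) (w : ℂ) :
    HasFDerivAt (om n) (om' n w • ((2 * w.re) • reCLM + (2 * w.im) • imCLM)) w := by
  have := (hasFDerivAt_cou n w).mul (hasFDerivAt_cin n w)
  refine this.congr_fderiv ?_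
  unfold om'
  rw [smul_smul, smul_smul, ← add_smul]
  congr 1
  ring

theorem om_contDiff (n : ℝ) {k : ℕ∞} : ContDiff ℝ k (om n) :=
  (cou_contDiff n).mul (cin_contDiff n)

theorem om_nonneg (n : ℝ) (w : ℂ) : 0 ≤ om n w := mul_nonneg (cou_nonneg n w) (cin_nonneg n w)
theorem om_le_one (n : ℝ) (w : ℂ) : om n w ≤ 1 :=
  mul_le_one₀ (cou_le_one n w) (cin_nonneg n w) (cin_le_one n w)

theorem int_fderiv_zero (W : ℂ → ℂ) (hW : ContDiff ℝ 1 W) (hs : HasCompactSupport W) (v : ℂ) :
    ∫ w, fderiv ℝ W w v = 0 ∧ Integrable (fun w => fderiv ℝ W w v) := by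
  have hc : Continuous fun w => fderiv ℝ W w v :=
    (hW.continuous_fderiv (by norm_num)).clm_apply continuous_const
  have hi : Integrable (fun w => fderiv ℝ W w v) :=
    hc.integrable_of_hasCompactSupport (hs.fderiv_apply ℝ v)
  refine ⟨?_, hi⟩
  have h := integral_smul_fderiv_eq_neg_fderiv_smul_of_integrable (μ := (volume : Measure ℂ))
    (𝕜 := ℝ) (f := fun _ : ℂ => (1 : ℝ)) (g := W) (v := v) (by simp) (by simpa using hi)
    (by simpa using hW.continuous.integrable_of_hasCompactSupport hs)
    (fun _ _ => differentiableAt_const _) (fun x _ => hW.differentiable (by norm_num) x)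
  simpa using h

theorem int_db_zero (W : ℂ → ℂ) (hW : ContDiff ℝ 1 W) (hs : HasCompactSupport W) :
    ∫ w, (db W w).re = 0 := by
  obtain ⟨h1, i1⟩ := int_fderiv_zero W hW hs 1
  obtain ⟨h2, i2⟩ := int_fderiv_zero W hW hs I
  have hi : Integrable (fun w => db W w) := i1.add (i2.const_mul I)
  have : ∫ w, (db W w).re = (∫ w, db W w).re := by
    have := reCLM.integral_comp_comm hi
    simpa using this
  rw [this]
  unfold db
  rw [integral_add i1 (i2.const_mul I), integral_const_mul, h1, h2]
  simp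

theorem db_om_mul {Z : ℂ → ℂ} {w : ℂ} (n : ℝ) (hZ : DifferentiableAt ℝ Z w) :
    (db (fun z => om n z • Z z) w).re = om n w * (db Z w).re + 2 * om' n w * (w * Z w).re := by
  have h := (hasFDerivAt_om n w).smul hZ.hasFDerivAt
  have h' : fderiv ℝ (fun z => om n z • Z z) w = _ := h.fderiv
  unfold db
  rw [h']
  simp
  ring

/-- Divergence theorem in the punctured disc for fields with small normal component:
`Z = V₁ - i V₂`, `(db Z).re = div V`, `(w Z).re = w · V`. -/
theorem cut (Z : ℂ → ℂ) (hZ : ContDiffOn ℝ 1 Z (D \ {0}))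
    (hint : IntegrableOn (fun w => (db Z w).re) D)
    (H : ℂ → ℝ) (hH : IntegrableOn H D)
    (hb : ∀ w ∈ D, 1 / 2 ≤ ‖w‖ → |(w * Z w).re| ≤ H w * (1 - ‖w‖))
    (C : ℝ) (h0 : ∀ w ∈ D, w ≠ 0 → ‖w‖ < 1 / 2 → ‖Z w‖ ≤ C) :
    ∫ w in D, (db Z w).re = 0 := by
  obtain ⟨L, hL0, hL⟩ := exists_st_bound
  have hopen : IsOpen (D \ {0}) := isOpen_ball.sdiff isClosed_singleton
  have hne : ∀ᵐ w ∂(volume.restrict D), w ≠ 0 := by
    have : ∀ᵐ w : ℂ, w ≠ 0 := by
      have := compl_mem_ae_iff.2 (measure_singleton (μ := (volume : Measure ℂ)) (0 : ℂ))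
      exact this
    exact ae_restrict_of_ae this
  set N : ℕ → ℝ := fun n => (n : ℝ) + 9 with hN
  have hN9 : ∀ n, 9 ≤ N n := fun n => by simp [hN]
  set W : ℕ → ℂ → ℂ := fun n z => om (N n) z • Z z with hW
  have hWcd : ∀ n, ContDiff ℝ 1 (W n) := by
    intro n
    rw [contDiff_iff_contDiffAt]
    intro w
    by_cases hw : w ∈ D \ {0}
    · exact (om_contDiff (N n) (k := 1)).contDiffAt.smul (hZ.contDiffAt (hopen.mem_nhds hw))
    · have : W n =ᶠ[𝓝 w] fun _ => 0 := by
        by_cases hw0 : w = 0
        · have hc : ContinuousAt (fun z : ℂ => N n * ‖z‖ ^ 2) w := by fun_prop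
          have : ∀ᶠ z in 𝓝 w, N n * ‖z‖ ^ 2 < 1 := by
            apply hc.eventually_lt continuousAt_const
            simp [hw0]
          filter_upwards [this] with z hz
          simp [hW, om, cin_zero hz.le]
        · have hw1 : 1 ≤ ‖w‖ := by
            by_contra hcon
            exact hw ⟨by simpa using hcon, hw0⟩
          have hc : ContinuousAt (fun z : ℂ => N n * (1 - ‖z‖ ^ 2)) w := by fun_prop
          have : ∀ᶠ z in 𝓝 w, N n * (1 - ‖z‖ ^ 2) < 1 := by
            apply hc.eventually_lt continuousAt_const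
            have : 1 - ‖w‖ ^ 2 ≤ 0 := by nlinarith
            have := hN9 n
            nlinarith
          filter_upwards [this] with z hz
          simp [hW, om, cou_zero hz.le]
      exact contDiffAt_const.congr_of_eventuallyEq this
  have hWout : ∀ n, ∀ w, w ∉ D → W n w = 0 := by
    intro n w hw
    have hw1 : 1 ≤ ‖w‖ := by simpa using hw
    have : N n * (1 - ‖w‖ ^ 2) ≤ 1 := by
      have : 1 - ‖w‖ ^ 2 ≤ 0 := by nlinarith
      have := hN9 n
      nlinarith
    simp [hW, om, cou_zero this]
  have hWcs : ∀ n, HasCompactSupport (W n) := by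
    intro n
    refine HasCompactSupport.intro (isCompact_closedBall (0 : ℂ) 1) ?_
    intro w hw
    exact hWout n w (fun h => hw (ball_subset_closedBall h))
  have hdbout : ∀ n, ∀ w, w ∉ D → (db (W n) w).re = 0 := by
    intro n w hw
    have hw1 : 1 ≤ ‖w‖ := by simpa using hw
    have : W n =ᶠ[𝓝 w] fun _ => 0 := by
      have hc : ContinuousAt (fun z : ℂ => N n * (1 - ‖z‖ ^ 2)) w := by fun_prop
      have : ∀ᶠ z in 𝓝 w, N n * (1 - ‖z‖ ^ 2) < 1 := by
        apply hc.eventually_lt continuousAt_const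
        have : 1 - ‖w‖ ^ 2 ≤ 0 := by nlinarith
        have := hN9 n
        nlinarith
      filter_upwards [this] with z hz
      simp [hW, om, cou_zero hz.le]
    unfold db
    rw [this.fderiv_eq]
    simp
  have hzero : ∀ n, ∫ w in D, (db (W n) w).re = 0 := by
    intro n
    rw [setIntegral_eq_integral_of_forall_compl_eq_zero (hdbout n)]
    exact int_db_zero (W n) (hWcd n) (hWcs n)
  have hform : ∀ n, ∀ w ∈ D, w ≠ 0 → (db (W n) w).re
      = om (N n) w * (db Z w).re + 2 * om' (N n) w * (w * Z w).re := by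
    intro n w hw hw0
    exact db_om_mul (N n) ((hZ.differentiableOn (by norm_num)).differentiableAt
      (hopen.mem_nhds ⟨hw, hw0⟩))
  have hlim : Tendsto (fun n => ∫ w in D, (db (W n) w).re) atTop (𝓝 (∫ w in D, (db Z w).re)) := by
    refine tendsto_integral_of_dominated_convergence
      (fun w => |(db Z w).re| + 4 * L * |H w| + 4 * L * |C| * ‖w‖⁻¹) ?_ ?_ ?_ ?_
    · intro n
      have hc : Continuous fun w => (db (W n) w).re := by
        unfold db
        have h1 := (hWcd n).continuous_fderiv (by norm_num)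
        exact continuous_re.comp ((h1.clm_apply continuous_const).add
          (continuous_const.mul (h1.clm_apply continuous_const)))
      exact hc.aestronglyMeasurable
    · exact (hint.abs.add (hH.abs.const_mul (4 * L))).add (int_inv_norm.const_mul (4 * L * |C|))
    · intro n
      filter_upwards [hne, ae_restrict_mem measurableSet_ball] with w hw0 hw
      rw [hform n w hw hw0, Real.norm_eq_abs]
      have hwn : 0 < ‖w‖ := norm_pos_iff.2 hw0
      have hw1 : ‖w‖ < 1 := by simpa using hw
      have hNn := hN9 n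
      set m := N n
      have e1 : |om m w * (db Z w).re| ≤ |(db Z w).re| := by
        rw [abs_mul, abs_of_nonneg (om_nonneg m w)]
        exact mul_le_of_le_one_left (abs_nonneg _) (om_le_one m w)
      have e2 : |2 * (cin m w * (deriv Real.smoothTransition (m * (1 - ‖w‖ ^ 2) - 1) * m))
          * (w * Z w).re| ≤ 4 * L * |H w| := by
        by_cases hc : 1 < m * (1 - ‖w‖ ^ 2) - 1
        · rw [(hL _).2.2 hc]; simp; positivity
        · push Not at hc
          have h1 : 1 - ‖w‖ ^ 2 ≤ 2 / m := by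
            rw [le_div_iff₀ (by linarith)]; linarith
          have h2 : 2 / m ≤ 2 / 9 := div_le_div_of_nonneg_left (by norm_num) (by norm_num) hNn
          have h3 : 1 / 2 ≤ ‖w‖ := by nlinarith
          have h4 := hb w hw h3
          have h5 : 0 < 1 - ‖w‖ := by linarith
          have h6 : 0 ≤ H w := by
            by_contra hneg
            push Not at hneg
            have := mul_neg_of_neg_of_pos hneg h5
            linarith [abs_nonneg ((w * Z w).re)]
          have h7 : 1 - ‖w‖ ≤ 2 / m := by nlinarith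
          rw [abs_mul, abs_mul, abs_mul, abs_mul, abs_of_nonneg (cin_nonneg m w),
            abs_of_nonneg (by linarith : (0 : ℝ) ≤ m), abs_of_pos (by norm_num : (0 : ℝ) < 2),
            abs_of_nonneg h6]
          have h8 := (hL (m * (1 - ‖w‖ ^ 2) - 1)).1
          have h9 := cin_le_one m w
          have h10 := cin_nonneg m w
          have h11 : |(w * Z w).re| ≤ H w * (2 / m) :=
            h4.trans (mul_le_mul_of_nonneg_left h7 h6)
          calc 2 * (cin m w * (|deriv Real.smoothTransition (m * (1 - ‖w‖ ^ 2) - 1)| * m))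
                * |(w * Z w).re|
              ≤ 2 * (1 * (L * m)) * (H w * (2 / m)) := by gcongr
            _ = 4 * L * H w := by field_simp; ring
      have e3 : |2 * (cou m w * (deriv Real.smoothTransition (m * ‖w‖ ^ 2 - 1) * m))
          * (w * Z w).re| ≤ 4 * L * |C| * ‖w‖⁻¹ := by
        by_cases hc : 1 < m * ‖w‖ ^ 2 - 1
        · rw [(hL _).2.2 hc]; simp; positivity
        · push Not at hc
          have h1 : m * ‖w‖ ^ 2 ≤ 2 := by linarith
          have h3 : ‖w‖ < 1 / 2 := by
            by_contra hcon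
            push Not at hcon
            nlinarith
          have h4 := h0 w hw hw0 h3
          have h5 : |(w * Z w).re| ≤ ‖w‖ * |C| := by
            calc |(w * Z w).re| ≤ ‖w * Z w‖ := abs_re_le_norm _
              _ = ‖w‖ * ‖Z w‖ := norm_mul _ _
              _ ≤ ‖w‖ * |C| := by gcongr; exact h4.trans (le_abs_self _)
          rw [abs_mul, abs_mul, abs_mul, abs_mul, abs_of_nonneg (cou_nonneg m w),
            abs_of_nonneg (by linarith : (0 : ℝ) ≤ m), abs_of_pos (by norm_num : (0 : ℝ) < 2)]
          have h8 := (hL (m * ‖w‖ ^ 2 - 1)).1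
          have h9 := cou_le_one m w
          have h10 := cou_nonneg m w
          calc 2 * (cou m w * (|deriv Real.smoothTransition (m * ‖w‖ ^ 2 - 1)| * m))
                * |(w * Z w).re|
              ≤ 2 * (1 * (L * m)) * (‖w‖ * |C|) := by gcongr
            _ = (2 * L * |C|) * (m * ‖w‖ ^ 2) * ‖w‖⁻¹ := by field_simp
            _ ≤ (2 * L * |C|) * 2 * ‖w‖⁻¹ := by gcongr
            _ = 4 * L * |C| * ‖w‖⁻¹ := by ring
      have e4 : 2 * om' m w * (w * Z w).re
          = 2 * (cou m w * (deriv Real.smoothTransition (m * ‖w‖ ^ 2 - 1) * m)) * (w * Z w).re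
          - 2 * (cin m w * (deriv Real.smoothTransition (m * (1 - ‖w‖ ^ 2) - 1) * m))
            * (w * Z w).re := by
        unfold om'; ring
      rw [e4]
      have := abs_sub (2 * (cou m w * (deriv Real.smoothTransition (m * ‖w‖ ^ 2 - 1) * m)) * (w * Z w).re)
        (2 * (cin m w * (deriv Real.smoothTransition (m * (1 - ‖w‖ ^ 2) - 1) * m))
            * (w * Z w).re)
      have := abs_add_le (om m w * (db Z w).re)
        (2 * (cou m w * (deriv Real.smoothTransition (m * ‖w‖ ^ 2 - 1) * m)) * (w * Z w).re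
          - 2 * (cin m w * (deriv Real.smoothTransition (m * (1 - ‖w‖ ^ 2) - 1) * m))
            * (w * Z w).re)
      linarith
    · filter_upwards [hne, ae_restrict_mem measurableSet_ball] with w hw0 hw
      have hwn : 0 < ‖w‖ := norm_pos_iff.2 hw0
      have hw1 : ‖w‖ < 1 := by simpa using hw
      have hpos : 0 < 1 - ‖w‖ ^ 2 := by nlinarith
      have hpos2 : 0 < ‖w‖ ^ 2 := by positivity
      have hNt : Tendsto N atTop atTop :=
        tendsto_atTop_add_const_right _ _ tendsto_natCast_atTop_atTop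
      have ev1 : ∀ᶠ n in atTop, 2 < N n * (1 - ‖w‖ ^ 2) :=
        (hNt.atTop_mul_const hpos).eventually_gt_atTop 2
      have ev2 : ∀ᶠ n in atTop, 2 < N n * ‖w‖ ^ 2 :=
        (hNt.atTop_mul_const hpos2).eventually_gt_atTop 2
      refine tendsto_const_nhds.congr' ?_
      filter_upwards [ev1, ev2] with n h1 h2
      rw [hform n w hw hw0]
      have o1 : om (N n) w = 1 := by
        simp [om, cou_one h1.le, cin_one h2.le]
      have o2 : om' (N n) w = 0 := by
        unfold om'
        rw [(hL _).2.2 (by linarith : 1 < N n * ‖w‖ ^ 2 - 1),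
          (hL _).2.2 (by linarith : 1 < N n * (1 - ‖w‖ ^ 2) - 1)]
        simp
      rw [o1, o2]; simp
  have hlim0 : Tendsto (fun n => ∫ w in D, (db (W n) w).re) atTop (𝓝 0) := by
    simp [hzero]
  exact tendsto_nhds_unique hlim hlim0

end Crest.Agent.HS
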