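import Crest.Agent.HS.Defs
set_option autoImplicit false
noncomputable section
namespace Crest.Agent.HS
open MeasureTheory Complex Metric Set Filter
open scoped ComplexConjugate Topology

/-- bounded derivative of the smooth transition function -/
theorem exists_st_bound : ∃ L : ℝ, 0 < L ∧ ∀ x : ℝ, |deriv Real.smoothTransition x| ≤ L ∧
    (x < 0 → deriv Real.smoothTransition x = 0) ∧ (1 < x → deriv Real.smoothTransition x = 0) := by
  have hc : Continuous (deriv Real.smoothTransition) :=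
    (Real.smoothTransition.contDiff (n := 1)).continuous_deriv (by norm_num)
  obtain ⟨L, hL⟩ := (isCompact_Icc (a := (0 : ℝ)) (b := 1)).exists_bound_of_continuousOn
    hc.continuousOn
  have hneg : ∀ x : ℝ, x < 0 → deriv Real.smoothTransition x = 0 := by
    intro x hx
    have : Real.smoothTransition =ᶠ[𝓝 x] fun _ => 0 := by
      filter_upwards [Iio_mem_nhds hx] with y hy
      exact Real.smoothTransition.zero_of_nonpos (le_of_lt hy)
    rw [this.deriv_eq]; simp
  have hpos : ∀ x : ℝ, 1 < x → deriv Real.smoothTransition x = 0 := by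
    intro x hx
    have : Real.smoothTransition =ᶠ[𝓝 x] fun _ => 1 := by
      filter_upwards [Ioi_mem_nhds hx] with y hy
      exact Real.smoothTransition.one_of_one_le (le_of_lt hy)
    rw [this.deriv_eq]; simp
  refine ⟨max L 1, by positivity, fun x => ⟨?_, hneg x, hpos x⟩⟩
  rcases lt_or_ge x 0 with h | h
  · rw [hneg x h]; simp
  rcases lt_or_ge 1 x with h1 | h1
  · rw [hpos x h1]; simp
  · exact le_trans (hL x ⟨h, h1⟩) (le_max_left _ _)

theorem hasFDerivAt_tsq (w : ℂ) :
    HasFDerivAt (fun w : ℂ => ‖w‖ ^ 2) ((2 * w.re) • reCLM + (2 * w.im) • imCLM) w := by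
  have h1 : HasFDerivAt (fun w : ℂ => w.re) (reCLM : ℂ →L[ℝ] ℝ) w := reCLM.hasFDerivAt
  have h2 : HasFDerivAt (fun w : ℂ => w.im) (imCLM : ℂ →L[ℝ] ℝ) w := imCLM.hasFDerivAt
  have h := (h1.mul h1).add (h2.mul h2)
  have he : (fun w : ℂ => ‖w‖ ^ 2) = fun w : ℂ => w.re * w.re + w.im * w.im := by
    funext z; rw [← normSq_eq_norm_sq, normSq_apply]
  rw [he]
  refine h.congr_fderiv ?_
  ext v
  simp; ring

theorem contDiff_tsq {n : WithTop ℕ∞} : ContDiff ℝ n (fun w : ℂ => ‖w‖ ^ 2) :=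
  contDiff_norm_sq ℝ

/-- `1/|w|` is integrable over the disc -/
theorem int_inv_norm : IntegrableOn (fun w : ℂ => ‖w‖⁻¹) D := by
  have := (integrableOn_fun_norm_addHaar (E := ℂ) (volume : Measure ℂ)
    (f := fun y : ℝ => y⁻¹) (r := 1)).2 ?_
  · exact this
  · have h : IntegrableOn (fun _ : ℝ => (1 : ℝ)) (Ioo 0 1) := by
      simp [integrableOn_const_iff]
    refine h.congr_fun ?_ measurableSet_Ioo
    intro y hy
    have hy0 : y ≠ 0 := ne_of_gt hy.1
    simp [Complex.finrank_real_complex, hy0]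

/-- inner cut-off: `0` for `n |w|² ≤ 1`, `1` for `n |w|² ≥ 2` -/
def cin (n : ℝ) (w : ℂ) : ℝ := Real.smoothTransition (n * ‖w‖ ^ 2 - 1)

theorem cin_contDiff (n : ℝ) {k : ℕ∞} : ContDiff ℝ k (cin n) := by
  unfold cin
  exact Real.smoothTransition.contDiff.comp
    ((contDiff_const.mul contDiff_tsq).sub contDiff_const)

theorem cin_nonneg (n : ℝ) (w : ℂ) : 0 ≤ cin n w := Real.smoothTransition.nonneg _
theorem cin_le_one (n : ℝ) (w : ℂ) : cin n w ≤ 1 := Real.smoothTransition.le_one _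

theorem cin_zero {n : ℝ} {w : ℂ} (h : n * ‖w‖ ^ 2 ≤ 1) : cin n w = 0 :=
  Real.smoothTransition.zero_of_nonpos (by linarith)

theorem cin_one {n : ℝ} {w : ℂ} (h : 2 ≤ n * ‖w‖ ^ 2) : cin n w = 1 :=
  Real.smoothTransition.one_of_one_le (by linarith)

theorem hasFDerivAt_cin (n : ℝ) (w : ℂ) :
    HasFDerivAt (cin n) ((deriv Real.smoothTransition (n * ‖w‖ ^ 2 - 1) * n) •
      ((2 * w.re) • reCLM + (2 * w.im) • imCLM)) w := by
  have h1 : HasFDerivAt (fun w : ℂ => n * ‖w‖ ^ 2 - 1)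
      (n • ((2 * w.re) • reCLM + (2 * w.im) • imCLM)) w :=
    ((hasFDerivAt_tsq w).const_mul n).sub_const 1
  have h2 : HasDerivAt Real.smoothTransition (deriv Real.smoothTransition (n * ‖w‖ ^ 2 - 1))
      (n * ‖w‖ ^ 2 - 1) :=
    ((Real.smoothTransition.contDiff (n := 1)).differentiable (by norm_num) _).hasDerivAt
  have := h2.comp_hasFDerivAt w h1
  rw [smul_smul] at this
  exact this

end Crest.Agent.HS
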