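import Crest.Agent.HS.Cut
set_option autoImplicit false
noncomputable section
namespace Crest.Agent.HS
open MeasureTheory Complex Metric Set
open scoped ComplexConjugate Topology

theorem ddsq_fderiv_dir {b : ℂ → ℝ} (hb : ContDiff ℝ 2 b) (v : ℂ) :
    ContDiff ℝ 1 (fun w => fderiv ℝ b w v) := by
  have h : ContDiff ℝ 1 (fderiv ℝ b) := hb.fderiv_right (by norm_num)
  exact h.clm_apply contDiff_const

theorem ddsq_fderiv_fderiv {b : ℂ → ℝ} (hb : ContDiff ℝ 2 b) (v w z : ℂ) :
    fderiv ℝ (fun w => fderiv ℝ b w v) w z = fderiv ℝ (fderiv ℝ b) w z v := by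
  have h : DifferentiableAt ℝ (fderiv ℝ b) w :=
    ((hb.fderiv_right (m := 1) (by norm_num)).differentiable (by norm_num)).differentiableAt
  have h2 := fderiv_clm_apply (𝕜 := ℝ) (c := fderiv ℝ b) (u := fun _ => v) h
    (differentiableAt_const v)
  rw [h2]
  simp

theorem ddsq_symm {b : ℂ → ℝ} (hb : ContDiff ℝ 2 b) (w v z : ℂ) :
    fderiv ℝ (fderiv ℝ b) w z v = fderiv ℝ (fderiv ℝ b) w v z := by
  have h : IsSymmSndFDerivAt ℝ b w := hb.contDiffAt.isSymmSndFDerivAt (by simp)
  exact h z v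

theorem ddsq_tangent {b : ℂ → ℝ} (hb : ContDiff ℝ 2 b) (h0 : ∀ w : ℂ, ‖w‖ = 1 → b w = 0)
    (w : ℂ) (hw : ‖w‖ = 1) : fderiv ℝ b w (I * w) = 0 := by
  have h1 : HasDerivAt (fun t : ℝ => w * Complex.exp (t * I)) (w * (Complex.exp ((0:ℝ) * I) * (1 * I)))
      (0:ℝ) := by
    have := ((Complex.hasDerivAt_exp ((0:ℝ) * I)).comp (0:ℝ)
      ((Complex.ofRealCLM.hasDerivAt (x := (0:ℝ))).mul_const I))
    exact (this.const_mul w)
  have h2 : HasFDerivAt b (fderiv ℝ b w) (w * Complex.exp ((0:ℝ) * I)) := by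
    have : w * Complex.exp ((0:ℝ) * I) = w := by simp
    rw [this]
    exact (hb.differentiable (by norm_num)).differentiableAt.hasFDerivAt
  have h3 := h2.comp_hasDerivAt (0:ℝ) h1
  have h4 : (b ∘ fun t : ℝ => w * Complex.exp (t * I)) = fun _ => 0 := by
    funext t
    simp only [Function.comp]
    apply h0
    rw [norm_mul, hw, Complex.norm_exp_ofReal_mul_I, one_mul]
  rw [h4] at h3
  have h5 := h3.unique (hasDerivAt_const (0:ℝ) (0:ℝ))
  have h6 : w * (Complex.exp ((0:ℝ) * I) * (1 * I)) = I * w := by simp [mul_comm]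
  rw [h6] at h5
  exact h5

/-- no cross term for admissible functions -/
theorem dd_sq (g : ℂ → ℂ) (hg : Adm g) :
    ∫ w in D, ‖dd g w‖ ^ 2 = (∫ w in D, ‖gr (fun z => (g z).re) w‖ ^ 2)
      + (∫ w in D, ‖gr (fun z => (g z).im) w‖ ^ 2) := by
  set a : ℂ → ℝ := fun z => (g z).re with ha
  set b : ℂ → ℝ := fun z => (g z).im with hb
  have ca : ContDiff ℝ 2 a := Complex.reCLM.contDiff.comp hg.smooth
  have cb : ContDiff ℝ 2 b := Complex.imCLM.contDiff.comp hg.smooth
  have hb0 : ∀ w : ℂ, ‖w‖ = 1 → b w = 0 := hg.bdry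
  have dg : ∀ w v, fderiv ℝ g w v = ⟨fderiv ℝ a w v, fderiv ℝ b w v⟩ := by
    intro w v
    have hgd : HasFDerivAt g (fderiv ℝ g w) w :=
      (hg.smooth.differentiable (by norm_num)).differentiableAt.hasFDerivAt
    have h1 : HasFDerivAt a (Complex.reCLM.comp (fderiv ℝ g w)) w :=
      Complex.reCLM.hasFDerivAt.comp w hgd
    have h2 : HasFDerivAt b (Complex.imCLM.comp (fderiv ℝ g w)) w :=
      Complex.imCLM.hasFDerivAt.comp w hgd
    rw [h1.fderiv, h2.fderiv]
    apply Complex.ext <;> simp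
  -- the field
  set P : ℂ → ℝ := fun w => a w * fderiv ℝ b w I with hP
  set Q : ℂ → ℝ := fun w => a w * fderiv ℝ b w 1 with hQ
  have ca1 : ContDiff ℝ 1 a := ca.of_le (by norm_num)
  have cP : ContDiff ℝ 1 P := ca1.mul (ddsq_fderiv_dir cb I)
  have cQ : ContDiff ℝ 1 Q := ca1.mul (ddsq_fderiv_dir cb 1)
  set Z : ℂ → ℂ := fun w => ((P w : ℝ) : ℂ) + ((Q w : ℝ) : ℂ) * I with hZ
  have cZ : ContDiff ℝ 1 Z :=
    (Complex.ofRealCLM.contDiff.comp cP).add ((Complex.ofRealCLM.contDiff.comp cQ).mul contDiff_const)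
  have dP : ∀ w v, fderiv ℝ P w v = a w * fderiv ℝ (fderiv ℝ b) w v I
      + fderiv ℝ b w I * fderiv ℝ a w v := by
    intro w v
    have h1 : DifferentiableAt ℝ a w := (ca1.differentiable (by norm_num)).differentiableAt
    have h2 : DifferentiableAt ℝ (fun w => fderiv ℝ b w I) w :=
      ((ddsq_fderiv_dir cb I).differentiable (by norm_num)).differentiableAt
    rw [hP, fderiv_fun_mul h1 h2]
    simp only [add_apply, smul_apply, smul_eq_mul]
    rw [ddsq_fderiv_fderiv cb]
  have dQ : ∀ w v, fderiv ℝ Q w v = a w * fderiv ℝ (fderiv ℝ b) w v 1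
      + fderiv ℝ b w 1 * fderiv ℝ a w v := by
    intro w v
    have h1 : DifferentiableAt ℝ a w := (ca1.differentiable (by norm_num)).differentiableAt
    have h2 : DifferentiableAt ℝ (fun w => fderiv ℝ b w 1) w :=
      ((ddsq_fderiv_dir cb 1).differentiable (by norm_num)).differentiableAt
    rw [hQ, fderiv_fun_mul h1 h2]
    simp only [add_apply, smul_apply, smul_eq_mul]
    rw [ddsq_fderiv_fderiv cb]
  have dZ : ∀ w v, fderiv ℝ Z w v = ⟨fderiv ℝ P w v, fderiv ℝ Q w v⟩ := by
    intro w v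
    have hZd : HasFDerivAt Z (fderiv ℝ Z w) w :=
      (cZ.differentiable (by norm_num)).differentiableAt.hasFDerivAt
    have h1 : HasFDerivAt P (Complex.reCLM.comp (fderiv ℝ Z w)) w := by
      have := Complex.reCLM.hasFDerivAt.comp w hZd
      have e : (⇑Complex.reCLM ∘ Z) = P := by funext z; simp [hZ]
      rwa [e] at this
    have h2 : HasFDerivAt Q (Complex.imCLM.comp (fderiv ℝ Z w)) w := by
      have := Complex.imCLM.hasFDerivAt.comp w hZd
      have e : (⇑Complex.imCLM ∘ Z) = Q := by funext z; simp [hZ]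
      rwa [e] at this
    rw [h1.fderiv, h2.fderiv]
    apply Complex.ext <;> simp
  have dbZ : ∀ w, (db Z w).re = fderiv ℝ a w 1 * fderiv ℝ b w I
      - fderiv ℝ a w I * fderiv ℝ b w 1 := by
    intro w
    have : (db Z w).re = fderiv ℝ P w 1 - fderiv ℝ Q w I := by
      simp [db, dZ, sub_eq_add_neg]
    rw [this, dP, dQ, ddsq_symm cb w 1 I]
    ring
  -- apply the cut lemma
  have cda : ∀ v : ℂ, Continuous (fun w => fderiv ℝ a w v) := fun v =>
    (ddsq_fderiv_dir ca v).continuous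
  have cdb : ∀ v : ℂ, Continuous (fun w => fderiv ℝ b w v) := fun v =>
    (ddsq_fderiv_dir cb v).continuous
  have intc : ∀ F : ℂ → ℝ, Continuous F → IntegrableOn F D := by
    intro F hF
    exact (hF.continuousOn.integrableOn_compact (isCompact_closedBall (0:ℂ) 1)).mono_set
      ball_subset_closedBall
  have cT : Continuous (fun w => fderiv ℝ a w 1 * fderiv ℝ b w I
      - fderiv ℝ a w I * fderiv ℝ b w 1) :=
    ((cda 1).mul (cdb I)).sub ((cda I).mul (cdb 1))
  have key : ∫ w in D, (db Z w).re = 0 := by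
    -- tangential derivative
    set T : ℂ → ℝ := fun w => w.re * fderiv ℝ b w I - w.im * fderiv ℝ b w 1 with hT
    have cT1 : ContDiff ℝ 1 T :=
      (Complex.reCLM.contDiff.mul (ddsq_fderiv_dir cb I)).sub
        (Complex.imCLM.contDiff.mul (ddsq_fderiv_dir cb 1))
    have hT0 : ∀ w : ℂ, ‖w‖ = 1 → T w = 0 := by
      intro w hw
      have := ddsq_tangent cb hb0 w hw
      have e : I * w = w.re • I - w.im • (1:ℂ) := by
        apply Complex.ext <;> simp
      rw [e, map_sub, map_smul, map_smul, smul_eq_mul, smul_eq_mul] at this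
      exact this
    obtain ⟨L, hL⟩ : ∃ L : ℝ, ∀ w ∈ closedBall (0:ℂ) 1, ‖fderiv ℝ T w‖ ≤ L := by
      have hc : ContinuousOn (fun w => fderiv ℝ T w) (closedBall (0:ℂ) 1) :=
        (cT1.continuous_fderiv (by norm_num)).continuousOn
      exact (isCompact_closedBall (0:ℂ) 1).exists_bound_of_continuousOn hc
    obtain ⟨A, hA⟩ : ∃ A : ℝ, ∀ w ∈ closedBall (0:ℂ) 1, ‖a w‖ ≤ A :=
      (isCompact_closedBall (0:ℂ) 1).exists_bound_of_continuousOn ca.continuous.continuousOn
    obtain ⟨C, hC⟩ : ∃ C : ℝ, ∀ w ∈ closedBall (0:ℂ) 1, ‖Z w‖ ≤ C :=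
      (isCompact_closedBall (0:ℂ) 1).exists_bound_of_continuousOn cZ.continuous.continuousOn
    have hA0 : 0 ≤ A := le_trans (norm_nonneg _) (hA 0 (by simp))
    apply cut Z cZ.contDiffOn _ (fun _ => A * L) _ _ C
    · intro w hw _ _
      exact hC w (ball_subset_closedBall hw)
    · have : (fun w => (db Z w).re) = fun w => fderiv ℝ a w 1 * fderiv ℝ b w I
        - fderiv ℝ a w I * fderiv ℝ b w 1 := by funext w; exact dbZ w
      rw [this]
      exact intc _ cT
    · exact intc _ continuous_const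
    · intro w hw hw2
      have hwn : ‖w‖ < 1 := by simpa using hw
      have hpos : 0 < ‖w‖ := by linarith
      have e1 : (w * Z w).re = a w * T w := by
        simp only [hZ, hP, hQ, hT]
        simp
        ring
      rw [e1, abs_mul]
      set w' : ℂ := w / (‖w‖ : ℂ) with hw'
      have hw'n : ‖w'‖ = 1 := by
        rw [hw', norm_div, Complex.norm_real, norm_norm, div_self hpos.ne']
      have hd : ‖w - w'‖ = 1 - ‖w‖ := by
        have : w' - w = ((1 - ‖w‖ : ℝ) : ℂ) * w' := by
          rw [hw']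
          have : (‖w‖ : ℂ) ≠ 0 := by exact_mod_cast hpos.ne'
          push_cast
          field_simp
        rw [norm_sub_rev, this, norm_mul, hw'n, mul_one, Complex.norm_real, Real.norm_eq_abs,
          abs_of_nonneg (by linarith)]
      have hTl : ‖T w - T w'‖ ≤ L * ‖w - w'‖ := by
        apply Convex.norm_image_sub_le_of_norm_fderiv_le (𝕜 := ℝ) (s := closedBall (0:ℂ) 1)
        · intro z _
          exact (cT1.differentiable (by norm_num)).differentiableAt
        · exact hL
        · exact convex_closedBall _ _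
        · simp [hw'n]
        · exact ball_subset_closedBall hw
      rw [hT0 w' hw'n, sub_zero, hd, Real.norm_eq_abs] at hTl
      calc |a w| * |T w| ≤ A * (L * (1 - ‖w‖)) := by
            apply mul_le_mul _ hTl (abs_nonneg _) hA0
            simpa using hA w (ball_subset_closedBall hw)
        _ = A * L * (1 - ‖w‖) := by ring
  -- final computation
  have e : ∀ w, ‖dd g w‖ ^ 2 = ‖gr a w‖ ^ 2 + ‖gr b w‖ ^ 2 + 2 * (db Z w).re := by
    intro w
    rw [dbZ]
    rw [← Complex.normSq_eq_norm_sq, ← Complex.normSq_eq_norm_sq, ← Complex.normSq_eq_norm_sq]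
    simp only [dd, gr, dg, Complex.normSq_apply]
    simp
    ring
  have i1 : IntegrableOn (fun w => ‖gr a w‖ ^ 2) D := by
    apply intc
    have : (fun w => ‖gr a w‖ ^ 2) = fun w => fderiv ℝ a w 1 * fderiv ℝ a w 1
        + fderiv ℝ a w I * fderiv ℝ a w I := by
      funext w
      rw [← Complex.normSq_eq_norm_sq]
      simp [gr, Complex.normSq_apply]
    rw [this]
    exact ((cda 1).mul (cda 1)).add ((cda I).mul (cda I))
  have i2 : IntegrableOn (fun w => ‖gr b w‖ ^ 2) D := by
    apply intc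
    have : (fun w => ‖gr b w‖ ^ 2) = fun w => fderiv ℝ b w 1 * fderiv ℝ b w 1
        + fderiv ℝ b w I * fderiv ℝ b w I := by
      funext w
      rw [← Complex.normSq_eq_norm_sq]
      simp [gr, Complex.normSq_apply]
    rw [this]
    exact ((cdb 1).mul (cdb 1)).add ((cdb I).mul (cdb I))
  have i3 : IntegrableOn (fun w => (db Z w).re) D := by
    have : (fun w => (db Z w).re) = fun w => fderiv ℝ a w 1 * fderiv ℝ b w I
      - fderiv ℝ a w I * fderiv ℝ b w 1 := by funext w; exact dbZ w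
    rw [this]
    exact intc _ cT
  have e2 : ∫ w in D, ‖dd g w‖ ^ 2
      = ∫ w in D, ((‖gr a w‖ ^ 2 + ‖gr b w‖ ^ 2) + 2 * (db Z w).re) := by
    simp_rw [e]
  have i12 : IntegrableOn (fun w => ‖gr a w‖ ^ 2 + ‖gr b w‖ ^ 2) D := i1.add i2
  rw [e2, integral_add i12 (i3.const_mul 2), integral_add i1 i2, integral_const_mul, key]
  ring

end Crest.Agent.HS
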