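import Mathlib

/-!
Row 101 (S0133, hot spots).  Basic definitions for the proof in the unit disc.

`f` is the Riemann map (`f 0 = 0` is the alleged critical point), `tau f = |f'|^2`,
`θ = c - u ∘ f` where `u` is the eigenfunction, `c = u(x₀)`, so that
`Δθ = κ τ (c - θ)` with Neumann condition, all in the weak sense.
`ph q w = q/w + conj q * w` is real on the unit circle, with a simple pole at `0`
(used for `q = 1` and `q = I`).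
-/

set_option autoImplicit false

noncomputable section

namespace Crest.Agent.HS

open MeasureTheory Complex Metric Set
open scoped ComplexConjugate Topology

/-- the open unit disc -/
abbrev D : Set ℂ := ball (0 : ℂ) 1

/-- complex gradient `χ_x - i χ_y` of a real function -/
def gr (χ : ℂ → ℝ) (w : ℂ) : ℂ := ⟨fderiv ℝ χ w 1, -(fderiv ℝ χ w I)⟩

/-- `2∂` of a complex function -/
def dd (X : ℂ → ℂ) (w : ℂ) : ℂ := fderiv ℝ X w 1 - I * fderiv ℝ X w I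

/-- `2∂̄` of a complex function -/
def db (X : ℂ → ℂ) (w : ℂ) : ℂ := fderiv ℝ X w 1 + I * fderiv ℝ X w I

/-- the conformal density -/
def tau (f : ℂ → ℂ) (w : ℂ) : ℝ := ‖deriv f w‖ ^ 2

/-- bounded conformal map of the disc with `f 0 = 0` -/
structure Conf (f : ℂ → ℂ) : Prop where
  diff : DifferentiableOn ℂ f D
  inj : InjOn f D
  bdd : ∃ M : ℝ, ∀ w ∈ D, ‖f w‖ ≤ M
  zero : f 0 = 0
  dne : ∀ w ∈ D, deriv f w ≠ 0
  area : IntegrableOn (tau f) D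

/-- test functions: `C¹` in the open disc, finite energy, square integrable for `τ` -/
structure Test (f : ℂ → ℂ) (χ : ℂ → ℝ) : Prop where
  c1 : ContDiffOn ℝ 1 χ D
  en : IntegrableOn (fun w => ‖gr χ w‖ ^ 2) D
  l2 : IntegrableOn (fun w => tau f w * χ w ^ 2) D

/-- the Poincaré inequality with constant `κ` -/
def Poin (f : ℂ → ℂ) (κ : ℝ) : Prop :=
  ∀ χ : ℂ → ℝ, Test f χ → ∫ w in D, tau f w * χ w = 0 →
    κ * ∫ w in D, tau f w * χ w ^ 2 ≤ ∫ w in D, ‖gr χ w‖ ^ 2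

/-- `θ = c - u∘f`, with a critical point at `0` -/
structure Sol (f : ℂ → ℂ) (κ c : ℝ) (θ : ℂ → ℝ) : Prop where
  conf : Conf f
  κpos : 0 < κ
  test : Test f θ
  near : ∃ C : ℝ, ∀ w ∈ ball (0 : ℂ) (1 / 2), |θ w| ≤ C * ‖w‖ ^ 2 ∧ ‖gr θ w‖ ≤ C * ‖w‖
  weak : ∀ χ : ℂ → ℝ, Test f χ →
    ∫ w in D, (gr θ w * conj (gr χ w)).re = -κ * ∫ w in D, tau f w * ((c - θ w) * χ w)
  poin : Poin f κ

/-- admissible complex test functions: smooth on the whole plane, real on the unit circle -/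
structure Adm (g : ℂ → ℂ) : Prop where
  smooth : ContDiff ℝ 2 g
  bdry : ∀ w : ℂ, ‖w‖ = 1 → (g w).im = 0

/-- real on the unit circle, simple pole at `0` -/
def ph (q w : ℂ) : ℂ := q / w + conj q * w

/-- the derivative of `ph q` -/
def dph (q w : ℂ) : ℂ := -q / w ^ 2 + conj q

/-- the explicit tangential field: `db (Kf f q) = τ (ph q - chi f q)` -/
def Kf (f : ℂ → ℂ) (q w : ℂ) : ℂ :=
  (1 / 2) * (I * ((ph q w).im : ℂ) * conj (f w) * deriv f w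
    - (1 / 2) * ((‖f w‖ ^ 2 : ℝ) : ℂ) * dph q w)

/-- real part of `(f * ph q)' / f'` -/
def chi (f : ℂ → ℂ) (q w : ℂ) : ℝ := (ph q w + f w * dph q w / deriv f w).re

/-- the test field -/
def vf (f : ℂ → ℂ) (κ c : ℝ) (θ : ℂ → ℝ) (q w : ℂ) : ℂ :=
  ph q w * gr θ w - ((κ * c : ℝ) : ℂ) * Kf f q w

/-- `db (vf ..) = τ * sg ..` -/
def sg (f : ℂ → ℂ) (κ c : ℝ) (θ : ℂ → ℝ) (q w : ℂ) : ℂ :=
  ((-κ * θ w : ℝ) : ℂ) * ph q w + ((κ * c * chi f q w : ℝ) : ℂ)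

/-- `t = |w|²` -/
def tt (w : ℂ) : ℝ := ‖w‖ ^ 2

/-- `Φ = Σ_q |ph q|² = 2 (t + 1/t)` -/
def Ph (w : ℂ) : ℝ := 2 * (tt w + (tt w)⁻¹)

/-- `Y = Σ_q (Im ph q)² = (1-t)²/t` -/
def Yf (w : ℂ) : ℝ := (1 - tt w) ^ 2 / tt w

/-- `h = f / w` (removable singularity) -/
def hh (f : ℂ → ℂ) (w : ℂ) : ℂ := dslope f 0 w

/-- `B₀ = (1-t²) Re (f' conj h) + (1+t²)|h|² - (1-t)² |f'|²` -/
def B0 (f : ℂ → ℂ) (w : ℂ) : ℝ :=
  (1 - tt w ^ 2) * (deriv f w * conj (hh f w)).re + (1 + tt w ^ 2) * ‖hh f w‖ ^ 2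
    - (1 - tt w) ^ 2 * tau f w

/-- `Σ_q |K_q|²` -/
def K2 (f : ℂ → ℂ) (w : ℂ) : ℝ :=
  (1 / 4) * ((1 - tt w) ^ 2 * ‖hh f w‖ ^ 2 * tau f w + (1 / 2) * (1 + tt w ^ 2) * ‖hh f w‖ ^ 4
    + (1 - tt w ^ 2) * ‖hh f w‖ ^ 2 * (deriv f w * conj (hh f w)).re)

/-- `(f * ph q)' / f'`, the derivative of `E = p φ` with respect to `p` -/
def Ep (f : ℂ → ℂ) (q w : ℂ) : ℂ := ph q w + f w * dph q w / deriv f w

/-- coefficient polynomials, `M = (m+2)/2`, `1 - t²/2 ≥ 1/(1+t²)` -/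
def alP (m : ℕ) (t : ℝ) : ℝ :=
  (1 / 4) * ((1 - t ^ 2 / 2) * ((1 / 2) * (1 - t ^ 2) ^ 2 * (((m : ℝ) + 2) / 2) ^ 2
      + (1 + t ^ 2) ^ 2 + 2 * (1 - t ^ 4) * (((m : ℝ) + 2) / 2)
      - 2 * (1 + t ^ 2) * (1 - t) ^ 2 * (((m : ℝ) + 2) / 2) ^ 2)
    - ((1 - t) ^ 2 * (((m : ℝ) + 2) / 2) ^ 2 + (1 / 2) * (1 + t ^ 2)
      + (1 - t ^ 2) * (((m : ℝ) + 2) / 2)))

def beP (m : ℕ) (t : ℝ) : ℝ :=
  -(1 / 4) * ((1 - t ^ 2 / 2) * ((1 / 2) * (1 - t ^ 2) ^ 2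
      - 2 * (1 - t ^ 2) * (1 - t) ^ 2 * (((m : ℝ) + 2) / 2)))

def gaP (_m : ℕ) (t : ℝ) : ℝ := (1 / 4) * ((1 - t ^ 2 / 2) * (1 - t) ^ 4)

def alC (m : ℕ) : ℝ := ∫ t in (0 : ℝ)..1, t ^ m * alP m t
def beC (m : ℕ) : ℝ := ∫ t in (0 : ℝ)..1, t ^ m * beP m t
def gaC (m : ℕ) : ℝ := ∫ t in (0 : ℝ)..1, t ^ m * gaP m t

/-- coefficients of `h²` and of `f'^2` -/
def cc (a : ℕ → ℂ) (m : ℕ) : ℂ := ∑ p ∈ Finset.HasAntidiagonal.antidiagonal m, a p.1 * a p.2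
def dc (a : ℕ → ℂ) (m : ℕ) : ℂ :=
  ∑ p ∈ Finset.HasAntidiagonal.antidiagonal m, ((p.1 : ℂ) + 1) * ((p.2 : ℂ) + 1) * (a p.1 * a p.2)

/-- Taylor coefficients of `f` -/
def Coef (f : ℂ → ℂ) (a : ℕ → ℂ) : Prop :=
  ∀ w ∈ D, HasSum (fun j => a j * w ^ (j + 1)) (f w)

end Crest.Agent.HS
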