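import Crest.Agent.HS.Defs
set_option autoImplicit false
noncomputable section
namespace Crest.Agent.HS
open MeasureTheory Complex Metric Set
open scoped ComplexConjugate Topology

namespace DensAux

lemma hfd (a b : ℂ) (n m j : ℕ) (w : ℂ) :
    HasFDerivAt (fun w : ℂ => a * conj w ^ n * w ^ m + b * conj w ^ j)
      ((a * conj w ^ n) • ((m • w ^ (m - 1)) • (ContinuousLinearMap.id ℝ ℂ))
        + (w ^ m) • (a • ((n • conj w ^ (n - 1)) • (conjCLE : ℂ →L[ℝ] ℂ)))
        + b • ((j • conj w ^ (j - 1)) • (conjCLE : ℂ →L[ℝ] ℂ))) w := by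
  have h1 : HasFDerivAt (fun w : ℂ => conj w) (conjCLE : ℂ →L[ℝ] ℂ) w := conjCLE.hasFDerivAt
  have h2 : HasFDerivAt (fun w : ℂ => w) (ContinuousLinearMap.id ℝ ℂ) w := hasFDerivAt_id w
  exact (((h1.pow n).const_mul a).mul (h2.pow m)).add ((h1.pow j).const_mul b)

lemma dd_gen (a b : ℂ) (n m j : ℕ) (w : ℂ) :
    dd (fun w : ℂ => a * conj w ^ n * w ^ (m + 1) + b * conj w ^ j) w
      = 2 * (m + 1) * a * (conj w ^ n * w ^ m) := by
  unfold dd
  rw [(hfd a b n (m + 1) j w).fderiv]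
  simp
  ring_nf
  simp
  ring

lemma smooth_gen (a b : ℂ) (n m j : ℕ) :
    ContDiff ℝ 2 (fun w : ℂ => a * conj w ^ n * w ^ m + b * conj w ^ j) := by
  have hc : ContDiff ℝ 2 (fun w : ℂ => conj w) := Complex.conjCLE.contDiff
  have hi : ContDiff ℝ 2 (fun w : ℂ => w) := contDiff_id
  exact ((contDiff_const.mul (hc.pow n)).mul (hi.pow m)).add (contDiff_const.mul (hc.pow j))

lemma adm_mon (c : ℂ) (n m : ℕ) :
    ∃ g, Adm g ∧ ∀ w, dd g w = c * (conj w ^ n * w ^ m) := by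
  set c' : ℂ := c / (2 * (m + 1)) with hc'
  have hm : (2 * ((m : ℂ) + 1)) ≠ 0 := by
    have : ((m : ℂ) + 1) ≠ 0 := Nat.cast_add_one_ne_zero m
    simp [this]
  have hcc : 2 * ((m : ℂ) + 1) * c' = c := by
    rw [hc']; field_simp
  have hcirc : ∀ w : ℂ, ‖w‖ = 1 → conj w * w = 1 := by
    intro w hw
    rw [mul_comm, Complex.mul_conj, Complex.normSq_eq_norm_sq, hw]; simp
  rcases Nat.lt_or_ge m n with h | h
  · -- `m + 1 ≤ n`
    obtain ⟨k, rfl⟩ : ∃ k, n = k + (m + 1) := ⟨n - (m + 1), by omega⟩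
    refine ⟨fun w => c' * conj w ^ (k + (m + 1)) * w ^ (m + 1) + (-c') * conj w ^ k,
      ⟨smooth_gen _ _ _ _ _, ?_⟩, ?_⟩
    · intro w hw
      have : c' * conj w ^ (k + (m + 1)) * w ^ (m + 1) + (-c') * conj w ^ k = 0 := by
        have h1 : conj w ^ (k + (m + 1)) * w ^ (m + 1) = conj w ^ k := by
          rw [pow_add, mul_assoc, ← mul_pow, hcirc w hw, one_pow, mul_one]
        rw [mul_assoc, h1]; ring
      rw [this]; simp
    · intro w
      rw [dd_gen, hcc]
  · obtain ⟨k, rfl⟩ : ∃ k, m = k + n := ⟨m - n, by omega⟩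
    refine ⟨fun w => c' * conj w ^ n * w ^ ((k + n) + 1) + (conj c') * conj w ^ (k + 1),
      ⟨smooth_gen _ _ _ _ _, ?_⟩, ?_⟩
    · intro w hw
      have h1 : conj w ^ n * w ^ (k + n + 1) = w ^ (k + 1) := by
        have : w ^ (k + n + 1) = w ^ n * w ^ (k + 1) := by ring
        rw [this, ← mul_assoc, ← mul_pow, hcirc w hw, one_pow, one_mul]
      have h2 : c' * conj w ^ n * w ^ ((k + n) + 1) + (conj c') * conj w ^ (k + 1)
          = c' * w ^ (k + 1) + conj (c' * w ^ (k + 1)) := by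
        rw [mul_assoc, h1, map_mul, map_pow]
      show (c' * conj w ^ n * w ^ ((k + n) + 1) + (conj c') * conj w ^ (k + 1)).im = 0
      rw [h2, add_im, conj_im]; ring
    · intro w
      rw [dd_gen, hcc]

lemma dd_add {g h : ℂ → ℂ} (hg : ContDiff ℝ 2 g) (hh : ContDiff ℝ 2 h) (w : ℂ) :
    dd (fun w => g w + h w) w = dd g w + dd h w := by
  have h1 : DifferentiableAt ℝ g w := (hg.differentiable (by norm_num)) w
  have h2 : DifferentiableAt ℝ h w := (hh.differentiable (by norm_num)) w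
  unfold dd
  rw [fderiv_fun_add h1 h2]
  simp
  ring

lemma adm_add {g h : ℂ → ℂ} (hg : Adm g) (hh : Adm h) : Adm (fun w => g w + h w) :=
  ⟨hg.smooth.add hh.smooth, fun w hw => by simp [hg.bdry w hw, hh.bdry w hw]⟩

lemma adm_zero : Adm (fun _ => (0 : ℂ)) := ⟨contDiff_const, fun w _ => by simp⟩

lemma star_poly (s : Set ℂ) (p : C(s, ℂ)) (hp : p ∈ (polynomialFunctions s).starClosure) :
    ∀ c : ℂ, ∃ g, Adm g ∧ ∀ w : s, dd g w = c * p w := by
  rw [polynomialFunctions.starClosure_eq_adjoin_X] at hp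
  have hp' : p ∈ Subalgebra.toSubmodule (Algebra.adjoin ℂ
      ({Polynomial.toContinuousMapOnAlgHom s Polynomial.X} ∪
        star ({Polynomial.toContinuousMapOnAlgHom s Polynomial.X} : Set C(s, ℂ)))) := hp
  rw [Algebra.adjoin_eq_span] at hp'
  refine Submodule.span_induction (p := fun p _ => ∀ c : ℂ, ∃ g, Adm g ∧ ∀ w : s, dd g w = c * p w)
    ?_ ?_ ?_ ?_ hp'
  · intro x hx c
    rw [Set.star_singleton, Set.singleton_union, SetLike.mem_coe, Submonoid.mem_closure_pair] at hx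
    obtain ⟨m, n, rfl⟩ := hx
    obtain ⟨g, hg, hgw⟩ := adm_mon c n m
    refine ⟨g, hg, fun w => ?_⟩
    rw [hgw]
    simp
    ring_nf
    simp
  · intro c
    refine ⟨_, adm_zero, fun w => ?_⟩
    simp [dd]
  · intro x y _ _ hx hy c
    obtain ⟨g, hg, hgw⟩ := hx c
    obtain ⟨h, hh, hhw⟩ := hy c
    refine ⟨_, adm_add hg hh, fun w => ?_⟩
    rw [dd_add hg.smooth hh.smooth, hgw, hhw]
    simp [mul_add]
  · intro a x _ hx c
    obtain ⟨g, hg, hgw⟩ := hx (c * a)
    refine ⟨g, hg, fun w => ?_⟩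
    rw [hgw]
    simp [mul_assoc]

end DensAux

/-- Hodge density: `dd g`, `g` admissible, are dense in `L²(D)`. -/
theorem dens (v : ℂ → ℂ) (hv : MemLp v 2 (volume.restrict D)) (ε : ℝ) (hε : 0 < ε) :
    ∃ g : ℂ → ℂ, Adm g ∧ ∫ w in D, ‖v w - dd g w‖ ^ 2 < ε := by
  have hv' : MemLp v (ENNReal.ofReal 2) (volume.restrict D) := by
    simpa using hv
  obtain ⟨φ, hφ1, hφ2⟩ := hv'.exists_boundedContinuous_integral_rpow_sub_le (by norm_num)
    (ε := ε / 8) (by positivity)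
  have hcomp : CompactSpace (closedBall (0 : ℂ) 1) :=
    isCompact_iff_compactSpace.mp (isCompact_closedBall _ _)
  set ψ : C(closedBall (0 : ℂ) 1, ℂ) := φ.toContinuousMap.restrict _ with hψ
  have htop := polynomialFunctions.starClosure_topologicalClosure (closedBall (0 : ℂ) 1)
  have hmem : ψ ∈ closure ((polynomialFunctions (closedBall (0 : ℂ) 1)).starClosure :
      Set C(closedBall (0 : ℂ) 1, ℂ)) := by
    have : ψ ∈ (polynomialFunctions (closedBall (0 : ℂ) 1)).starClosure.topologicalClosure := by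
      rw [htop]; trivial
    rwa [← SetLike.mem_coe, StarSubalgebra.topologicalClosure_coe] at this
  set V : ℝ := (volume.restrict D).real Set.univ with hV
  have hV0 : 0 ≤ V := measureReal_nonneg
  have hfin : IsFiniteMeasure (volume.restrict D : Measure ℂ) :=
    ⟨by rw [Measure.restrict_apply_univ]; exact measure_ball_lt_top⟩
  set δ : ℝ := min 1 (ε / (8 * (V + 1))) with hδ
  have hδ0 : 0 < δ := lt_min one_pos (by positivity)
  obtain ⟨p, hp, hpd⟩ := Metric.mem_closure_iff.mp hmem δ hδ0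
  obtain ⟨g, hg, hgw⟩ := DensAux.star_poly _ p hp 1
  have hclose : ∀ w ∈ D, ‖φ w - dd g w‖ ≤ δ := by
    intro w hw
    have hwc : w ∈ closedBall (0 : ℂ) 1 := ball_subset_closedBall hw
    have h1 := hgw ⟨w, hwc⟩
    simp only [one_mul] at h1
    have h2 : dist (ψ ⟨w, hwc⟩) (p ⟨w, hwc⟩) ≤ dist ψ p := ContinuousMap.dist_apply_le_dist _
    rw [dist_eq_norm] at h2
    rw [h1]
    have h3 : ψ ⟨w, hwc⟩ = φ w := rfl
    rw [h3] at h2
    exact h2.trans hpd.le
  refine ⟨g, hg, ?_⟩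
  have hmeasdd : Continuous (dd g) := by
    have h1 : Continuous (fderiv ℝ g) := hg.smooth.continuous_fderiv (by norm_num)
    unfold dd
    fun_prop
  have hI1 : Integrable (fun w => ‖v w - φ w‖ ^ (2 : ℝ)) (volume.restrict D) := by
    have h1 := (hv'.sub hφ2)
    have h2 := h1.integrable_norm_rpow (by norm_num) (by simp)
    simpa using h2
  have hpt : ∀ w ∈ D, ‖v w - dd g w‖ ^ 2 ≤ 2 * ‖v w - φ w‖ ^ (2 : ℝ) + 2 * δ ^ 2 := by
    intro w hw
    have h1 : ‖v w - dd g w‖ ≤ ‖v w - φ w‖ + ‖φ w - dd g w‖ := by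
      have : v w - dd g w = (v w - φ w) + (φ w - dd g w) := by ring
      rw [this]; exact norm_add_le _ _
    have h2 := hclose w hw
    have h3 : ‖v w - φ w‖ ^ (2 : ℝ) = ‖v w - φ w‖ ^ 2 := by norm_cast
    rw [h3]
    have h4 : ‖v w - dd g w‖ ≤ ‖v w - φ w‖ + δ := by linarith
    have h5 : 0 ≤ ‖v w - dd g w‖ := norm_nonneg _
    nlinarith [sq_nonneg (‖v w - φ w‖ - δ), norm_nonneg (v w - φ w)]
  have hI2 : Integrable (fun w => 2 * ‖v w - φ w‖ ^ (2 : ℝ) + 2 * δ ^ 2) (volume.restrict D) :=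
    (hI1.const_mul 2).add (integrable_const _)
  have hle : ∫ w in D, ‖v w - dd g w‖ ^ 2 ≤ ∫ w in D, (2 * ‖v w - φ w‖ ^ (2 : ℝ) + 2 * δ ^ 2) := by
    apply integral_mono_of_nonneg
    · exact Filter.Eventually.of_forall fun w => by positivity
    · exact hI2
    · exact (ae_restrict_mem measurableSet_ball).mono fun w hw => hpt w hw
  have hval : ∫ w in D, (2 * ‖v w - φ w‖ ^ (2 : ℝ) + 2 * δ ^ 2)
      = 2 * (∫ w in D, ‖v w - φ w‖ ^ (2 : ℝ)) + V * (2 * δ ^ 2) := by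
    rw [integral_add (hI1.const_mul 2) (integrable_const _), integral_const_mul, integral_const,
      smul_eq_mul]
  have hδ1 : δ ≤ 1 := min_le_left _ _
  have hδ2 : δ ≤ ε / (8 * (V + 1)) := min_le_right _ _
  have hδ3 : δ * (8 * (V + 1)) ≤ ε := by
    rwa [le_div_iff₀ (by positivity)] at hδ2
  have hδ4 : V * (2 * δ ^ 2) ≤ ε / 4 := by
    have : V * δ ^ 2 ≤ V * δ := by
      apply mul_le_mul_of_nonneg_left _ hV0
      nlinarith
    nlinarith
  rw [hval] at hle
  linarith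

end Crest.Agent.HS
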