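import Crest.Agent.HS.DirAux
set_option autoImplicit false
noncomputable section
namespace Crest.Agent.HS
open MeasureTheory Complex Metric Set
open scoped ComplexConjugate Topology

section
variable {f : ℂ → ℂ} (hf : Conf f)
include hf

/-- bounded `C¹` functions `g (Re f)` with bounded derivative are test functions -/
theorem dir_test {g g' : ℝ → ℝ} (hg : ∀ x, HasDerivAt g (g' x) x) (hgc : ContDiff ℝ 1 g)
    {K : ℝ} (h1 : ∀ x, |g x| ≤ K) (h2 : ∀ x, |g' x| ≤ K) :
    Test f (fun w => g (f w).re) := by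
  have hre : ContDiffOn ℝ 1 (fun w => (f w).re) D :=
    reCLM.contDiff.comp_contDiffOn (dir_contDiffOn hf 1)
  have hc1 : ContDiffOn ℝ 1 (fun w => g (f w).re) D := hgc.comp_contDiffOn hre
  have hK : 0 ≤ K := (abs_nonneg _).trans (h1 0)
  refine ⟨hc1, ?_, ?_⟩
  · refine dir_int ((dir_gr_continuousOn hc1).norm.pow 2) (hf.area.const_mul (K ^ 2)) ?_
    intro w hw
    rw [dir_gr_comp hf hw (hg _), norm_mul, mul_pow, norm_real, Real.norm_eq_abs, sq_abs,
      abs_of_nonneg (by positivity)]
    have h3 := h2 (f w).re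
    have h4 : g' (f w).re ^ 2 ≤ K ^ 2 := by
      rw [← sq_abs]; exact pow_le_pow_left₀ (abs_nonneg _) h3 2
    unfold tau
    exact mul_le_mul_of_nonneg_right h4 (by positivity)
  · refine dir_int ((dir_tau_continuousOn hf).mul (hc1.continuousOn.pow 2))
      (hf.area.const_mul (K ^ 2)) ?_
    intro w hw
    have h0 : 0 ≤ tau f w := by unfold tau; positivity
    rw [abs_of_nonneg (by positivity), mul_comm]
    have h3 := h1 (f w).re
    have h4 : g (f w).re ^ 2 ≤ K ^ 2 := by
      rw [← sq_abs]; exact pow_le_pow_left₀ (abs_nonneg _) h3 2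
    exact mul_le_mul_of_nonneg_right h4 h0

end

theorem dir_hasDeriv_cos (ω φ x : ℝ) :
    HasDerivAt (fun x => Real.cos (ω * x - φ)) (-(Real.sin (ω * x - φ)) * ω) x := by
  have h : HasDerivAt (fun x : ℝ => ω * x - φ) ω x := by
    simpa using ((hasDerivAt_id x).const_mul ω).sub_const φ
  exact (Real.hasDerivAt_cos _).comp x h

theorem dir_hasDeriv_sin (ω φ x : ℝ) :
    HasDerivAt (fun x => Real.sin (ω * x - φ)) (Real.cos (ω * x - φ) * ω) x := by
  have h : HasDerivAt (fun x : ℝ => ω * x - φ) ω x := by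
    simpa using ((hasDerivAt_id x).const_mul ω).sub_const φ
  exact (Real.hasDerivAt_sin _).comp x h

theorem dir_hasDeriv_sin' (ω φ x : ℝ) :
    HasDerivAt (fun x => -(Real.sin (ω * x - φ)) * ω) (-(Real.cos (ω * x - φ) * ω) * ω) x :=
  ((dir_hasDeriv_sin ω φ x).neg).mul_const ω

/-- the cross term `∫ ∇b·∇P = ω² ∫ τ b P` -/
theorem dir_cross {f : ℂ → ℂ} (hf : Conf f) (b : ℂ → ℝ) (hb : ContDiff ℝ 2 b)
    (h0 : ∀ w : ℂ, ‖w‖ = 1 → b w = 0) (ω φ : ℝ) :
    IntegrableOn (fun w => (gr b w * conj (gr (fun z => Real.cos (ω * (f z).re - φ)) w)).re) D ∧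
    ∫ w in D, (gr b w * conj (gr (fun z => Real.cos (ω * (f z).re - φ)) w)).re =
      ω ^ 2 * ∫ w in D, tau f w * (b w * Real.cos (ω * (f w).re - φ)) := by
  obtain ⟨C, hC0, hCb, hCg, hCe⟩ := dir_bound hb h0
  have hbd : Differentiable ℝ b := hb.differentiable (by norm_num)
  have hτ0 : ∀ w, 0 ≤ tau f w := fun w => by unfold tau; positivity
  have hre : ContDiffOn ℝ 1 (fun w => (f w).re) D :=
    reCLM.contDiff.comp_contDiffOn (dir_contDiffOn hf 1)
  have hθ : ContDiffOn ℝ 1 (fun w => ω * (f w).re - φ) D :=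
    (contDiffOn_const.mul hre).sub contDiffOn_const
  have hcos : ContDiffOn ℝ 1 (fun w => Real.cos (ω * (f w).re - φ)) D :=
    Real.contDiff_cos.comp_contDiffOn hθ
  have hsin : ContDiffOn ℝ 1 (fun w => Real.sin (ω * (f w).re - φ)) D :=
    Real.contDiff_sin.comp_contDiffOn hθ
  have hp : ContDiffOn ℝ 1 (fun w => -(Real.sin (ω * (f w).re - φ)) * ω) D :=
    hsin.neg.mul contDiffOn_const
  have hb1 : ContDiffOn ℝ 1 b D := (hb.of_le (by norm_num)).contDiffOn
  set p : ℂ → ℝ := fun w => -(Real.sin (ω * (f w).re - φ)) * ω with hpdef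
  have hr : ContDiffOn ℝ 1 (fun w => b w * p w) D := hb1.mul hp
  set Z : ℂ → ℂ := fun w => ((b w * p w : ℝ) : ℂ) * deriv f w with hZdef
  have hZ : ContDiffOn ℝ 1 Z D :=
    (ofRealCLM.contDiff.comp_contDiffOn hr).mul (dir_contDiffOn' hf 1)
  -- absolutely integrable majorant
  have hD : IntegrableOn (fun _ : ℂ => (1 : ℝ)) D :=
    integrableOn_const (measure_ball_lt_top (x := (0 : ℂ)) (r := 1)).ne
  have hf1 : IntegrableOn (fun w => ‖deriv f w‖) D := by
    refine dir_int (dir_contDiffOn' hf 1).continuousOn.norm (hD.add hf.area) ?_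
    intro w hw
    rw [abs_of_nonneg (norm_nonneg _)]
    show ‖deriv f w‖ ≤ 1 + ‖deriv f w‖ ^ 2
    nlinarith [norm_nonneg (deriv f w), sq_nonneg (‖deriv f w‖ - 1)]
  have hgrP : ∀ w ∈ D, gr (fun z => Real.cos (ω * (f z).re - φ)) w =
      ((p w : ℝ) : ℂ) * deriv f w := fun w hw =>
    dir_gr_comp hf hw (g := fun x => Real.cos (ω * x - φ)) (dir_hasDeriv_cos ω φ _)
  have hpb : ∀ w, |p w| ≤ |ω| := by
    intro w
    rw [hpdef]
    simp only [abs_mul, abs_neg]
    have := Real.abs_sin_le_one (ω * (f w).re - φ)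
    nlinarith [abs_nonneg ω]
  have hdb : ∀ w ∈ D, (db Z w).re =
      (gr b w * conj (gr (fun z => Real.cos (ω * (f z).re - φ)) w)).re -
        ω ^ 2 * (tau f w * (b w * Real.cos (ω * (f w).re - φ))) := by
    intro w hw
    have hpd : DifferentiableAt ℝ p w :=
      (hp.differentiableOn (by norm_num)).differentiableAt (isOpen_ball.mem_nhds hw)
    have hrd : DifferentiableAt ℝ (fun z => b z * p z) w := (hbd w).fun_mul hpd
    rw [hgrP w hw, hZdef, dir_db hf hw hrd, dir_gr_mul (hbd w) hpd]
    have hgp : gr p w = ((-(Real.cos (ω * (f w).re - φ) * ω) * ω : ℝ) : ℂ) * deriv f w :=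
      dir_gr_comp hf hw (g := fun x => -(Real.sin (ω * x - φ)) * ω) (dir_hasDeriv_sin' ω φ _)
    rw [hgp]
    have ht : tau f w = (deriv f w).re ^ 2 + (deriv f w).im ^ 2 := by
      unfold tau; rw [Complex.sq_norm, Complex.normSq_apply]; ring
    rw [ht]
    simp only [map_add, map_mul, conj_ofReal, add_mul, add_re, mul_re, mul_im, ofReal_re,
      ofReal_im, conj_re, conj_im]
    ring
  have hint1 : IntegrableOn
      (fun w => (gr b w * conj (gr (fun z => Real.cos (ω * (f z).re - φ)) w)).re) D := by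
    refine dir_int ?_ (hf1.const_mul (C * |ω|)) ?_
    · exact continuous_re.comp_continuousOn ((dir_gr_continuousOn hb1).mul
        (continuous_conj.comp_continuousOn (dir_gr_continuousOn hcos)))
    · intro w hw
      refine (abs_re_le_norm _).trans ?_
      rw [norm_mul, RCLike.norm_conj, hgrP w hw, norm_mul, norm_real, Real.norm_eq_abs,
        mul_assoc]
      exact mul_le_mul (hCg w hw) (mul_le_mul_of_nonneg_right (hpb w) (norm_nonneg _))
        (by positivity) hC0
  have hint2 : IntegrableOn (fun w => tau f w * (b w * Real.cos (ω * (f w).re - φ))) D := by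
    refine dir_int ((dir_tau_continuousOn hf).mul (hb1.continuousOn.mul hcos.continuousOn))
      (hf.area.const_mul C) ?_
    intro w hw
    rw [abs_mul, abs_mul, abs_of_nonneg (hτ0 w), mul_comm]
    refine mul_le_mul_of_nonneg_right ?_ (hτ0 w)
    have h1 := hCb w hw
    have h2 := Real.abs_cos_le_one (ω * (f w).re - φ)
    nlinarith [abs_nonneg (b w), abs_nonneg (Real.cos (ω * (f w).re - φ))]
  have hint : IntegrableOn (fun w => (db Z w).re) D :=
    (hint1.sub (hint2.const_mul (ω ^ 2))).congr_fun (fun w hw => (hdb w hw).symm)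
      measurableSet_ball
  obtain ⟨C', hC'⟩ := (isCompact_closedBall (0 : ℂ) (1 / 2)).exists_bound_of_continuousOn
    (hZ.continuousOn.mono (closedBall_subset_ball (by norm_num)))
  have hcut := cut Z (hZ.mono sdiff_subset) hint (fun w => C * |ω| * ‖deriv f w‖)
    (hf1.const_mul (C * |ω|)) ?_ C' ?_
  · rw [setIntegral_congr_fun measurableSet_ball hdb, integral_sub hint1 (hint2.const_mul _),
      integral_const_mul] at hcut
    exact ⟨hint1, by linarith⟩
  · intro w hw hw2
    have h1 : ‖w * Z w‖ ≤ (C * (1 - ‖w‖)) * (|ω| * ‖deriv f w‖) := by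
      rw [norm_mul, hZdef]
      simp only [norm_mul, norm_real, Real.norm_eq_abs, abs_mul]
      have hw1 : ‖w‖ ≤ 1 := by have : ‖w‖ < 1 := by simpa using hw
                               linarith
      have h2 := hCe w hw hw2
      have h3 : |b w| * |p w| * ‖deriv f w‖ ≤ (C * (1 - ‖w‖)) * (|ω| * ‖deriv f w‖) := by
        rw [mul_assoc]
        exact mul_le_mul h2 (mul_le_mul_of_nonneg_right (hpb w) (norm_nonneg _))
          (by positivity) (mul_nonneg hC0 (by linarith))
      refine le_trans ?_ h3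
      have h4 : 0 ≤ |b w| * |p w| * ‖deriv f w‖ := by positivity
      nlinarith
    refine ((abs_re_le_norm _).trans h1).trans (le_of_eq ?_)
    ring
  · intro w hw _ hw2
    exact hC' w (by simpa using hw2.le)

/-- `κ ≤ λ_Dirichlet` (Filonov's exponential trick). -/
theorem dirichlet {f : ℂ → ℂ} {κ : ℝ} (hf : Conf f) (hκ : 0 < κ) (hP : Poin f κ)
    (b : ℂ → ℝ) (hb : ContDiff ℝ 2 b) (h0 : ∀ w : ℂ, ‖w‖ = 1 → b w = 0) :
    κ * ∫ w in D, tau f w * b w ^ 2 ≤ ∫ w in D, ‖gr b w‖ ^ 2 := by
  obtain ⟨C, hC0, hCb, hCg, -⟩ := dir_bound hb h0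
  have hbd : Differentiable ℝ b := hb.differentiable (by norm_num)
  have hb1 : ContDiffOn ℝ 1 b D := (hb.of_le (by norm_num)).contDiffOn
  have hτ0 : ∀ w, 0 ≤ tau f w := fun w => by unfold tau; positivity
  have hA := dir_area_pos hf
  have hD : IntegrableOn (fun _ : ℂ => (1 : ℝ)) D :=
    integrableOn_const (measure_ball_lt_top (x := (0 : ℂ)) (r := 1)).ne
  have hBint : IntegrableOn (fun w => tau f w * b w ^ 2) D := by
    refine dir_int ((dir_tau_continuousOn hf).mul (hb1.continuousOn.pow 2))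
      (hf.area.const_mul (C ^ 2)) ?_
    intro w hw
    rw [abs_of_nonneg (mul_nonneg (hτ0 w) (sq_nonneg _)), mul_comm]
    refine mul_le_mul_of_nonneg_right ?_ (hτ0 w)
    rw [← sq_abs]; exact pow_le_pow_left₀ (abs_nonneg _) (hCb w hw) 2
  have hGint : IntegrableOn (fun w => ‖gr b w‖ ^ 2) D := by
    refine dir_int ((dir_gr_continuousOn hb1).norm.pow 2) (hD.const_mul (C ^ 2)) ?_
    intro w hw
    rw [abs_of_nonneg (by positivity), mul_one]
    exact pow_le_pow_left₀ (norm_nonneg _) (hCg w hw) 2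
  set B2 : ℝ := ∫ w in D, tau f w * b w ^ 2 with hB2
  set GB : ℝ := ∫ w in D, ‖gr b w‖ ^ 2 with hGB
  have hB20 : 0 ≤ B2 := integral_nonneg fun w => mul_nonneg (hτ0 w) (sq_nonneg _)
  -- the key inequality for each δ
  have key : ∀ δ : ℝ, 0 < δ → δ < κ → (κ - δ) * B2 ≤ GB := by
    intro δ hδ hδκ
    obtain ⟨ω, hω⟩ : ∃ ω : ℝ, ω ^ 2 = κ - δ := ⟨Real.sqrt (κ - δ), Real.sq_sqrt (by linarith)⟩
    -- general facts for a phase φ
    have hTc : ∀ φ, Test f (fun w => Real.cos (ω * (f w).re - φ)) := fun φ =>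
      dir_test hf (g := fun x => Real.cos (ω * x - φ)) (K := 1 + |ω|)
        (fun x => dir_hasDeriv_cos ω φ x)
        (Real.contDiff_cos.comp ((contDiff_const.mul contDiff_id).sub contDiff_const))
        (fun x => (Real.abs_cos_le_one _).trans (by linarith [abs_nonneg ω]))
        (fun x => by
          rw [abs_mul, abs_neg]
          have := Real.abs_sin_le_one (ω * x - φ)
          nlinarith [abs_nonneg ω])
    have hTs : ∀ φ, Test f (fun w => Real.sin (ω * (f w).re - φ)) := fun φ =>
      dir_test hf (g := fun x => Real.sin (ω * x - φ)) (K := 1 + |ω|)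
        (fun x => dir_hasDeriv_sin ω φ x)
        (Real.contDiff_sin.comp ((contDiff_const.mul contDiff_id).sub contDiff_const))
        (fun x => (Real.abs_sin_le_one _).trans (by linarith [abs_nonneg ω]))
        (fun x => by
          rw [abs_mul]
          have := Real.abs_cos_le_one (ω * x - φ)
          nlinarith [abs_nonneg ω])
    have hintc : ∀ φ, IntegrableOn (fun w => tau f w * Real.cos (ω * (f w).re - φ)) D := by
      intro φ
      refine dir_int ((dir_tau_continuousOn hf).mul (hTc φ).c1.continuousOn) hf.area ?_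
      intro w hw
      rw [abs_mul, abs_of_nonneg (hτ0 w)]
      have := Real.abs_cos_le_one (ω * (f w).re - φ)
      nlinarith [hτ0 w]
    have hints : ∀ φ, IntegrableOn (fun w => tau f w * Real.sin (ω * (f w).re - φ)) D := by
      intro φ
      refine dir_int ((dir_tau_continuousOn hf).mul (hTs φ).c1.continuousOn) hf.area ?_
      intro w hw
      rw [abs_mul, abs_of_nonneg (hτ0 w)]
      have := Real.abs_sin_le_one (ω * (f w).re - φ)
      nlinarith [hτ0 w]
    -- energies
    have hGc : ∀ φ, ∫ w in D, ‖gr (fun z => Real.cos (ω * (f z).re - φ)) w‖ ^ 2 =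
        ω ^ 2 * ∫ w in D, tau f w * Real.sin (ω * (f w).re - φ) ^ 2 := by
      intro φ
      rw [← integral_const_mul]
      refine setIntegral_congr_fun measurableSet_ball fun w hw => ?_
      beta_reduce
      rw [dir_gr_comp hf hw (g := fun x => Real.cos (ω * x - φ)) (dir_hasDeriv_cos ω φ _),
        norm_mul, mul_pow, norm_real, Real.norm_eq_abs, sq_abs]
      unfold tau; ring
    have hGs : ∀ φ, ∫ w in D, ‖gr (fun z => Real.sin (ω * (f z).re - φ)) w‖ ^ 2 =
        ω ^ 2 * ∫ w in D, tau f w * Real.cos (ω * (f w).re - φ) ^ 2 := by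
      intro φ
      rw [← integral_const_mul]
      refine setIntegral_congr_fun measurableSet_ball fun w hw => ?_
      beta_reduce
      rw [dir_gr_comp hf hw (g := fun x => Real.sin (ω * x - φ)) (dir_hasDeriv_sin ω φ _),
        norm_mul, mul_pow, norm_real, Real.norm_eq_abs, sq_abs]
      unfold tau; ring
    have hsum : ∀ φ, (∫ w in D, tau f w * Real.cos (ω * (f w).re - φ) ^ 2) +
        (∫ w in D, tau f w * Real.sin (ω * (f w).re - φ) ^ 2) = ∫ w in D, tau f w := by
      intro φ
      rw [← integral_add (hTc φ).l2 (hTs φ).l2]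
      refine setIntegral_congr_fun measurableSet_ball fun w _ => ?_
      beta_reduce
      rw [← mul_add, Real.cos_sq_add_sin_sq, mul_one]
    -- the phase
    obtain ⟨φ, hφ⟩ : ∃ φ : ℝ, ∫ w in D, tau f w * Real.sin (ω * (f w).re - φ) = 0 := by
      set mc := ∫ w in D, tau f w * Real.cos (ω * (f w).re - 0) with hmc
      set ms := ∫ w in D, tau f w * Real.sin (ω * (f w).re - 0) with hms
      refine ⟨arg ⟨mc, ms⟩, ?_⟩
      set φ := arg ⟨mc, ms⟩ with hφ
      have e1 : ∫ w in D, tau f w * Real.sin (ω * (f w).re - φ) =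
          Real.cos φ * ms - Real.sin φ * mc := by
        rw [hms, hmc, ← integral_const_mul, ← integral_const_mul,
          ← integral_sub ((hints 0).const_mul _) ((hintc 0).const_mul _)]
        refine setIntegral_congr_fun measurableSet_ball fun w _ => ?_
        beta_reduce
        rw [Real.sin_sub, sub_zero]; ring
      rw [e1]
      have e2 : ‖(⟨mc, ms⟩ : ℂ)‖ * Real.cos φ = mc := norm_mul_cos_arg ⟨mc, ms⟩
      have e3 : ‖(⟨mc, ms⟩ : ℂ)‖ * Real.sin φ = ms := norm_mul_sin_arg ⟨mc, ms⟩
      linear_combination (-Real.cos φ) * e3 + Real.sin φ * e2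
    set P : ℂ → ℝ := fun w => Real.cos (ω * (f w).re - φ) with hPdef
    set Q : ℂ → ℝ := fun w => Real.sin (ω * (f w).re - φ) with hQdef
    set IP := ∫ w in D, tau f w * P w ^ 2 with hIP
    set IQ := ∫ w in D, tau f w * Q w ^ 2 with hIQ
    have hIP0 : 0 ≤ IP := integral_nonneg fun w => mul_nonneg (hτ0 w) (sq_nonneg _)
    have hIQ0 : 0 ≤ IQ := integral_nonneg fun w => mul_nonneg (hτ0 w) (sq_nonneg _)
    have hPQ : IP + IQ = ∫ w in D, tau f w := hsum φ
    have hQineq : κ * IQ ≤ ω ^ 2 * IP := by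
      have := hP Q (hTs φ) hφ
      rwa [hGs φ] at this
    set mP := ∫ w in D, tau f w * P w with hmP
    by_cases hm : mP = 0
    · exfalso
      have h1 : κ * IP ≤ ω ^ 2 * IQ := by
        have := hP P (hTc φ) hm
        rwa [hGc φ] at this
      have h2 : κ * (IP + IQ) ≤ (κ - δ) * (IP + IQ) := by
        rw [← hω]; linarith
      rw [hPQ] at h2
      nlinarith
    obtain ⟨hcr, hcross⟩ := dir_cross hf b hb h0 ω φ
    set X := ∫ w in D, tau f w * (b w * P w) with hX
    obtain ⟨t, ht⟩ : ∃ t : ℝ, t = -(∫ w in D, tau f w * b w) / mP := ⟨_, rfl⟩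
    have hbint : IntegrableOn (fun w => tau f w * b w) D := by
      refine dir_int ((dir_tau_continuousOn hf).mul hb1.continuousOn) (hf.area.const_mul C) ?_
      intro w hw
      rw [abs_mul, abs_of_nonneg (hτ0 w), mul_comm]
      exact mul_le_mul_of_nonneg_right (hCb w hw) (hτ0 w)
    have hXint : IntegrableOn (fun w => tau f w * (b w * P w)) D := by
      refine dir_int ((dir_tau_continuousOn hf).mul
        (hb1.continuousOn.mul (hTc φ).c1.continuousOn)) (hf.area.const_mul C) ?_
      intro w hw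
      rw [abs_mul, abs_mul, abs_of_nonneg (hτ0 w), mul_comm]
      refine mul_le_mul_of_nonneg_right ?_ (hτ0 w)
      have h1 := hCb w hw
      have h2 := Real.abs_cos_le_one (ω * (f w).re - φ)
      nlinarith [abs_nonneg (b w), abs_nonneg (P w)]
    have e1 : ∫ w in D, tau f w * (b w + t * P w) ^ 2 = B2 + 2 * t * X + t ^ 2 * IP := by
      have i1 : IntegrableOn (fun w => 2 * t * (tau f w * (b w * P w))) D := hXint.const_mul _
      have i2 : IntegrableOn (fun w => tau f w * b w ^ 2 + 2 * t * (tau f w * (b w * P w))) D :=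
        hBint.add i1
      have i3 : IntegrableOn (fun w => t ^ 2 * (tau f w * P w ^ 2)) D := (hTc φ).l2.const_mul _
      rw [hB2, hX, hIP, ← integral_const_mul, ← integral_const_mul, ← integral_add hBint i1,
        ← integral_add i2 i3]
      refine setIntegral_congr_fun measurableSet_ball fun w _ => ?_
      beta_reduce
      ring
    have hgr : ∀ w ∈ D, gr (fun z => b z + t * P z) w = gr b w + t * gr P w := fun w hw =>
      dir_gr_add (hbd w) (((hTc φ).c1.differentiableOn (by norm_num)).differentiableAt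
        (isOpen_ball.mem_nhds hw)) t
    have hnorm : ∀ w ∈ D, ‖gr (fun z => b z + t * P z) w‖ ^ 2 =
        ‖gr b w‖ ^ 2 + 2 * t * (gr b w * conj (gr P w)).re + t ^ 2 * ‖gr P w‖ ^ 2 := by
      intro w hw
      rw [hgr w hw, Complex.sq_norm, Complex.sq_norm, Complex.sq_norm, Complex.normSq_apply,
        Complex.normSq_apply, Complex.normSq_apply]
      simp only [add_re, add_im, mul_re, mul_im, ofReal_re, ofReal_im, conj_re, conj_im]
      ring
    have e2 : ∫ w in D, ‖gr (fun z => b z + t * P z) w‖ ^ 2 =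
        GB + 2 * t * (ω ^ 2 * X) + t ^ 2 * (ω ^ 2 * IQ) := by
      have i1 : IntegrableOn (fun w => 2 * t * (gr b w * conj (gr P w)).re) D :=
        hcr.const_mul _
      have i2 : IntegrableOn (fun w => ‖gr b w‖ ^ 2 + 2 * t * (gr b w * conj (gr P w)).re) D :=
        hGint.add i1
      have i3 : IntegrableOn (fun w => t ^ 2 * ‖gr P w‖ ^ 2) D := (hTc φ).en.const_mul _
      rw [setIntegral_congr_fun measurableSet_ball hnorm, integral_add i2 i3,
        integral_add hGint i1, integral_const_mul, integral_const_mul, hcross, hGc φ]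
    have hTest : Test f (fun w => b w + t * P w) := by
      have hc1 : ContDiffOn ℝ 1 (fun w => b w + t * P w) D :=
        hb1.add (contDiffOn_const.mul (hTc φ).c1)
      refine ⟨hc1, ?_, ?_⟩
      · exact ((hGint.add (hcr.const_mul (2 * t))).add ((hTc φ).en.const_mul (t ^ 2))).congr_fun
          (fun w hw => (hnorm w hw).symm) measurableSet_ball
      · refine ((hBint.add (hXint.const_mul (2 * t))).add
          ((hTc φ).l2.const_mul (t ^ 2))).congr_fun (fun w _ => ?_) measurableSet_ball
        simp only [Pi.add_apply]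
        ring
    have hmean : ∫ w in D, tau f w * (b w + t * P w) = 0 := by
      have e3 : ∫ w in D, tau f w * (b w + t * P w) = (∫ w in D, tau f w * b w) + t * mP := by
        rw [hmP, ← integral_const_mul, ← integral_add hbint ((hintc φ).const_mul _)]
        refine setIntegral_congr_fun measurableSet_ball fun w _ => ?_
        beta_reduce
        ring
      rw [e3, ht]
      field_simp
      ring
    have h1 := hP _ hTest hmean
    rw [e1, e2] at h1
    have h2 : 0 ≤ B2 + 2 * t * X + t ^ 2 * IP := by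
      rw [← e1]; exact integral_nonneg fun w => mul_nonneg (hτ0 w) (sq_nonneg _)
    have h3 : t ^ 2 * (κ * IQ) ≤ t ^ 2 * (ω ^ 2 * IP) :=
      mul_le_mul_of_nonneg_left hQineq (sq_nonneg t)
    rw [hω] at h1 h3
    have h4 : 0 ≤ t ^ 2 * IQ := mul_nonneg (sq_nonneg t) hIQ0
    nlinarith
  by_contra hcon
  rw [not_le] at hcon
  have hδ0 : 0 < min (κ / 2) ((κ * B2 - GB) / (2 * (B2 + 1))) := by
    apply lt_min (by linarith)
    apply div_pos (by linarith) (by linarith)
  have h1 := key _ hδ0 ((min_le_left _ _).trans_lt (by linarith))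
  have h2 : min (κ / 2) ((κ * B2 - GB) / (2 * (B2 + 1))) ≤ (κ * B2 - GB) / (2 * (B2 + 1)) :=
    min_le_right _ _
  have h3 : (κ * B2 - GB) / (2 * (B2 + 1)) * B2 ≤ (κ * B2 - GB) / 2 := by
    rw [div_mul_eq_mul_div, div_le_div_iff₀ (by linarith) (by norm_num)]
    nlinarith
  nlinarith [mul_le_mul_of_nonneg_right h2 hB20]

end Crest.Agent.HS
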