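import Crest.Agent.HS.Cut
set_option autoImplicit false
noncomputable section
namespace Crest.Agent.HS
open MeasureTheory Complex Metric Set
open scoped ComplexConjugate Topology

theorem dir_hasFDerivAt {f : ℂ → ℂ} (hf : Conf f) {w : ℂ} (hw : w ∈ D) :
    HasFDerivAt f (deriv f w • (1 : ℂ →L[ℝ] ℂ)) w :=
  (hf.diff.differentiableAt (isOpen_ball.mem_nhds hw)).hasDerivAt.complexToReal_fderiv

theorem dir_hasFDerivAt' {f : ℂ → ℂ} (hf : Conf f) {w : ℂ} (hw : w ∈ D) :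
    HasFDerivAt (deriv f) (deriv (deriv f) w • (1 : ℂ →L[ℝ] ℂ)) w :=
  ((hf.diff.deriv isOpen_ball).differentiableAt
    (isOpen_ball.mem_nhds hw)).hasDerivAt.complexToReal_fderiv

theorem dir_contDiffOn {f : ℂ → ℂ} (hf : Conf f) (n : ℕ) : ContDiffOn ℝ n f D :=
  (hf.diff.contDiffOn isOpen_ball).restrict_scalars ℝ

theorem dir_contDiffOn' {f : ℂ → ℂ} (hf : Conf f) (n : ℕ) : ContDiffOn ℝ n (deriv f) D :=
  ((hf.diff.deriv isOpen_ball).contDiffOn isOpen_ball).restrict_scalars ℝ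

/-- derivative of `g (Re f)` -/
theorem dir_comp {f : ℂ → ℂ} (hf : Conf f) {w : ℂ} (hw : w ∈ D) {g : ℝ → ℝ} {g' : ℝ}
    (hg : HasDerivAt g g' (f w).re) :
    HasFDerivAt (fun z => g (f z).re)
      (g' • (reCLM.comp (deriv f w • (1 : ℂ →L[ℝ] ℂ)))) w := by
  have h1 : HasFDerivAt (fun z => (f z).re) (reCLM.comp (deriv f w • (1 : ℂ →L[ℝ] ℂ))) w :=
    reCLM.hasFDerivAt.comp w (dir_hasFDerivAt hf hw)
  exact hg.comp_hasFDerivAt w h1

theorem dir_gr_comp {f : ℂ → ℂ} (hf : Conf f) {w : ℂ} (hw : w ∈ D) {g : ℝ → ℝ} {g' : ℝ}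
    (hg : HasDerivAt g g' (f w).re) :
    gr (fun z => g (f z).re) w = (g' : ℂ) * deriv f w := by
  unfold gr
  rw [(dir_comp hf hw hg).fderiv]
  apply Complex.ext <;> simp

theorem dir_gr_add {χ ψ : ℂ → ℝ} {w : ℂ} (h1 : DifferentiableAt ℝ χ w)
    (h2 : DifferentiableAt ℝ ψ w) (t : ℝ) :
    gr (fun z => χ z + t * ψ z) w = gr χ w + t * gr ψ w := by
  unfold gr
  rw [fderiv_fun_add h1 (h2.const_mul t), fderiv_const_mul h2]
  apply Complex.ext <;> simp <;> ring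

theorem dir_gr_mul {χ ψ : ℂ → ℝ} {w : ℂ} (h1 : DifferentiableAt ℝ χ w)
    (h2 : DifferentiableAt ℝ ψ w) :
    gr (fun z => χ z * ψ z) w = ψ w * gr χ w + χ w * gr ψ w := by
  unfold gr
  rw [fderiv_fun_mul h1 h2]
  apply Complex.ext <;> simp <;> ring

/-- `2∂̄ (r F) = conj (gr r) F` for `r` real, `F` holomorphic. -/
theorem dir_db {f : ℂ → ℂ} (hf : Conf f) {w : ℂ} (hw : w ∈ D) {r : ℂ → ℝ}
    (hr : DifferentiableAt ℝ r w) :
    db (fun z => (r z : ℂ) * deriv f z) w = conj (gr r w) * deriv f w := by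
  have h1 : HasFDerivAt (fun z => (r z : ℂ)) (ofRealCLM.comp (fderiv ℝ r w)) w :=
    ofRealCLM.hasFDerivAt.comp w hr.hasFDerivAt
  have h2 : HasFDerivAt (fun z => (r z : ℂ) * deriv f z) _ w := h1.mul (dir_hasFDerivAt' hf hw)
  unfold db
  rw [h2.fderiv]
  unfold gr
  apply Complex.ext <;> simp <;> ring

/-- `|b w| ≤ C (1 - |w|)`. -/
theorem dir_bound {b : ℂ → ℝ} (hb : ContDiff ℝ 2 b) (h0 : ∀ w : ℂ, ‖w‖ = 1 → b w = 0) :
    ∃ C : ℝ, 0 ≤ C ∧ (∀ w ∈ D, |b w| ≤ C) ∧ (∀ w ∈ D, ‖gr b w‖ ≤ C) ∧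
      ∀ w ∈ D, 1 / 2 ≤ ‖w‖ → |b w| ≤ C * (1 - ‖w‖) := by
  have hcomp : IsCompact (closedBall (0 : ℂ) 1) := isCompact_closedBall 0 1
  obtain ⟨C1, hC1⟩ := hcomp.exists_bound_of_continuousOn hb.continuous.continuousOn
  have hd : Continuous (fderiv ℝ b) := hb.continuous_fderiv (by norm_num)
  obtain ⟨C2, hC2⟩ := hcomp.exists_bound_of_continuousOn hd.continuousOn
  have h10 : (0 : ℂ) ∈ closedBall (0 : ℂ) 1 := mem_closedBall_self zero_le_one
  have hC10 : 0 ≤ C1 := (norm_nonneg _).trans (hC1 0 h10)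
  have hC20 : 0 ≤ C2 := (norm_nonneg _).trans (hC2 0 h10)
  refine ⟨C1 + 2 * C2, by positivity, ?_, ?_, ?_⟩
  · intro w hw
    have := hC1 w (ball_subset_closedBall hw)
    rw [Real.norm_eq_abs] at this
    linarith
  · intro w hw
    have h2 := hC2 w (ball_subset_closedBall hw)
    have h3 : |fderiv ℝ b w 1| ≤ C2 := by
      have := (fderiv ℝ b w).le_opNorm 1
      rw [norm_one, mul_one, Real.norm_eq_abs] at this
      linarith
    have h4 : |fderiv ℝ b w I| ≤ C2 := by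
      have := (fderiv ℝ b w).le_opNorm I
      rw [norm_I, mul_one, Real.norm_eq_abs] at this
      linarith
    have h5 := Complex.norm_le_abs_re_add_abs_im (gr b w)
    have h6 : |(gr b w).im| = |fderiv ℝ b w I| := by simp [gr]
    have h7 : |(gr b w).re| = |fderiv ℝ b w 1| := by simp [gr]
    rw [h6, h7] at h5
    linarith
  · intro w hw hw2
    have hw0 : 0 < ‖w‖ := by linarith
    have hw1 : ‖w‖ < 1 := by simpa using hw
    set z : ℂ := w / (‖w‖ : ℂ) with hz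
    have hz1 : ‖z‖ = 1 := by
      rw [hz, norm_div, Complex.norm_real, norm_norm, div_self hw0.ne']
    have hconv : Convex ℝ (closedBall (0 : ℂ) 1) := convex_closedBall 0 1
    have h3 := hconv.norm_image_sub_le_of_norm_fderiv_le (𝕜 := ℝ) (f := b) (C := C2)
      (fun x _ => (hb.differentiable (by norm_num)) x) (fun x hx => hC2 x hx)
      (show z ∈ closedBall (0 : ℂ) 1 by simp [hz1]) (ball_subset_closedBall hw)
    rw [h0 z hz1, sub_zero, Real.norm_eq_abs] at h3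
    have h4 : ‖w - z‖ = 1 - ‖w‖ := by
      have e1 : w - z = w * ((1 - 1 / ‖w‖ : ℝ) : ℂ) := by
        rw [hz]; push_cast; ring
      have e2 : (1 : ℝ) - 1 / ‖w‖ ≤ 0 := by
        rw [sub_nonpos, le_div_iff₀ hw0]; linarith
      rw [e1, norm_mul, Complex.norm_real, Real.norm_eq_abs, abs_of_nonpos e2]
      field_simp
      ring
    rw [h4] at h3
    have : 0 ≤ 1 - ‖w‖ := by linarith
    nlinarith [mul_nonneg hC10 this, mul_nonneg hC20 this]

theorem gr_eq (χ : ℂ → ℝ) (w : ℂ) :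
    gr χ w = ((fderiv ℝ χ w 1 : ℝ) : ℂ) - I * ((fderiv ℝ χ w I : ℝ) : ℂ) := by
  unfold gr
  apply Complex.ext <;> simp

theorem dir_gr_continuousOn {χ : ℂ → ℝ} (h : ContDiffOn ℝ 1 χ D) : ContinuousOn (gr χ) D := by
  have h1 : ContinuousOn (fderiv ℝ χ) D := h.continuousOn_fderiv_of_isOpen isOpen_ball le_rfl
  have h2 : gr χ = fun w => ((fderiv ℝ χ w 1 : ℝ) : ℂ) - I * ((fderiv ℝ χ w I : ℝ) : ℂ) :=
    funext (gr_eq χ)
  rw [h2]
  have h3 : ∀ v : ℂ, ContinuousOn (fun w => ((fderiv ℝ χ w v : ℝ) : ℂ)) D := fun v =>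
    continuous_ofReal.comp_continuousOn (h1.clm_apply continuousOn_const)
  exact (h3 1).sub (continuousOn_const.mul (h3 I))

theorem dir_int {g : ℂ → ℝ} (hg : ContinuousOn g D) {G : ℂ → ℝ} (hG : IntegrableOn G D)
    (h : ∀ w ∈ D, |g w| ≤ G w) : IntegrableOn g D :=
  Integrable.mono' hG (hg.aestronglyMeasurable measurableSet_ball)
    (ae_restrict_of_forall_mem measurableSet_ball fun w hw => by
      rw [Real.norm_eq_abs]; exact h w hw)

theorem dir_tau_continuousOn {f : ℂ → ℂ} (hf : Conf f) : ContinuousOn (tau f) D :=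
  ((dir_contDiffOn' hf 1).continuousOn.norm).pow 2

theorem dir_area_pos {f : ℂ → ℂ} (hf : Conf f) : 0 < ∫ w in D, tau f w := by
  rw [setIntegral_pos_iff_support_of_nonneg_ae
    (ae_of_all _ fun w => by unfold tau; positivity) hf.area]
  have h1 : Function.support (tau f) ∩ D = D := by
    apply inter_eq_right.2
    intro w hw
    have := norm_pos_iff.2 (hf.dne w hw)
    show tau f w ≠ 0
    unfold tau
    positivity
  rw [h1]
  exact measure_ball_pos _ _ one_pos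

end Crest.Agent.HS
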