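import Crest.Agent.HS.Area
set_option autoImplicit false
noncomputable section
namespace Crest.Agent.HS
open MeasureTheory Complex Metric Set
open scoped ComplexConjugate Topology

namespace ELinAux

theorem hasFPS {f : ℂ → ℂ} {b : ℕ → ℂ} (h : ∀ w ∈ D, HasSum (fun n => b n * w ^ n) (f w)) :
    HasFPowerSeriesOnBall f (.ofScalars ℂ b) 0 1 := by
  constructor
  · refine le_of_forall_lt_imp_le_of_dense fun r hr ↦ ?_
    lift r to NNReal using hr.ne_top
    apply FormalMultilinearSeries.le_radius_of_summable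
    have h1 := (h (r : ℂ) (by
      rw [mem_ball_zero_iff]
      have : (r : ENNReal) < 1 := hr
      have h2 : (r : ℝ) < 1 := by exact_mod_cast this
      simpa using h2)).summable.norm
    simpa [norm_mul, mul_comm] using h1
  · simp
  · intro y hy
    have hy' : y ∈ D := by
      rw [← ENNReal.coe_one, Metric.eball_coe, NNReal.coe_one] at hy
      exact hy
    simpa [mul_comm] using h y hy'

theorem hasSum_deriv {f : ℂ → ℂ} {b : ℕ → ℂ} (h : ∀ w ∈ D, HasSum (fun n => b n * w ^ n) (f w)) :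
    ∀ w ∈ D, HasSum (fun n : ℕ => (((n : ℂ) + 1) * b (n + 1)) * w ^ n) (deriv f w) := by
  intro w hw
  have H := (hasFPS h).fderiv
  have hw' : w ∈ Metric.eball (0 : ℂ) 1 := by
    rw [← ENNReal.coe_one, Metric.eball_coe, NNReal.coe_one]
    exact hw
  have h1 := H.hasSum hw'
  have h2 := h1.mapL (ContinuousLinearMap.apply ℂ ℂ (1 : ℂ))
  simp only [zero_add] at h2
  have e : (ContinuousLinearMap.apply ℂ ℂ (1 : ℂ)) (fderiv ℂ f w) = deriv f w := by
    simp
  rw [e] at h2
  refine h2.congr_fun ?_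
  intro n
  simp only [ContinuousLinearMap.apply_apply]
  rw [FormalMultilinearSeries.apply_eq_pow_smul_coeff]
  simp [FormalMultilinearSeries.derivSeries_coeff_one]
  ring

/-- coefficients of `f` itself -/
def bb (a : ℕ → ℂ) : ℕ → ℂ
  | 0 => 0
  | n + 1 => a n

theorem coef_bb {f : ℂ → ℂ} {a : ℕ → ℂ} (ha : Coef f a) :
    ∀ w ∈ D, HasSum (fun n => bb a n * w ^ n) (f w) := by
  intro w hw
  have h := (hasSum_nat_add_iff (f := fun n => bb a n * w ^ n) (g := f w) 1).1 (by
    simpa [bb] using ha w hw)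
  simpa [bb] using h

theorem coef_deriv {f : ℂ → ℂ} {a : ℕ → ℂ} (ha : Coef f a) :
    ∀ w ∈ D, HasSum (fun n : ℕ => (((n : ℂ) + 1) * a n) * w ^ n) (deriv f w) := by
  intro w hw
  have h := hasSum_deriv (coef_bb ha) w hw
  have e : ∀ n, bb a (n + 1) = a n := fun n => rfl
  simp only [e] at h
  exact h

theorem f_eq {f : ℂ → ℂ} (hf : Conf f) (w : ℂ) : f w = w * hh f w := by
  unfold hh
  rcases eq_or_ne w 0 with rfl | hw
  · simp [hf.zero]
  · rw [dslope_of_ne _ hw, slope_def_field, hf.zero]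
    field_simp
    simp [mul_comm]

theorem coef_hh {f : ℂ → ℂ} (hf : Conf f) {a : ℕ → ℂ} (ha : Coef f a) :
    ∀ w ∈ D, HasSum (fun n : ℕ => a n * w ^ n) (hh f w) := by
  intro w hw
  rcases eq_or_ne w 0 with rfl | hw0
  · have h1 := coef_deriv ha 0 hw
    have h2 : HasSum (fun n : ℕ => (((n : ℂ) + 1) * a n) * (0 : ℂ) ^ n) (a 0) := by
      have := hasSum_single (f := fun n : ℕ => (((n : ℂ) + 1) * a n) * (0 : ℂ) ^ n) 0 (by
        intro n hn; simp [hn])
      simpa using this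
    have h3 : deriv f 0 = a 0 := h1.unique h2
    have h4 : HasSum (fun n : ℕ => a n * (0 : ℂ) ^ n) (a 0) := by
      have := hasSum_single (f := fun n : ℕ => a n * (0 : ℂ) ^ n) 0 (by
        intro n hn; simp [hn])
      simpa using this
    unfold hh
    rw [dslope_same, h3]
    exact h4
  · have h1 := (ha w hw).mul_left w⁻¹
    have e : w⁻¹ * f w = hh f w := by
      rw [f_eq hf w]; field_simp
    rw [e] at h1
    refine h1.congr_fun ?_
    intro n
    rw [pow_succ]; field_simp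

theorem int_a (m : ℕ) : ∫ t in (0 : ℝ)..1, t ^ m * (t - 1) = 1 / ((m : ℝ) + 2) - 1 / ((m : ℝ) + 1) := by
  have e : ∀ t : ℝ, t ^ m * (t - 1) = t ^ (m + 1) - t ^ m := by intro t; ring
  simp_rw [e]
  rw [intervalIntegral.integral_sub ((by fun_prop : Continuous fun t : ℝ => t ^ (m + 1)).intervalIntegrable _ _)
    ((by fun_prop : Continuous fun t : ℝ => t ^ m).intervalIntegrable _ _), integral_pow, integral_pow]
  push_cast
  simp
  ring

theorem int_a_abs (m : ℕ) :
    ∫ t in (0 : ℝ)..1, t ^ m * |t - 1| = 1 / ((m : ℝ) + 1) - 1 / ((m : ℝ) + 2) := by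
  have e : ∫ t in (0 : ℝ)..1, t ^ m * |t - 1| = ∫ t in (0 : ℝ)..1, -(t ^ m * (t - 1)) := by
    refine intervalIntegral.integral_congr ?_
    intro t ht
    rw [uIcc_of_le zero_le_one] at ht
    have : |t - 1| = -(t - 1) := abs_of_nonpos (by linarith [ht.2])
    simp only [this]; ring
  rw [e, intervalIntegral.integral_neg, int_a]; ring

theorem int_b (m : ℕ) : ∫ t in (0 : ℝ)..1, t ^ m * (1 + t) = 1 / ((m : ℝ) + 1) + 1 / ((m : ℝ) + 2) := by
  have e : ∀ t : ℝ, t ^ m * (1 + t) = t ^ m + t ^ (m + 1) := by intro t; ring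
  simp_rw [e]
  rw [intervalIntegral.integral_add ((by fun_prop : Continuous fun t : ℝ => t ^ m).intervalIntegrable _ _)
    ((by fun_prop : Continuous fun t : ℝ => t ^ (m + 1)).intervalIntegrable _ _), integral_pow, integral_pow]
  push_cast
  simp
  ring

theorem int_b_abs (m : ℕ) :
    ∫ t in (0 : ℝ)..1, t ^ m * |1 + t| = 1 / ((m : ℝ) + 1) + 1 / ((m : ℝ) + 2) := by
  rw [← int_b]
  refine intervalIntegral.integral_congr ?_
  intro t ht
  rw [uIcc_of_le zero_le_one] at ht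
  have : |1 + t| = 1 + t := abs_of_nonneg (by linarith [ht.1])
  simp only [this]

theorem pointwise {f : ℂ → ℂ} (hf : Conf f) {w : ℂ} (hw : w ∈ D) (hw0 : w ≠ 0) :
    tau f w * (w.im * (Ep f 1 w).im - w.re * (Ep f I w).im) =
      (tt w - 1) * (deriv f w * conj (deriv f w)).re +
        (1 + tt w) * (hh f w * conj (deriv f w)).re := by
  have hd := hf.dne w hw
  set d := deriv f w with hdd
  set h := hh f w with hhh
  have fw : f w = w * h := f_eq hf w
  set P : ℂ := w⁻¹ - h / (d * w) with hP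
  set Q : ℂ := w + w * h / d with hQ
  have e1 : Ep f 1 w = P + Q := by
    unfold Ep ph dph
    rw [fw, ← hdd, hP, hQ]
    simp only [map_one, one_mul]
    field_simp
    ring
  have e2 : Ep f I w = I * (P - Q) := by
    unfold Ep ph dph
    rw [fw, ← hdd, hP, hQ]
    simp only [conj_I]
    field_simp
    ring
  have k1 : w * P = 1 - h / d := by
    rw [hP]; field_simp
  have k2 : conj w * Q = (normSq w : ℂ) * (1 + h / d) := by
    rw [hQ, normSq_eq_conj_mul_self]; ring
  have k3 : w.im * (Ep f 1 w).im - w.re * (Ep f I w).im = (conj w * Q).re - (w * P).re := by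
    rw [e1, e2]
    simp
    ring
  have k4 : (h / d).re * normSq d = (h * conj d).re := by
    have : (h / d) * (normSq d : ℂ) = h * conj d := by
      rw [normSq_eq_conj_mul_self]; field_simp
    rw [← this]
    simp
  have k5 : tau f w = normSq d := by
    unfold tau; rw [← hdd, normSq_eq_norm_sq]
  have k6 : (d * conj d).re = normSq d := by
    rw [mul_conj]; simp
  have k7 : tt w = normSq w := by unfold tt; rw [normSq_eq_norm_sq]
  rw [k3, k1, k2, k5, k6, k7]
  simp only [sub_re, one_re, re_ofReal_mul, add_re]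
  linear_combination (normSq w + 1) * k4

end ELinAux

open ELinAux in
theorem E_lin {f : ℂ → ℂ} (hf : Conf f) (a : ℕ → ℂ) (ha : Coef f a) :
    IntegrableOn (fun w => tau f w * (w.im * (Ep f 1 w).im - w.re * (Ep f I w).im)) D ∧
    HasSum (fun j : ℕ => Real.pi * ‖a j‖ ^ 2)
      (∫ w in D, tau f w * (w.im * (Ep f 1 w).im - w.re * (Ep f I w).im)) := by
  have hs : Summable fun j : ℕ => ((j : ℝ) + 1) * ‖a j‖ ^ 2 := by
    have := (area_sum hf a ha).summable.mul_left Real.pi⁻¹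
    refine this.congr fun j => ?_
    have := Real.pi_ne_zero
    field_simp
  have ea : ∀ m : ℕ, 1 / ((m : ℝ) + 1) - 1 / ((m : ℝ) + 2) = 1 / (((m : ℝ) + 1) * ((m : ℝ) + 2)) := by
    intro m
    have h1 : (0 : ℝ) < (m : ℝ) + 1 := by positivity
    have h2 : (0 : ℝ) < (m : ℝ) + 2 := by positivity
    field_simp; ring
  have hn : ∀ m : ℕ, ‖((m : ℂ) + 1) * a m‖ ^ 2 = ((m : ℝ) + 1) ^ 2 * ‖a m‖ ^ 2 := by
    intro m
    have : ‖((m : ℂ) + 1)‖ = (m : ℝ) + 1 := by
      have e : ((m : ℂ) + 1) = (((m : ℝ) + 1 : ℝ) : ℂ) := by push_cast; rfl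
      rw [e, Complex.norm_real, Real.norm_of_nonneg (by positivity)]
    rw [norm_mul, this, mul_pow]
  -- first term
  have S1 : Summable fun m : ℕ => ‖((m : ℂ) + 1) * a m‖ ^ 2 * ∫ t in (0 : ℝ)..1, t ^ m * |t - 1| := by
    refine Summable.of_nonneg_of_le (fun m => ?_) (fun m => ?_) hs
    · rw [int_a_abs, ea]; positivity
    · rw [int_a_abs, ea, hn]
      have h1 : (0 : ℝ) < (m : ℝ) + 1 := by positivity
      have h2 : (0 : ℝ) < (m : ℝ) + 2 := by positivity
      rw [mul_one_div, div_le_iff₀ (by positivity)]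
      nlinarith [mul_nonneg (mul_nonneg h1.le h1.le) (sq_nonneg ‖a m‖), mul_nonneg (mul_nonneg (mul_nonneg h1.le h1.le) h1.le) (sq_nonneg ‖a m‖)]
  have P1 := pars2 (deriv f) (deriv f) _ _ (coef_deriv ha) (coef_deriv ha) (fun t => t - 1)
    (by fun_prop) S1 S1
  -- second term
  have S2 : Summable fun m : ℕ => ‖a m‖ ^ 2 * ∫ t in (0 : ℝ)..1, t ^ m * |1 + t| := by
    refine Summable.of_nonneg_of_le (fun m => ?_) (fun m => ?_) (hs.mul_left 2)
    · rw [int_b_abs]; positivity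
    · rw [int_b_abs]
      have h1 : 1 / ((m : ℝ) + 1) ≤ 1 := by
        rw [div_le_one (by positivity)]; linarith [(Nat.cast_nonneg m : (0 : ℝ) ≤ m)]
      have h2 : 1 / ((m : ℝ) + 2) ≤ 1 := by
        rw [div_le_one (by positivity)]; linarith [(Nat.cast_nonneg m : (0 : ℝ) ≤ m)]
      have h3 : (1 : ℝ) ≤ (m : ℝ) + 1 := by linarith [(Nat.cast_nonneg m : (0 : ℝ) ≤ m)]
      nlinarith [sq_nonneg ‖a m‖, mul_nonneg (sq_nonneg ‖a m‖) (sub_nonneg.2 h1),
        mul_nonneg (sq_nonneg ‖a m‖) (sub_nonneg.2 h2), mul_nonneg (sq_nonneg ‖a m‖) (sub_nonneg.2 h3)]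
  have S3 : Summable fun m : ℕ => ‖((m : ℂ) + 1) * a m‖ ^ 2 * ∫ t in (0 : ℝ)..1, t ^ m * |1 + t| := by
    refine Summable.of_nonneg_of_le (fun m => ?_) (fun m => ?_) (hs.mul_left 2)
    · rw [int_b_abs]; positivity
    · rw [int_b_abs, hn]
      have h1 : (0 : ℝ) < (m : ℝ) + 1 := by positivity
      have h2 : (0 : ℝ) < (m : ℝ) + 2 := by positivity
      have h4 : 1 / ((m : ℝ) + 1) + 1 / ((m : ℝ) + 2) ≤ 2 / ((m : ℝ) + 1) := by
        have : 1 / ((m : ℝ) + 2) ≤ 1 / ((m : ℝ) + 1) :=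
          one_div_le_one_div_of_le h1 (by linarith)
        calc _ ≤ 1 / ((m : ℝ) + 1) + 1 / ((m : ℝ) + 1) := by linarith
          _ = _ := by ring
      calc _ ≤ ((m : ℝ) + 1) ^ 2 * ‖a m‖ ^ 2 * (2 / ((m : ℝ) + 1)) :=
            mul_le_mul_of_nonneg_left h4 (by positivity)
        _ = 2 * (((m : ℝ) + 1) * ‖a m‖ ^ 2) := by field_simp
  have P2 := pars2 (hh f) (deriv f) _ _ (coef_hh hf ha) (coef_deriv ha) (fun t => 1 + t)
    (by fun_prop) S2 S3
  have hae : (fun w => (tt w - 1) * (deriv f w * conj (deriv f w)).re +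
      (1 + tt w) * (hh f w * conj (deriv f w)).re) =ᵐ[volume.restrict D]
      (fun w => tau f w * (w.im * (Ep f 1 w).im - w.re * (Ep f I w).im)) := by
    have h0 : ∀ᵐ w : ℂ ∂(volume.restrict D), w ≠ 0 :=
      ae_restrict_of_ae (compl_mem_ae_iff.2 (measure_singleton 0))
    filter_upwards [h0, ae_restrict_mem isOpen_ball.measurableSet] with w hw0 hw
    exact (pointwise hf hw hw0).symm
  refine ⟨(P1.1.add P2.1).congr hae, ?_⟩
  rw [← integral_congr_ae hae, integral_add P1.1 P2.1]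
  refine (P1.2.add P2.2).congr_fun fun m => ?_
  rw [int_a, int_b]
  have e1 : (((m : ℂ) + 1) * a m * conj (((m : ℂ) + 1) * a m)).re = ((m : ℝ) + 1) ^ 2 * ‖a m‖ ^ 2 := by
    rw [mul_conj, ofReal_re, normSq_eq_norm_sq, hn]
  have e2 : (a m * conj (((m : ℂ) + 1) * a m)).re = ((m : ℝ) + 1) * ‖a m‖ ^ 2 := by
    have : a m * conj (((m : ℂ) + 1) * a m) = (((m : ℝ) + 1 : ℝ) : ℂ) * (a m * conj (a m)) := by
      simp only [map_mul, map_add, map_one, map_natCast]
      push_cast
      ring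
    rw [this, re_ofReal_mul, mul_conj, ofReal_re, normSq_eq_norm_sq]
  rw [e1, e2]
  have h1 : (0 : ℝ) < (m : ℝ) + 1 := by positivity
  have h2 : (0 : ℝ) < (m : ℝ) + 2 := by positivity
  field_simp
  ring

end Crest.Agent.HS
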