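import Crest.Agent.HS.Mdens
import Crest.Agent.HS.Alg
set_option autoImplicit false
noncomputable section
namespace Crest.Agent.HS.ESqAux
open MeasureTheory Complex Metric Set
open scoped ComplexConjugate Topology

/-- `h' = (f/w)'` -/
def A (f : ℂ → ℂ) (a : ℕ → ℂ) (w : ℂ) : ℂ := if w = 0 then a 1 else (deriv f w - hh f w) / w

/-- `(w f)'` -/
def B (f : ℂ → ℂ) (w : ℂ) : ℂ := f w + w * deriv f w

def cB (a : ℕ → ℂ) : ℕ → ℂ
  | 0 => 0
  | (m + 1) => ((m : ℂ) + 2) * a m

theorem hasSum_A {f : ℂ → ℂ} (hd : DifferentiableOn ℂ f D) (a : ℕ → ℂ) (ha : Coef f a) {w : ℂ}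
    (hw : w ∈ D) : HasSum (fun m : ℕ => ((m : ℂ) + 1) * a (m + 1) * w ^ m) (A f a w) := by
  by_cases h : w = 0
  · subst h
    rw [A, if_pos rfl]
    have := hasSum_single (f := fun m : ℕ => ((m : ℂ) + 1) * a (m + 1) * (0 : ℂ) ^ m) 0 (by
      intro m hm; simp [hm])
    simpa using this
  · rw [A, if_neg h]
    have h0 : f 0 = 0 := by
      have := ha 0 (mem_ball_self one_pos)
      have h2 : (fun j : ℕ => a j * (0 : ℂ) ^ (j + 1)) = fun _ => 0 := by
        funext j; simp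
      rw [h2] at this
      exact this.unique hasSum_zero
    have h1 := (md_deriv hd ha hw).sub (md_hh hd h0 ha hw)
    have h2 : HasSum (fun m : ℕ => (m : ℂ) * a m * w ^ m) (deriv f w - hh f w) := by
      refine h1.congr_fun ?_ <;> skip
      intro m
      ring
    rw [← hasSum_nat_add_iff' 1] at h2
    simp only [Finset.range_one, Finset.sum_singleton, Nat.cast_zero, zero_mul, sub_zero] at h2
    have h3 := h2.div_const w
    have e : (fun m : ℕ => ((m : ℂ) + 1) * a (m + 1) * w ^ m)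
        = fun m : ℕ => (((m + 1 : ℕ) : ℂ) * a (m + 1) * w ^ (m + 1)) / w := by
      funext m
      rw [pow_succ]
      push_cast
      field_simp
    rw [e]
    exact h3

theorem hasSum_B {f : ℂ → ℂ} (hd : DifferentiableOn ℂ f D) (a : ℕ → ℂ) (ha : Coef f a) {w : ℂ}
    (hw : w ∈ D) : HasSum (fun m : ℕ => cB a m * w ^ m) (B f w) := by
  rw [← hasSum_nat_add_iff' 1]
  simp only [Finset.range_one, Finset.sum_singleton, cB, zero_mul, sub_zero]
  have h1 := (ha w hw).add ((md_deriv hd ha hw).mul_left w)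
  rw [B]
  have e : (fun m : ℕ => ((m : ℂ) + 2) * a m * w ^ (m + 1))
      = fun m : ℕ => a m * w ^ (m + 1) + w * (((m : ℂ) + 1) * a m * w ^ m) := by
    funext m
    ring
  rw [e]
  exact h1

theorem tau_Ep {f : ℂ → ℂ} {a : ℕ → ℂ} (hf : Conf f) {w : ℂ} (hw : w ∈ D) (hw0 : w ≠ 0) :
    tau f w * (‖Ep f 1 w‖ ^ 2 + ‖Ep f I w‖ ^ 2) = 2 * (‖A f a w‖ ^ 2 + ‖B f w‖ ^ 2) := by
  have hd := hf.dne w hw
  have e : ∀ q : ℂ, tau f w * ‖Ep f q w‖ ^ 2 = ‖deriv f w * ph q w + f w * dph q w‖ ^ 2 := by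
    intro q
    rw [tau, ← mul_pow, ← norm_mul]
    congr 2
    rw [Ep]
    field_simp
  rw [mul_add, e, e]
  have hfw := Al.f_eq hf.zero w
  have e1 : deriv f w * ph 1 w + f w * dph 1 w = A f a w + B f w := by
    rw [A, if_neg hw0, B, hfw, ph, dph]
    simp only [map_one]
    field_simp
    ring
  have e2 : deriv f w * ph I w + f w * dph I w = I * (A f a w - B f w) := by
    rw [A, if_neg hw0, B, hfw, ph, dph]
    simp only [Complex.conj_I]
    field_simp
    ring
  rw [e1, e2, norm_mul, Complex.norm_I, one_mul, Al.nsq, Al.nsq, Al.nsq, Al.nsq]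
  simp only [Complex.add_re, Complex.add_im, Complex.sub_re, Complex.sub_im]
  ring

end Crest.Agent.HS.ESqAux
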