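import Crest.Agent.HS.Area
import Crest.Agent.HS.ESqAux
set_option autoImplicit false
noncomputable section
namespace Crest.Agent.HS
open MeasureTheory Complex Metric Set
open scoped ComplexConjugate Topology

open ESqAux in
theorem E_sq {f : ℂ → ℂ} (hf : Conf f) (a : ℕ → ℂ) (ha : Coef f a) :
    IntegrableOn (fun w => tau f w * (‖Ep f 1 w‖ ^ 2 + ‖Ep f I w‖ ^ 2)) D ∧
    ∫ w in D, tau f w * (‖Ep f 1 w‖ ^ 2 + ‖Ep f I w‖ ^ 2) = 4 * ∫ w in D, tau f w := by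
  have hint : ∀ m : ℕ, ∫ t in (0 : ℝ)..1, t ^ m * |((fun _ => 1 : ℝ → ℝ) t)| = 1 / ((m : ℝ) + 1) := by
    intro m
    simp
  have hint' : ∀ m : ℕ, ∫ t in (0 : ℝ)..1, t ^ m * ((fun _ => 1 : ℝ → ℝ) t) = 1 / ((m : ℝ) + 1) := by
    intro m
    simp
  have hS := area_sum hf a ha
  have hpi := Real.pi_pos
  have hsum : Summable (fun j : ℕ => ((j : ℝ) + 1) * ‖a j‖ ^ 2) := by
    have h := hS.summable.mul_left (Real.pi)⁻¹
    refine h.congr fun j => ?_
    field_simp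
  have hsum0 : Summable (fun j : ℕ => ((j : ℝ)) * ‖a j‖ ^ 2) :=
    Summable.of_nonneg_of_le (fun j => by positivity)
      (fun j => by nlinarith [sq_nonneg ‖a j‖]) hsum
  have hsum1 : Summable (fun j : ℕ => ‖a j‖ ^ 2) :=
    Summable.of_nonneg_of_le (fun j => by positivity)
      (fun j => by
        have : (0 : ℝ) ≤ (j : ℝ) * ‖a j‖ ^ 2 := by positivity
        linarith) hsum
  -- coefficient summability
  have eA : ∀ m : ℕ, ‖((m : ℂ) + 1) * a (m + 1)‖ ^ 2 * (1 / ((m : ℝ) + 1)) =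
      ((m : ℝ) + 1) * ‖a (m + 1)‖ ^ 2 := by
    intro m
    rw [norm_mul]
    have : ‖((m : ℂ) + 1)‖ = (m : ℝ) + 1 := by
      have : ((m : ℂ) + 1) = ((m + 1 : ℕ) : ℂ) := by push_cast; rfl
      rw [this, norm_natCast]; push_cast; rfl
    rw [this]
    field_simp
  have eB : ∀ m : ℕ, ‖cB a (m + 1)‖ ^ 2 * (1 / (((m + 1 : ℕ) : ℝ) + 1)) =
      ((m : ℝ) + 2) * ‖a m‖ ^ 2 := by
    intro m
    rw [cB, norm_mul]
    have : ‖((m : ℂ) + 2)‖ = (m : ℝ) + 2 := by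
      have : ((m : ℂ) + 2) = ((m + 2 : ℕ) : ℂ) := by push_cast; rfl
      rw [this, norm_natCast]; push_cast; rfl
    rw [this]
    have h2 : (((m + 1 : ℕ) : ℝ) + 1) = (m : ℝ) + 2 := by push_cast; ring
    rw [h2]
    field_simp
  have sA : HasSum (fun m : ℕ => ((m : ℝ) + 1) * ‖a (m + 1)‖ ^ 2)
      (∑' j : ℕ, (j : ℝ) * ‖a j‖ ^ 2) := by
    have h := hsum0.hasSum
    rw [← hasSum_nat_add_iff' 1] at h
    simpa using h
  have sB : HasSum (fun m : ℕ => ((m : ℝ) + 2) * ‖a m‖ ^ 2)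
      (∑' j : ℕ, ((j : ℝ) + 2) * ‖a j‖ ^ 2) := by
    refine Summable.hasSum ?_
    refine (hsum.add hsum1).congr fun j => ?_
    ring
  have sB' : HasSum (fun m : ℕ => ‖cB a m‖ ^ 2 * (1 / ((m : ℝ) + 1)))
      (∑' j : ℕ, ((j : ℝ) + 2) * ‖a j‖ ^ 2) := by
    rw [← hasSum_nat_add_iff' 1]
    simp only [Finset.range_one, Finset.sum_singleton, cB, norm_zero, ne_eq, OfNat.ofNat_ne_zero,
      not_false_eq_true, zero_pow, zero_mul, sub_zero]
    have : (fun m : ℕ => ‖((m : ℂ) + 2) * a m‖ ^ 2 * (1 / (((m + 1 : ℕ) : ℝ) + 1))) =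
        fun m : ℕ => ((m : ℝ) + 2) * ‖a m‖ ^ 2 := funext eB
    rw [this]
    exact sB
  have HA := pars2 (A f a) (A f a) _ _ (fun w hw => hasSum_A hf.diff a ha hw)
    (fun w hw => hasSum_A hf.diff a ha hw) (fun _ => 1) continuous_const
    (by simp only [hint, eA]; exact sA.summable) (by simp only [hint, eA]; exact sA.summable)
  have HB := pars2 (B f) (B f) _ _ (fun w hw => hasSum_B hf.diff a ha hw)
    (fun w hw => hasSum_B hf.diff a ha hw) (fun _ => 1) continuous_const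
    (by simp only [hint]; exact sB'.summable) (by simp only [hint]; exact sB'.summable)
  have hn : ∀ z : ℂ, (z * conj z).re = ‖z‖ ^ 2 := by
    intro z
    rw [mul_conj, ofReal_re, normSq_eq_norm_sq]
  simp only [one_mul, hn, hint'] at HA HB
  have hc : ∀ {F G : ℕ → ℝ} {x : ℝ}, HasSum G x → (∀ n, F n = G n) → HasSum F x := by
    intro F G x h1 h2
    rw [funext h2]
    exact h1
  have vA : ∫ w in D, ‖A f a w‖ ^ 2 = Real.pi * ∑' j : ℕ, (j : ℝ) * ‖a j‖ ^ 2 := by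
    refine HA.2.unique (hc (sA.mul_left Real.pi) fun m => ?_)
    rw [mul_assoc, eA]
  have vB : ∫ w in D, ‖B f w‖ ^ 2 = Real.pi * ∑' j : ℕ, ((j : ℝ) + 2) * ‖a j‖ ^ 2 := by
    refine HB.2.unique (hc (sB'.mul_left Real.pi) fun m => ?_)
    rw [mul_assoc]
  have vT : ∫ w in D, tau f w = Real.pi * ∑' j : ℕ, ((j : ℝ) + 1) * ‖a j‖ ^ 2 := by
    refine hS.unique (hc (hsum.hasSum.mul_left Real.pi) fun m => ?_)
    rw [mul_assoc]
  have hae : (fun w => tau f w * (‖Ep f 1 w‖ ^ 2 + ‖Ep f I w‖ ^ 2)) =ᵐ[volume.restrict D]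
      fun w => 2 * (‖A f a w‖ ^ 2 + ‖B f w‖ ^ 2) := by
    have h0 : ∀ᵐ w ∂(volume.restrict D), w ≠ (0 : ℂ) := by
      rw [ae_iff]
      simp only [ne_eq, not_not, ofPred_eq_eq_singleton]
      exact measure_singleton 0
    filter_upwards [h0, ae_restrict_mem measurableSet_ball] with w hw0 hwD
    exact tau_Ep hf hwD hw0
  have hI := (HA.1.add HB.1).const_mul 2
  refine ⟨hI.congr hae.symm, ?_⟩
  rw [integral_congr_ae hae, integral_const_mul, integral_add HA.1 HB.1, vA, vB, vT]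
  have h1 : (∑' j : ℕ, ((j : ℝ) + 2) * ‖a j‖ ^ 2) + (∑' j : ℕ, (j : ℝ) * ‖a j‖ ^ 2) =
      2 * ∑' j : ℕ, ((j : ℝ) + 1) * ‖a j‖ ^ 2 := by
    rw [← sB.summable.tsum_add hsum0, ← tsum_mul_left]
    congr 1
    ext j
    ring
  linear_combination (2 * Real.pi) * h1

end Crest.Agent.HS
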