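import Crest.Agent.HS.Dens
import Crest.Agent.HS.Dir
import Crest.Agent.HS.DdSq
set_option autoImplicit false
noncomputable section
namespace Crest.Agent.HS
open MeasureTheory Complex Metric Set
open scoped ComplexConjugate Topology

namespace FieldAux

theorem tau_nonneg (f : ℂ → ℂ) (w : ℂ) : 0 ≤ tau f w := by unfold tau; positivity

theorem Dmeas : MeasurableSet D := measurableSet_ball

theorem Dsub : D ⊆ closedBall (0:ℂ) 1 := ball_subset_closedBall

instance : IsFiniteMeasure (volume.restrict D) := by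
  constructor
  rw [Measure.restrict_apply_univ]
  exact measure_ball_lt_top

/-- bounded on the disc by compactness -/
theorem bdd_of_cont {F : ℂ → ℂ} (hF : Continuous F) : ∃ C, 0 ≤ C ∧ ∀ w ∈ D, ‖F w‖ ≤ C := by
  obtain ⟨C, hC⟩ := (isCompact_closedBall (0:ℂ) 1).exists_bound_of_continuousOn hF.continuousOn
  exact ⟨C, (norm_nonneg _).trans (hC 0 (by simp)), fun w hw => hC w (Dsub hw)⟩

theorem int_of_cont {F : ℂ → ℝ} (hF : Continuous F) : IntegrableOn F D :=
  (hF.continuousOn.integrableOn_compact (isCompact_closedBall (0:ℂ) 1)).mono_set Dsub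

theorem tau_mul_int {f : ℂ → ℂ} (hf : Conf f) {F : ℂ → ℝ} (hF : Continuous F) :
    IntegrableOn (fun w => tau f w * F w) D := by
  obtain ⟨C, hC⟩ := (isCompact_closedBall (0:ℂ) 1).exists_bound_of_continuousOn hF.continuousOn
  apply Integrable.mul_bdd (c := C) hf.area hF.aestronglyMeasurable
  filter_upwards [ae_restrict_mem Dmeas] with w hw
  exact hC w (Dsub hw)

theorem dd_sub_const {g : ℂ → ℂ} (m : ℂ) (w : ℂ) : dd (fun z => g z - m) w = dd g w := by
  simp [dd, fderiv_sub_const]

theorem dd_cont {g : ℂ → ℂ} (hg : ContDiff ℝ 2 g) : Continuous (dd g) := by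
  unfold dd
  have h : Continuous (fderiv ℝ g) := hg.continuous_fderiv (by simp)
  exact (h.clm_apply continuous_const).sub (continuous_const.mul (h.clm_apply continuous_const))

theorem gr_cont {g : ℂ → ℝ} (hg : ContDiff ℝ 2 g) : Continuous (gr g) := by
  have h : Continuous (fderiv ℝ g) := hg.continuous_fderiv (by simp)
  have : gr g = fun w => ((fderiv ℝ g w 1 : ℝ) : ℂ) - (fderiv ℝ g w I : ℝ) * I := by
    ext w
    apply Complex.ext <;> simp [gr]
  rw [this]
  exact (continuous_ofReal.comp (h.clm_apply continuous_const)).sub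
    ((continuous_ofReal.comp (h.clm_apply continuous_const)).mul continuous_const)

theorem test_of_smooth {f : ℂ → ℂ} (hf : Conf f) {a : ℂ → ℝ} (ha : ContDiff ℝ 2 a) : Test f a :=
  ⟨(ha.of_le (by norm_num)).contDiffOn, int_of_cont ((gr_cont ha).norm.pow 2),
    tau_mul_int hf (ha.continuous.pow 2)⟩

end FieldAux

open FieldAux

/-- Rohleder's field inequality. -/
theorem field_ineq {f : ℂ → ℂ} {κ : ℝ} (hf : Conf f) (hκ : 0 < κ) (hP : Poin f κ)
    (v σ : ℂ → ℂ) (hv : MemLp v 2 (volume.restrict D))
    (hσm : AEStronglyMeasurable σ (volume.restrict D))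
    (hσ : IntegrableOn (fun w => tau f w * ‖σ w‖ ^ 2) D)
    (hw : ∀ g : ℂ → ℂ, Adm g →
      ∫ w in D, (v w * conj (dd g w)).re = -∫ w in D, tau f w * (σ w * conj (g w)).re) :
    κ * ∫ w in D, ‖v w‖ ^ 2 ≤ ∫ w in D, tau f w * ‖σ w‖ ^ 2 := by
  have hv2 : IntegrableOn (fun w => ‖v w‖ ^ 2) D := by
    have := hv.integrable_norm_pow (by norm_num)
    simp only at this
    have h2 : Integrable (fun w => ‖v w‖ ^ 2) (volume.restrict D) := by
      convert this using 2
    exact h2
  set N := ∫ w in D, ‖v w‖ ^ 2 with hN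
  set S := ∫ w in D, tau f w * ‖σ w‖ ^ 2 with hS
  have key : ∀ ε : ℝ, 0 < ε → κ * N ≤ S + κ * ε := by
    intro ε hε
    obtain ⟨g0, hg0, hgε⟩ := dens v hv ε hε
    -- subtract the mean
    set A := ∫ w in D, tau f w with hA
    have hA0 : 0 < A := by
      rw [hA, setIntegral_pos_iff_support_of_nonneg_ae]
      · have : D ⊆ Function.support (tau f) ∩ D := by
          intro w hw
          refine ⟨?_, hw⟩
          have := hf.dne w hw
          simp [tau, this]
        refine lt_of_lt_of_le ?_ (measure_mono this)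
        exact measure_ball_pos _ _ one_pos
      · filter_upwards with w using tau_nonneg f w
      · exact hf.area
    set m := (∫ w in D, tau f w * (g0 w).re) / A with hm
    set g : ℂ → ℂ := fun z => g0 z - (m : ℂ) with hg
    have hgA : Adm g := by
      refine ⟨hg0.smooth.sub contDiff_const, fun w hw => ?_⟩
      simp [hg, hg0.bdry w hw]
    have hdd : ∀ w, dd g w = dd g0 w := fun w => dd_sub_const _ w
    have hgc : Continuous g := hgA.smooth.continuous
    have hres : ContDiff ℝ 2 (fun z => (g z).re) := Complex.reCLM.contDiff.comp hgA.smooth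
    have hims : ContDiff ℝ 2 (fun z => (g z).im) := Complex.imCLM.contDiff.comp hgA.smooth
    have hTa : Test f (fun z => (g z).re) := test_of_smooth hf hres
    have hTb : Test f (fun z => (g z).im) := test_of_smooth hf hims
    have hmean : ∫ w in D, tau f w * (g w).re = 0 := by
      have e : ∀ w, tau f w * (g w).re = tau f w * (g0 w).re - m * tau f w := by
        intro w; simp [hg]; ring
      simp_rw [e]
      have i0 : IntegrableOn (fun w => tau f w * (g0 w).re) D :=
        tau_mul_int hf (F := fun w => (g0 w).re) (Complex.continuous_re.comp hg0.smooth.continuous)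
      rw [integral_sub i0 (hf.area.const_mul m), integral_const_mul, hm, ← hA]
      field_simp
      ring
    have h1 := hP _ hTa hmean
    have h2 := dirichlet hf hκ hP (fun z => (g z).im) hims (fun w hw => hgA.bdry w hw)
    have h3 := dd_sq g hgA
    have hnorm : ∀ w, ‖g w‖ ^ 2 = (g w).re ^ 2 + (g w).im ^ 2 := by
      intro w; rw [← Complex.normSq_eq_norm_sq, Complex.normSq_apply]; ring
    have hTg : κ * ∫ w in D, tau f w * ‖g w‖ ^ 2 ≤ ∫ w in D, ‖dd g w‖ ^ 2 := by
      rw [h3]
      have e : ∫ w in D, tau f w * ‖g w‖ ^ 2 = (∫ w in D, tau f w * (g w).re ^ 2) + ∫ w in D, tau f w * (g w).im ^ 2 := by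
        rw [← integral_add hTa.l2 hTb.l2]
        congr 1; ext w; rw [hnorm]; ring
      rw [e, mul_add]
      exact add_le_add h1 h2
    -- weak identity
    have h4 := hw g hgA
    have hτg : IntegrableOn (fun w => tau f w * ‖g w‖ ^ 2) D := tau_mul_int hf (hgc.norm.pow 2)
    have hpt : ∀ w, -(2 * (tau f w * (σ w * conj (g w)).re)) ≤ κ⁻¹ * (tau f w * ‖σ w‖ ^ 2) + κ * (tau f w * ‖g w‖ ^ 2) := by
      intro w
      have h5 : -(σ w * conj (g w)).re ≤ ‖σ w‖ * ‖g w‖ := by
        have := Complex.abs_re_le_norm (σ w * conj (g w))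
        rw [norm_mul, Complex.norm_conj] at this
        exact (neg_le_abs _).trans this
      have h6 : 2 * (‖σ w‖ * ‖g w‖) ≤ κ⁻¹ * ‖σ w‖ ^ 2 + κ * ‖g w‖ ^ 2 := by
        have h7 : 0 ≤ κ⁻¹ * (‖σ w‖ - κ * ‖g w‖) ^ 2 := by positivity
        have h8 : κ⁻¹ * (‖σ w‖ - κ * ‖g w‖) ^ 2 = κ⁻¹ * ‖σ w‖ ^ 2 - 2 * (‖σ w‖ * ‖g w‖) + κ * ‖g w‖ ^ 2 := by
          field_simp
          ring
        linarith
      have h9 := mul_le_mul_of_nonneg_left (show -(2 * (σ w * conj (g w)).re) ≤ κ⁻¹ * ‖σ w‖ ^ 2 + κ * ‖g w‖ ^ 2 by linarith) (tau_nonneg f w)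
      linarith
    have hτm : AEStronglyMeasurable (tau f) (volume.restrict D) := hf.area.aestronglyMeasurable
    have hcr : IntegrableOn (fun w => tau f w * (σ w * conj (g w)).re) D := by
      apply Integrable.mono' ((hσ.add hτg))
      · apply AEStronglyMeasurable.mul hτm
        apply Complex.continuous_re.comp_aestronglyMeasurable
        exact hσm.mul (Complex.continuous_conj.comp hgc).aestronglyMeasurable
      · filter_upwards with w
        rw [norm_mul, Real.norm_eq_abs, Real.norm_eq_abs, abs_of_nonneg (tau_nonneg f w)]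
        have h5 := Complex.abs_re_le_norm (σ w * conj (g w))
        rw [norm_mul, Complex.norm_conj] at h5
        simp only [Pi.add_apply]
        rw [← mul_add]
        apply mul_le_mul_of_nonneg_left _ (tau_nonneg f w)
        nlinarith [sq_nonneg (‖σ w‖ - ‖g w‖), norm_nonneg (σ w), norm_nonneg (g w)]
    have h5 : -(2 * ∫ w in D, tau f w * (σ w * conj (g w)).re) ≤ κ⁻¹ * S + κ * ∫ w in D, tau f w * ‖g w‖ ^ 2 := by
      rw [← integral_const_mul, ← integral_neg, hS, ← integral_const_mul, ← integral_const_mul,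
        ← integral_add (hσ.const_mul _) (hτg.const_mul _)]
      exact integral_mono (hcr.const_mul 2).neg ((hσ.const_mul _).add (hτg.const_mul _)) hpt
    -- expansion of the distance
    have hddc : Continuous (dd g) := dd_cont hgA.smooth
    have hdd2 : IntegrableOn (fun w => ‖dd g w‖ ^ 2) D := int_of_cont (hddc.norm.pow 2)
    have hvd : IntegrableOn (fun w => (v w * conj (dd g w)).re) D := by
      apply Integrable.mono' (hv2.add hdd2)
      · apply Complex.continuous_re.comp_aestronglyMeasurable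
        exact hv.1.mul (Complex.continuous_conj.comp hddc).aestronglyMeasurable
      · filter_upwards with w
        rw [Real.norm_eq_abs]
        have h5 := Complex.abs_re_le_norm (v w * conj (dd g w))
        rw [norm_mul, Complex.norm_conj] at h5
        simp only [Pi.add_apply]
        nlinarith [sq_nonneg (‖v w‖ - ‖dd g w‖), norm_nonneg (v w), norm_nonneg (dd g w)]
    have h6 : ∫ w in D, ‖v w - dd g0 w‖ ^ 2 = N - 2 * (∫ w in D, (v w * conj (dd g w)).re) + ∫ w in D, ‖dd g w‖ ^ 2 := by
      have e : ∀ w, ‖v w - dd g0 w‖ ^ 2 = ‖v w‖ ^ 2 - 2 * (v w * conj (dd g w)).re + ‖dd g w‖ ^ 2 := by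
        intro w
        rw [← hdd w, ← Complex.normSq_eq_norm_sq, ← Complex.normSq_eq_norm_sq, ← Complex.normSq_eq_norm_sq,
          Complex.normSq_sub]
        ring
      simp_rw [e]
      have i1 : IntegrableOn (fun w => ‖v w‖ ^ 2 - 2 * (v w * conj (dd g w)).re) D := hv2.sub (hvd.const_mul 2)
      rw [integral_add i1 hdd2, integral_sub hv2 (hvd.const_mul 2), integral_const_mul]
    rw [h6, h4] at hgε
    have h7 : N ≤ κ⁻¹ * S + ε := by linarith
    have h8 := mul_le_mul_of_nonneg_left h7 hκ.le
    rw [mul_add, ← mul_assoc, mul_inv_cancel₀ hκ.ne', one_mul] at h8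
    exact h8
  by_contra hcon
  push Not at hcon
  have h := key ((κ * N - S) / (2 * κ)) (by apply div_pos <;> linarith)
  have e : κ * ((κ * N - S) / (2 * κ)) = (κ * N - S) / 2 := by field_simp
  rw [e] at h
  linarith

end Crest.Agent.HS
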