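import Mathlib

/-!
Riemann mapping theorem for bounded simply connected domains (adapted from Crz/RMT.lean).
-/

set_option autoImplicit false

open Complex Metric Set Filter Topology

namespace Crest.Agent.HS.RmtSC

/-- holomorphic square roots on star-shaped domains. -/
lemma exists_sqrt {U : Set ℂ} (hU : IsOpen U) (hstar : IsSimplyConnected U) (h0 : (0 : ℂ) ∈ U)
    {g : ℂ → ℂ} (hg : DifferentiableOn ℂ g U) (hg0 : ∀ z ∈ U, g z ≠ 0) :
    ∃ h : ℂ → ℂ, DifferentiableOn ℂ h U ∧ ∀ z, h z ^ 2 = g z := by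
  have hs : IsSimplyConnected U := hstar
  obtain ⟨h, hhc, hh⟩ := exists_continuousOn_pow_eq hs hU hg.continuousOn
    (by rintro ⟨z, hz, h⟩; exact hg0 z hz h) (n := 2) (by norm_num)
  refine ⟨h, fun z hz => ?_, hh⟩
  have hhz : h z ≠ 0 := by
    intro h1
    apply hg0 z hz
    rw [← hh z, h1]; simp
  have hca : ContinuousAt h z := hhc.continuousAt (hU.mem_nhds hz)
  have hgd : HasDerivAt g (deriv g z) z := (hg.differentiableAt (hU.mem_nhds hz)).hasDerivAt
  have hd : HasDerivAt h (deriv g z / (h z + h z)) z := by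
    rw [hasDerivAt_iff_tendsto_slope] at hgd ⊢
    have hne : h z + h z ≠ 0 := by
      rw [← two_mul]; exact mul_ne_zero two_ne_zero hhz
    have h2 : Tendsto (fun y => h y + h z) (𝓝[≠] z) (𝓝 (h z + h z)) :=
      (hca.tendsto.mono_left nhdsWithin_le_nhds).add_const _
    have h3 := hgd.div h2 hne
    refine h3.congr' ?_
    have h4 : ∀ᶠ y in 𝓝[≠] z, h y + h z ≠ 0 := h2.eventually_ne hne
    filter_upwards [h4] with y hy
    have h5 : g y - g z = (h y - h z) * (h y + h z) := by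
      rw [← hh y, ← hh z]; ring
    simp only [slope_def_field, Pi.div_apply]
    rw [h5]
    field_simp
  exact hd.differentiableAt.differentiableWithinAt

/-- Hurwitz' theorem (local form). -/
lemma hurwitz {ι : Type*} {φ : Filter ι} [φ.NeBot] {F : ι → ℂ → ℂ} {f : ℂ → ℂ} {U : Set ℂ}
    (hU : IsOpen U) (hF : TendstoLocallyUniformlyOn F f φ U)
    (hFd : ∀ᶠ n in φ, DifferentiableOn ℂ (F n) U) {b : ℂ} (hb : b ∈ U)
    (hne : ∀ᶠ n in φ, ∀ z ∈ U, F n z ≠ 0) (hiso : ∀ᶠ z in 𝓝[≠] b, f z ≠ 0) : f b ≠ 0 := by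
  intro hfb
  -- a small closed disc
  obtain ⟨r, hr, hrU, hrf⟩ : ∃ r > 0, closedBall b r ⊆ U ∧ ∀ z ∈ sphere b r, f z ≠ 0 := by
    rw [eventually_nhdsWithin_iff] at hiso
    have h1 : ∀ᶠ z in 𝓝 b, z ∈ U := hU.mem_nhds hb
    obtain ⟨ε, hε, h2⟩ := Metric.eventually_nhds_iff_ball.1 (hiso.and h1)
    refine ⟨ε / 2, by positivity, fun z hz => (h2 z ?_).2, fun z hz => (h2 z ?_).1 ?_⟩
    · rw [mem_closedBall] at hz; rw [mem_ball]; linarith
    · rw [mem_sphere] at hz; rw [mem_ball]; linarith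
    · rw [mem_sphere] at hz
      intro h3
      rw [mem_singleton_iff] at h3
      rw [h3, dist_self] at hz
      linarith
  have hfc : ContinuousOn f U := hF.continuousOn (hFd.frequently.mono fun n hn => hn.continuousOn)
  -- lower bound on the sphere
  obtain ⟨δ, hδ, hδf⟩ : ∃ δ > 0, ∀ z ∈ sphere b r, δ ≤ ‖f z‖ := by
    have hne' : (sphere b r).Nonempty := NormedSpace.sphere_nonempty.2 hr.le
    obtain ⟨z, hz, hz'⟩ := (isCompact_sphere b r).exists_isMinOn hne'
      (hfc.mono (sphere_subset_closedBall.trans hrU)).norm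
    exact ⟨‖f z‖, norm_pos_iff.2 (hrf z hz), fun w hw => hz' hw⟩
  have hunif : TendstoUniformlyOn F f φ (closedBall b r) :=
    (tendstoLocallyUniformlyOn_iff_forall_isCompact hU).1 hF _ hrU (isCompact_closedBall b r)
  rw [Metric.tendstoUniformlyOn_iff] at hunif
  obtain ⟨n, h1, h2, h3⟩ := ((hunif (δ / 2) (by positivity)).and (hFd.and hne)).exists
  -- the maximum principle for `1 / F n`
  have h4 : ∀ z ∈ sphere b r, ‖(F n z)⁻¹‖ ≤ (δ / 2)⁻¹ := by
    intro z hz
    rw [norm_inv]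
    apply inv_anti₀ (by positivity)
    have h5 := h1 z (sphere_subset_closedBall hz)
    rw [dist_eq_norm] at h5
    have h6 := hδf z hz
    have h7 : ‖f z‖ ≤ ‖f z - F n z‖ + ‖F n z‖ := by
      calc ‖f z‖ = ‖(f z - F n z) + F n z‖ := by ring_nf
        _ ≤ _ := norm_add_le _ _
    linarith
  have h5 : ‖(F n b)⁻¹‖ ≤ (δ / 2)⁻¹ := by
    have hd : DiffContOnCl ℂ (fun z => (F n z)⁻¹) (ball b r) := by
      apply DifferentiableOn.diffContOnCl
      rw [closure_ball b hr.ne']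
      exact (h2.mono hrU).inv fun z hz => h3 z (hrU hz)
    apply norm_le_of_forall_mem_frontier_norm_le isBounded_ball hd
    · rw [frontier_ball b hr.ne']; exact h4
    · exact subset_closure (mem_ball_self hr)
  rw [norm_inv] at h5
  have h6 : δ / 2 ≤ ‖F n b‖ := by
    have hpos : 0 < ‖F n b‖ := norm_pos_iff.2 (h3 b hb)
    exact (inv_le_inv₀ hpos (by positivity)).1 h5
  have h7 := h1 b (mem_closedBall_self hr.le)
  rw [hfb, dist_eq_norm, zero_sub, norm_neg] at h7
  linarith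

/-- a Montel-type limit along an ultrafilter. -/
lemma exists_limit {U : Set ℂ} (hU : IsOpen U) (F : ℕ → ℂ → ℂ)
    (hd : ∀ n, DifferentiableOn ℂ (F n) U) (hb : ∀ n, ∀ z ∈ U, ‖F n z‖ < 1)
    (𝓤 : Ultrafilter ℕ) :
    ∃ f : ℂ → ℂ, TendstoLocallyUniformlyOn F f 𝓤 U ∧ ∀ z ∈ U, ‖f z‖ ≤ 1 := by
  classical
  have h1 : ∀ z : ℂ, ∃ w : ℂ, z ∈ U → ‖w‖ ≤ 1 ∧ Tendsto (fun n => F n z) 𝓤 (𝓝 w) := by
    intro z
    by_cases hz : z ∈ U
    · have hK : IsCompact (closedBall (0 : ℂ) 1) := isCompact_closedBall 0 1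
      obtain ⟨w, hw, hw'⟩ := hK.ultrafilter_le_nhds (𝓤.map fun n => F n z) (by
        rw [le_principal_iff]
        change (fun n => F n z) ⁻¹' closedBall 0 1 ∈ 𝓤
        refine Filter.univ_mem' fun n => ?_
        simpa using (hb n z hz).le)
      exact ⟨w, fun _ => ⟨by simpa using hw, hw'⟩⟩
    · exact ⟨0, fun h => absurd h hz⟩
  choose f hf using h1
  refine ⟨f, ?_, fun z hz => (hf z hz).1⟩
  rw [Metric.tendstoLocallyUniformlyOn_iff]
  intro ε hε z₀ hz₀
  obtain ⟨R, hR, hRU⟩ := Metric.isOpen_iff.1 hU z₀ hz₀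
  have hlip : ∀ n, ∀ y ∈ ball z₀ R, dist (F n y) (F n z₀) ≤ 2 / R * dist y z₀ := by
    intro n y hy
    refine dist_le_div_mul_dist_of_mapsTo_ball ((hd n).mono hRU) (fun x hx => ?_) hy
    rw [mem_closedBall]
    have h1 := hb n x (hRU hx)
    have h2 := hb n z₀ hz₀
    have h3 := dist_le_norm_add_norm (F n x) (F n z₀)
    linarith
  have hlip' : ∀ y ∈ ball z₀ R, dist (f y) (f z₀) ≤ 2 / R * dist y z₀ := by
    intro y hy
    refine le_of_tendsto ((hf y (hRU hy)).2.dist (hf z₀ hz₀).2) (Eventually.of_forall fun n => ?_)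
    exact hlip n y hy
  refine ⟨ball z₀ (min R (ε * R / 6)), ?_, ?_⟩
  · exact mem_nhdsWithin_of_mem_nhds (ball_mem_nhds _ (lt_min hR (by positivity)))
  · have h4 : ∀ᶠ n in (𝓤 : Filter ℕ), dist (F n z₀) (f z₀) < ε / 3 :=
      (Metric.tendsto_nhds.1 (hf z₀ hz₀).2) _ (by positivity)
    filter_upwards [h4] with n hn y hy
    have hyR : y ∈ ball z₀ R := ball_subset_ball (min_le_left _ _) hy
    have hyε : dist y z₀ < ε * R / 6 := lt_of_lt_of_le hy (min_le_right _ _)
    have h5 : 2 / R * dist y z₀ < ε / 3 := by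
      calc 2 / R * dist y z₀ < 2 / R * (ε * R / 6) := by
            exact mul_lt_mul_of_pos_left hyε (by positivity)
        _ = ε / 3 := by field_simp; ring
    calc dist (f y) (F n y) ≤ dist (f y) (f z₀) + dist (f z₀) (F n z₀) + dist (F n z₀) (F n y) :=
          dist_triangle4 _ _ _ _
      _ < ε / 3 + ε / 3 + ε / 3 := by
          have h6 := hlip n y hyR
          have h7 := hlip' y hyR
          rw [dist_comm (f z₀), dist_comm (F n z₀) (F n y)]
          linarith
      _ = ε := by ring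

/-- the disc involution. -/
noncomputable def psi (a z : ℂ) : ℂ := (a - z) / (1 - starRingEnd ℂ a * z)

lemma den_ne {a z : ℂ} (ha : ‖a‖ < 1) (hz : ‖z‖ < 1) : 1 - starRingEnd ℂ a * z ≠ 0 := by
  intro h
  have h1 : starRingEnd ℂ a * z = 1 := (sub_eq_zero.1 h).symm
  have h2 := congrArg norm h1
  rw [norm_mul, RCLike.norm_conj, norm_one] at h2
  nlinarith [norm_nonneg a, norm_nonneg z]

lemma normSq_id (a z : ℂ) :
    normSq (1 - starRingEnd ℂ a * z) - normSq (a - z) = (1 - normSq a) * (1 - normSq z) := by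
  simp only [normSq_apply, sub_re, one_re, mul_re, conj_re, conj_im, sub_im, one_im, mul_im]
  ring

lemma psi_norm_lt {a z : ℂ} (ha : ‖a‖ < 1) (hz : ‖z‖ < 1) : ‖psi a z‖ < 1 := by
  have h1 : 0 < ‖1 - starRingEnd ℂ a * z‖ := norm_pos_iff.2 (den_ne ha hz)
  rw [psi, norm_div, div_lt_one h1]
  have h2 := normSq_id a z
  rw [normSq_eq_norm_sq, normSq_eq_norm_sq, normSq_eq_norm_sq, normSq_eq_norm_sq] at h2
  have h3 : 0 < (1 - ‖a‖ ^ 2) * (1 - ‖z‖ ^ 2) := by
    apply mul_pos <;> nlinarith [norm_nonneg a, norm_nonneg z]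
  apply lt_of_pow_lt_pow_left₀ 2 h1.le
  linarith

lemma one_sub_ne {a : ℂ} (ha : ‖a‖ < 1) : 1 - starRingEnd ℂ a * a ≠ 0 := den_ne ha ha

lemma psi_psi {a z : ℂ} (ha : ‖a‖ < 1) (hz : ‖z‖ < 1) : psi a (psi a z) = z := by
  have h1 := den_ne ha hz
  have h2 := one_sub_ne ha
  have h3 := den_ne ha (psi_norm_lt ha hz)
  have h4 : 1 - starRingEnd ℂ a * psi a z =
      (1 - starRingEnd ℂ a * a) / (1 - starRingEnd ℂ a * z) := by
    rw [psi, eq_div_iff h1, sub_mul, mul_assoc, div_mul_cancel₀ _ h1]; ring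
  have h5 : a - psi a z = z * (1 - starRingEnd ℂ a * a) / (1 - starRingEnd ℂ a * z) := by
    rw [psi, eq_div_iff h1, sub_mul, div_mul_cancel₀ _ h1]; ring
  rw [psi, h4, h5, div_div_div_cancel_right₀ h1, mul_div_assoc, div_self h2, mul_one]

lemma psi_inj {a z w : ℂ} (ha : ‖a‖ < 1) (hz : ‖z‖ < 1) (hw : ‖w‖ < 1)
    (h : psi a z = psi a w) : z = w := by
  rw [← psi_psi ha hz, h, psi_psi ha hw]

lemma psi_self (a : ℂ) : psi a a = 0 := by simp [psi]

lemma psi_zero (a : ℂ) : psi a 0 = a := by simp [psi]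

lemma hasDerivAt_psi {a z : ℂ} (ha : ‖a‖ < 1) (hz : ‖z‖ < 1) :
    HasDerivAt (psi a) (-(1 - starRingEnd ℂ a * a) / (1 - starRingEnd ℂ a * z) ^ 2) z := by
  have h1 : HasDerivAt (fun z => a - z) (-1) z := by
    simpa using (hasDerivAt_id z).const_sub a
  have h2 : HasDerivAt (fun z => 1 - starRingEnd ℂ a * z) (-(starRingEnd ℂ a)) z := by
    simpa using ((hasDerivAt_id z).const_mul (starRingEnd ℂ a)).const_sub 1
  have h3 := h1.div h2 (den_ne ha hz)
  refine h3.congr_deriv ?_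
  congr 1
  ring

/-- The class of competitors. -/
structure Comp (U : Set ℂ) (f : ℂ → ℂ) : Prop where
  diff : DifferentiableOn ℂ f U
  inj : InjOn f U
  maps : ∀ z ∈ U, ‖f z‖ < 1
  der : ∀ z ∈ U, deriv f z ≠ 0
  zero : f 0 = 0

/-- Koebe's improvement. -/
lemma koebe {U : Set ℂ} (hU : IsOpen U) (hstar : IsSimplyConnected U) (h0 : (0 : ℂ) ∈ U)
    {f : ℂ → ℂ} (hf : Comp U f) {w : ℂ} (hw : ‖w‖ < 1) (hwn : ∀ z ∈ U, f z ≠ w) :
    ∃ F, Comp U F ∧ ‖deriv f 0‖ < ‖deriv F 0‖ := by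
  -- `g = ψ_w ∘ f`
  have hgder : ∀ z ∈ U, HasDerivAt (fun z => psi w (f z))
      (-(1 - starRingEnd ℂ w * w) / (1 - starRingEnd ℂ w * f z) ^ 2 * deriv f z) z := by
    intro z hz
    exact (hasDerivAt_psi hw (hf.maps z hz)).comp z
      (hf.diff.differentiableAt (hU.mem_nhds hz)).hasDerivAt
  have hgne : ∀ z ∈ U, psi w (f z) ≠ 0 := by
    intro z hz h
    have h1 : psi w (f z) = psi w w := by rw [h, psi_self]
    exact hwn z hz (psi_inj hw (hf.maps z hz) hw h1)
  obtain ⟨h, hhd, hh⟩ := exists_sqrt hU hstar h0 (g := fun z => psi w (f z))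
    (fun z hz => (hgder z hz).differentiableAt.differentiableWithinAt) hgne
  have hh1 : ∀ z ∈ U, ‖h z‖ < 1 := by
    intro z hz
    have h1 : ‖h z‖ ^ 2 < 1 := by
      rw [← norm_pow, hh z]; exact psi_norm_lt hw (hf.maps z hz)
    nlinarith [norm_nonneg (h z)]
  have hhne : ∀ z ∈ U, h z ≠ 0 := by
    intro z hz h1
    apply hgne z hz
    rw [← hh z, h1]; simp
  have hhder : ∀ z ∈ U, HasDerivAt h (deriv h z) z := fun z hz =>
    (hhd.differentiableAt (hU.mem_nhds hz)).hasDerivAt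
  have hhd2 : ∀ z ∈ U, 2 * h z * deriv h z =
      -(1 - starRingEnd ℂ w * w) / (1 - starRingEnd ℂ w * f z) ^ 2 * deriv f z := by
    intro z hz
    have h1 : HasDerivAt (fun z => h z ^ 2) (2 * h z * deriv h z) z := by
      simpa using (hhder z hz).fun_pow 2
    have h2 : (fun z => h z ^ 2) = fun z => psi w (f z) := funext hh
    rw [h2] at h1
    exact h1.unique (hgder z hz)
  have hhdne : ∀ z ∈ U, deriv h z ≠ 0 := by
    intro z hz h1
    have h2 := hhd2 z hz
    rw [h1, mul_zero] at h2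
    have h3 : -(1 - starRingEnd ℂ w * w) / (1 - starRingEnd ℂ w * f z) ^ 2 * deriv f z ≠ 0 :=
      mul_ne_zero (div_ne_zero (neg_ne_zero.2 (one_sub_ne hw))
        (pow_ne_zero _ (den_ne hw (hf.maps z hz)))) (hf.der z hz)
    exact h3 h2.symm
  set a := h 0 with ha
  have ha1 : ‖a‖ < 1 := hh1 0 h0
  have hFder : ∀ z ∈ U, HasDerivAt (fun z => psi a (h z))
      (-(1 - starRingEnd ℂ a * a) / (1 - starRingEnd ℂ a * h z) ^ 2 * deriv h z) z := by
    intro z hz
    exact (hasDerivAt_psi ha1 (hh1 z hz)).comp z (hhder z hz)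
  refine ⟨fun z => psi a (h z), ⟨?_, ?_, ?_, ?_, ?_⟩, ?_⟩
  · exact fun z hz => (hFder z hz).differentiableAt.differentiableWithinAt
  · intro z hz z' hz' he
    have h1 := psi_inj ha1 (hh1 z hz) (hh1 z' hz') he
    have h2 : psi w (f z) = psi w (f z') := by rw [← hh z, ← hh z', h1]
    exact hf.inj hz hz' (psi_inj hw (hf.maps z hz) (hf.maps z' hz') h2)
  · exact fun z hz => psi_norm_lt ha1 (hh1 z hz)
  · intro z hz
    rw [(hFder z hz).deriv]
    exact mul_ne_zero (div_ne_zero (neg_ne_zero.2 (one_sub_ne ha1))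
        (pow_ne_zero _ (den_ne ha1 (hh1 z hz)))) (hhdne z hz)
  · exact psi_self a
  · rw [(hFder 0 h0).deriv, ← ha]
    -- the computation
    have haw : a ^ 2 = w := by
      rw [ha, hh 0, hf.zero, psi_zero]
    have hane : a ≠ 0 := hhne 0 h0
    set t := ‖a‖ with ht
    have ht0 : 0 < t := norm_pos_iff.2 hane
    have hc1 : ‖1 - starRingEnd ℂ a * a‖ = 1 - t ^ 2 := by
      rw [mul_comm, mul_conj, ← ofReal_one, ← ofReal_sub, norm_real, normSq_eq_norm_sq,
        Real.norm_of_nonneg]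
      nlinarith
    have hc2 : ‖1 - starRingEnd ℂ w * w‖ = 1 - t ^ 4 := by
      rw [mul_comm, mul_conj, ← ofReal_one, ← ofReal_sub, norm_real, normSq_eq_norm_sq,
        ← haw, norm_pow, Real.norm_of_nonneg]
      · ring
      · have : (‖a‖ ^ 2) ^ 2 ≤ 1 := pow_le_one₀ (by positivity) (by nlinarith)
        linarith
    have h1 := congrArg norm (hhd2 0 h0)
    rw [hf.zero, mul_zero, sub_zero, one_pow, div_one, norm_mul, norm_mul, norm_mul, norm_neg,
      hc2, ← ha, ← ht] at h1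
    simp only [Complex.norm_ofNat] at h1
    rw [norm_mul, norm_div, norm_neg, norm_pow, hc1]
    have h2 : 0 < 1 - t ^ 2 := by nlinarith
    have h3 : ‖deriv h 0‖ = (1 - t ^ 4) * ‖deriv f 0‖ / (2 * t) := by
      rw [eq_div_iff (by positivity)]; linarith
    have h4 : (1 - t ^ 2) / (1 - t ^ 2) ^ 2 * ‖deriv h 0‖ =
        (1 + t ^ 2) / (2 * t) * ‖deriv f 0‖ := by
      rw [h3]; field_simp; ring
    rw [h4]
    have h5 : 1 < (1 + t ^ 2) / (2 * t) := by
      rw [one_lt_div (by positivity)]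
      have : 0 < (1 - t) ^ 2 := pow_pos (by linarith) 2
      nlinarith
    have h6 : 0 < ‖deriv f 0‖ := norm_pos_iff.2 (hf.der 0 h0)
    nlinarith

/-- existence of an extremal competitor. -/
lemma exists_extremal {U : Set ℂ} (hU : IsOpen U) (hstar : IsSimplyConnected U)
    (h0 : (0 : ℂ) ∈ U) (hb : Bornology.IsBounded U) :
    ∃ f, Comp U f ∧ ∀ F, Comp U F → ‖deriv F 0‖ ≤ ‖deriv f 0‖ := by
  classical
  have hpre : IsPreconnected U := hstar.isPathConnected.isConnected.isPreconnected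
  set S : Set ℝ := (fun f : ℂ → ℂ => ‖deriv f 0‖) '' {f | Comp U f} with hS
  -- `S` is nonempty and has a positive member
  obtain ⟨R, hR, hUR⟩ := hb.subset_ball_lt 0 0
  have hRc : (R : ℂ) ≠ 0 := by exact_mod_cast hR.ne'
  have hd0 : ∀ z : ℂ, HasDerivAt (fun z : ℂ => z / R) (1 / R) z := fun z =>
    (hasDerivAt_id z).div_const _
  have hcomp0 : Comp U (fun z => z / R) := by
    refine ⟨fun z _ => (hd0 z).differentiableAt.differentiableWithinAt, ?_, ?_, ?_, ?_⟩
    · intro z _ w _ h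
      exact (div_left_inj' hRc).1 h
    · intro z hz
      have h1 := hUR hz
      rw [mem_ball_zero_iff] at h1
      rw [norm_div, norm_real, Real.norm_of_nonneg hR.le, div_lt_one hR]
      exact h1
    · intro z _
      rw [(hd0 z).deriv]
      exact one_div_ne_zero hRc
    · simp
  have hSne : S.Nonempty := ⟨_, _, hcomp0, rfl⟩
  have hSpos : ∃ x ∈ S, 0 < x :=
    ⟨_, ⟨_, hcomp0, rfl⟩, norm_pos_iff.2 (hcomp0.der 0 h0)⟩
  -- `S` is bounded
  obtain ⟨r, hr, hrU⟩ := Metric.isOpen_iff.1 hU 0 h0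
  have hSbdd : BddAbove S := by
    refine ⟨1 / r, ?_⟩
    rintro _ ⟨f, hf, rfl⟩
    refine norm_deriv_le_div_of_mapsTo_ball (hf.diff.mono hrU) (fun z hz => ?_) hr
    rw [hf.zero, mem_closedBall_zero_iff]
    exact (hf.maps z (hrU hz)).le
  obtain ⟨u, -, hu, huS⟩ := exists_seq_tendsto_sSup hSne hSbdd
  choose F hF hFu using huS
  set 𝓤 : Ultrafilter ℕ := hyperfilter ℕ with h𝓤
  have h𝓤le : (𝓤 : Filter ℕ) ≤ atTop := by
    rw [← Nat.cofinite_eq_atTop]; exact hyperfilter_le_cofinite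
  obtain ⟨f, hlim, hf1⟩ := exists_limit hU F (fun n => (hF n).diff) (fun n => (hF n).maps) 𝓤
  have hfd : DifferentiableOn ℂ f U :=
    hlim.differentiableOn (Eventually.of_forall fun n => (hF n).diff) hU
  have hderlim : TendstoLocallyUniformlyOn (deriv ∘ F) (deriv f) (𝓤 : Filter ℕ) U :=
    hlim.deriv (Eventually.of_forall fun n => (hF n).diff) hU
  have hder0 : ‖deriv f 0‖ = sSup S := by
    have h1 : Tendsto (fun n => ‖deriv (F n) 0‖) (𝓤 : Filter ℕ) (𝓝 ‖deriv f 0‖) :=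
      (hderlim.tendsto_at h0).norm
    have h2 : Tendsto (fun n => ‖deriv (F n) 0‖) (𝓤 : Filter ℕ) (𝓝 (sSup S)) := by
      have : (fun n => ‖deriv (F n) 0‖) = u := funext hFu
      rw [this]
      exact hu.mono_left h𝓤le
    exact tendsto_nhds_unique h1 h2
  have hderpos : deriv f 0 ≠ 0 := by
    obtain ⟨x, hx, hx0⟩ := hSpos
    rw [← norm_pos_iff, hder0]
    exact lt_of_lt_of_le hx0 (le_csSup hSbdd hx)
  -- the derivative does not vanish
  have hfan : AnalyticOnNhd ℂ f U := hfd.analyticOnNhd hU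
  have hderne : ∀ b ∈ U, deriv f b ≠ 0 := by
    intro b hb'
    have hiso : ∀ᶠ z in 𝓝[≠] b, deriv f z ≠ 0 := by
      by_contra hnot
      have hfreq : ∃ᶠ z in 𝓝[≠] b, deriv f z = 0 := by
        rw [not_eventually] at hnot
        exact hnot.mono fun z hz => not_not.1 hz
      exact hderpos (hfan.deriv.eqOn_zero_of_preconnected_of_frequently_eq_zero hpre hb' hfreq h0)
    refine hurwitz hU hderlim (Eventually.of_forall fun n => ?_) hb'
      (Eventually.of_forall fun n z hz => (hF n).der z hz) hiso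
    exact ((hF n).diff.deriv hU)
  have hf0 : f 0 = 0 := by
    have h1 : Tendsto (fun n => F n 0) (𝓤 : Filter ℕ) (𝓝 (f 0)) := hlim.tendsto_at h0
    have h2 : (fun n => F n 0) = fun _ => (0 : ℂ) := funext fun n => (hF n).zero
    rw [h2] at h1
    exact (tendsto_nhds_unique h1 tendsto_const_nhds)
  refine ⟨f, ⟨hfd, ?_, ?_, hderne, hf0⟩, ?_⟩
  · -- injectivity
    intro a ha b hb' hab
    by_contra hne
    have hU' : IsOpen (U \ {a}) := hU.sdiff isClosed_singleton
    have hbU' : b ∈ U \ {a} := ⟨hb', fun h => hne h.symm⟩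
    have hG : TendstoLocallyUniformlyOn (fun n z => F n z - F n a) (fun z => f z - f a)
        (𝓤 : Filter ℕ) (U \ {a}) := by
      rw [Metric.tendstoLocallyUniformlyOn_iff]
      intro ε hε x hx
      obtain ⟨t, ht, ht'⟩ := (Metric.tendstoLocallyUniformlyOn_iff.1 hlim) (ε / 2)
        (by positivity) x hx.1
      refine ⟨t, nhdsWithin_mono x sdiff_subset ht, ?_⟩
      have h3 : ∀ᶠ n in (𝓤 : Filter ℕ), dist (F n a) (f a) < ε / 2 :=
        (Metric.tendsto_nhds.1 (hlim.tendsto_at ha)) _ (by positivity)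
      filter_upwards [ht', h3] with n h4 h5 y hy
      have h6 := h4 y hy
      rw [dist_eq_norm] at h5 h6 ⊢
      calc ‖f y - f a - (F n y - F n a)‖ = ‖(f y - F n y) + (F n a - f a)‖ := by ring_nf
        _ ≤ ‖f y - F n y‖ + ‖F n a - f a‖ := norm_add_le _ _
        _ < ε := by linarith
    have h7 := hurwitz hU' hG (Eventually.of_forall fun n => ?_) hbU'
      (Eventually.of_forall fun n z hz h => ?_) ?_
    · exact h7 (by rw [hab, sub_self])
    · exact ((hF n).diff.mono sdiff_subset).sub_const _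
    · exact hz.2 ((hF n).inj hz.1 ha (sub_eq_zero.1 h))
    · have h8 := (hfd.differentiableAt (hU.mem_nhds hb')).hasDerivAt.eventually_ne
        (hderne b hb') (c := f a)
      filter_upwards [h8] with z hz h
      exact hz (sub_eq_zero.1 h)
  · -- strict bound
    intro z hz
    refine lt_of_le_of_ne (hf1 z hz) fun h1 => ?_
    have hmax : IsMaxOn (norm ∘ f) U z := fun w hw => by
      change ‖f w‖ ≤ ‖f z‖
      rw [h1]; exact hf1 w hw
    have h2 := eqOn_of_isPreconnected_of_isMaxOn_norm hpre hU hfd hz hmax h0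
    rw [hf0] at h2
    simp only [Function.const_apply] at h2
    rw [← h2, norm_zero] at h1
    exact zero_ne_one h1
  · intro G hG
    rw [hder0]
    exact le_csSup hSbdd ⟨G, hG, rfl⟩

end Crest.Agent.HS.RmtSC

namespace Crest.Agent.HS.RmtSC

/-- CHUNK 1 (RMT). Riemann mapping for star-shaped domains. -/
theorem riemann_mapping_sc (U : Set ℂ) (hU : IsOpen U) (hstar : IsSimplyConnected U) (h0 : (0 : ℂ) ∈ U)
    (hb : Bornology.IsBounded U) :
    ∃ g : ℂ → ℂ, DifferentiableOn ℂ g (ball 0 1) ∧ InjOn g (ball 0 1) ∧ g '' ball 0 1 = U ∧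
      g 0 = 0 := by
  obtain ⟨f, hf, hmax⟩ := exists_extremal hU hstar h0 hb
  have hsurj : ∀ w ∈ ball (0 : ℂ) 1, ∃ z ∈ U, f z = w := by
    intro w hw
    by_contra hnot
    push Not at hnot
    obtain ⟨F, hF, hlt⟩ := koebe hU hstar h0 hf (mem_ball_zero_iff.1 hw) hnot
    exact absurd (hmax F hF) (not_le.2 hlt)
  set g := Function.invFunOn f U with hg
  have hgU : ∀ w ∈ ball (0 : ℂ) 1, g w ∈ U := fun w hw => Function.invFunOn_mem (hsurj w hw)
  have hfg : ∀ w ∈ ball (0 : ℂ) 1, f (g w) = w := fun w hw => Function.invFunOn_eq (hsurj w hw)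
  have hgf : ∀ z ∈ U, g (f z) = z := by
    intro z hz
    have hw : f z ∈ ball (0 : ℂ) 1 := mem_ball_zero_iff.2 (hf.maps z hz)
    exact hf.inj (hgU _ hw) hz (hfg _ hw)
  refine ⟨g, ?_, ?_, ?_, ?_⟩
  · intro w hw
    have hz := hgU w hw
    have hfd := hf.diff.differentiableAt (hU.mem_nhds hz)
    have hstrict : HasStrictDerivAt f (deriv f (g w)) (g w) :=
      ((hf.diff.analyticOnNhd hU) _ hz).hasStrictDerivAt
    have hmap : map f (𝓝 (g w)) = 𝓝 w := by
      rw [hstrict.map_nhds_eq (hf.der _ hz), hfg w hw]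
    have hcont : ContinuousAt g w := by
      rw [ContinuousAt, ← hmap, tendsto_map'_iff]
      have h1 : ∀ᶠ z in 𝓝 (g w), (g ∘ f) z = z := by
        filter_upwards [hU.mem_nhds hz] with z hz' using hgf z hz'
      exact (tendsto_id (x := 𝓝 (g w))).congr' (h1.mono fun z hz => hz.symm)
    have hd : HasDerivAt g (deriv f (g w))⁻¹ w := by
      refine HasDerivAt.of_local_left_inverse hcont hfd.hasDerivAt (hf.der _ hz) ?_
      filter_upwards [isOpen_ball.mem_nhds hw] with y hy using hfg y hy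
    exact hd.differentiableAt.differentiableWithinAt
  · intro w hw w' hw' h
    rw [← hfg w hw, h, hfg w' hw']
  · ext z
    constructor
    · rintro ⟨w, hw, rfl⟩
      exact hgU w hw
    · intro hz
      exact ⟨f z, mem_ball_zero_iff.2 (hf.maps z hz), hgf z hz⟩
  · have := hgf 0 h0
    rwa [hf.zero] at this

end Crest.Agent.HS.RmtSC
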