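import Crest.Agent.HS.Defs
import Crest.Agent.HS.RmtSC
import Crest.Agent.Crz.Ext
set_option autoImplicit false
noncomputable section
namespace Crest.Agent.HS
open MeasureTheory Complex Metric Set
open scoped ComplexConjugate Topology

/-- the real determinant of a complex multiplication -/
lemma det_restrict (a : ℂ) :
    ((ContinuousLinearMap.toSpanSingleton ℂ a).restrictScalars ℝ : ℂ →L[ℝ] ℂ).det = ‖a‖ ^ 2 := by
  have h : (((ContinuousLinearMap.toSpanSingleton ℂ a).restrictScalars ℝ : ℂ →L[ℝ] ℂ) :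
      ℂ →ₗ[ℝ] ℂ) = ((LinearMap.mulLeft ℂ a).restrictScalars ℝ) := by
    ext z; simp [mul_comm]
  rw [ContinuousLinearMap.det, h, LinearMap.det_restrictScalars]
  simp [Algebra.norm_complex_eq, Complex.normSq_eq_norm_sq]

/-- area of the image of a univalent map -/
lemma area_of_inj {f : ℂ → ℂ} (hd : DifferentiableOn ℂ f D) (hi : InjOn f D)
    (hb : Bornology.IsBounded (f '' D)) : IntegrableOn (tau f) D := by
  have hder : ∀ x ∈ D, HasFDerivWithinAt f
      ((ContinuousLinearMap.toSpanSingleton ℂ (deriv f x)).restrictScalars ℝ) D x := by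
    intro x hx
    exact ((hd.differentiableAt (isOpen_ball.mem_nhds hx)).hasDerivAt.hasFDerivAt.restrictScalars
      ℝ).hasFDerivWithinAt
  have h1 := (integrableOn_image_iff_integrableOn_abs_det_fderiv_smul volume
    (measurableSet_ball (x := (0 : ℂ)) (ε := 1)) hder hi (fun _ => (1 : ℝ))).1
    (integrableOn_const (hb.measure_lt_top.ne))
  refine h1.congr_fun (fun w _ => ?_) measurableSet_ball
  simp only [det_restrict, smul_eq_mul, mul_one, tau]
  exact abs_of_nonneg (by positivity)

/-- Riemann mapping theorem for bounded simply connected open sets, normalised. -/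
theorem exists_conf (U : Set ℂ) (hU : IsOpen U) (hsc : IsSimplyConnected U)
    (hbd : Bornology.IsBounded U) (x0 : ℂ) (hx : x0 ∈ U) :
    ∃ f : ℂ → ℂ, Conf f ∧ (fun w => x0 + f w) '' D = U := by
  set V : Set ℂ := (Homeomorph.addLeft (-x0)) '' U with hV
  have hVo : IsOpen V := (Homeomorph.addLeft (-x0)).isOpenMap _ hU
  have hVs : IsSimplyConnected V := (Homeomorph.isSimplyConnected_image _).2 hsc
  have hV0 : (0 : ℂ) ∈ V := ⟨x0, hx, by simp⟩
  have hVb : Bornology.IsBounded V := by
    obtain ⟨R, hR⟩ := hbd.exists_norm_le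
    refine (isBounded_iff_forall_norm_le).2 ⟨‖x0‖ + R, ?_⟩
    rintro _ ⟨z, hz, rfl⟩
    have := norm_add_le (-x0) z
    rw [norm_neg] at this
    have h2 := hR z hz
    simp only [Homeomorph.coe_addLeft]
    linarith
  obtain ⟨g, hgd, hgi, hgV, hg0⟩ := RmtSC.riemann_mapping_sc V hVo hVs hV0 hVb
  refine ⟨g, ⟨hgd, hgi, ?_, hg0, fun w hw => Crest.Agent.Crz.Ext.deriv_ne_zero_of_injOn isOpen_ball hgd hgi hw,
    area_of_inj hgd hgi (by rw [hgV]; exact hVb)⟩, ?_⟩
  · obtain ⟨M, hM⟩ := hVb.exists_norm_le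
    exact ⟨M, fun w hw => hM _ (hgV ▸ mem_image_of_mem g hw)⟩
  · have h2 : (fun w => x0 + g w) '' D = (fun z => x0 + z) '' (g '' D) := by
      rw [image_image]
    rw [h2, hgV, hV, image_image]
    simp

end Crest.Agent.HS
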