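import Crest.Agent.HS.Reg
set_option autoImplicit false
noncomputable section
namespace Crest.Agent.HS
open MeasureTheory Complex Metric Set
open scoped ComplexConjugate Topology

theorem clm_apply_re_im (L : ℂ →L[ℝ] ℝ) (z : ℂ) : L z = z.re * L 1 + z.im * L I := by
  have h : z = (z.re : ℝ) • (1 : ℂ) + (z.im : ℝ) • I := by
    apply Complex.ext <;> simp
  conv_lhs => rw [h]
  rw [map_add, map_smul, map_smul, smul_eq_mul, smul_eq_mul]

/-- chain rule for the complex gradient -/
theorem gr_comp {v : ℂ → ℝ} {F : ℂ → ℂ} {F' w : ℂ} (hv : DifferentiableAt ℝ v (F w))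
    (hF : HasDerivAt F F' w) : gr (fun z => v (F z)) w = gr v (F w) * F' := by
  have h1 : HasFDerivAt (fun z => v (F z))
      ((fderiv ℝ v (F w)).comp
        ((ContinuousLinearMap.toSpanSingleton ℂ F').restrictScalars ℝ)) w :=
    hv.hasFDerivAt.comp w (hF.hasFDerivAt.restrictScalars ℝ)
  unfold gr
  rw [h1.fderiv]
  have e1 : ((fderiv ℝ v (F w)).comp
        ((ContinuousLinearMap.toSpanSingleton ℂ F').restrictScalars ℝ)) 1 =
      F'.re * fderiv ℝ v (F w) 1 + F'.im * fderiv ℝ v (F w) I := by
    simp only [ContinuousLinearMap.comp_apply, ContinuousLinearMap.coe_restrictScalars',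
      ContinuousLinearMap.toSpanSingleton_apply, one_smul]
    exact clm_apply_re_im _ _
  have e2 : ((fderiv ℝ v (F w)).comp
        ((ContinuousLinearMap.toSpanSingleton ℂ F').restrictScalars ℝ)) I =
      -F'.im * fderiv ℝ v (F w) 1 + F'.re * fderiv ℝ v (F w) I := by
    simp only [ContinuousLinearMap.comp_apply, ContinuousLinearMap.coe_restrictScalars',
      ContinuousLinearMap.toSpanSingleton_apply]
    rw [clm_apply_re_im]
    simp
  rw [e1, e2]
  apply Complex.ext
  · simp; ring
  · simp; ring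

/-- the inverse of an injective holomorphic map with nonvanishing derivative is `C¹` -/
theorem contDiffAt_invFunOn {F : ℂ → ℂ} (hd : DifferentiableOn ℂ F D) (hi : InjOn F D)
    (hne : ∀ w ∈ D, deriv F w ≠ 0) {w : ℂ} (hw : w ∈ D) :
    ContDiffAt ℝ 1 (Function.invFunOn F D) (F w) := by
  have hDo : IsOpen D := isOpen_ball
  have hc : ContDiffAt ℂ 1 F w := (hd.contDiffOn hDo).contDiffAt (hDo.mem_nhds hw)
  have hder : HasDerivAt F (deriv F w) w := (hd.differentiableAt (hDo.mem_nhds hw)).hasDerivAt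
  have hF' := hder.hasFDerivAt_equiv (hne w hw)
  have h1 := hc.to_localInverse hF' one_ne_zero
  have himg := hc.localInverse_apply_image hF' one_ne_zero
  have hcont := h1.continuousAt
  have hev1 : ∀ᶠ p in 𝓝 (F w), hc.localInverse hF' one_ne_zero p ∈ D := by
    have : D ∈ 𝓝 (hc.localInverse hF' one_ne_zero (F w)) := by
      rw [himg]; exact hDo.mem_nhds hw
    exact hcont this
  have hev2 : ∀ᶠ p in 𝓝 (F w), F (hc.localInverse hF' one_ne_zero p) = p :=
    (hc.hasStrictFDerivAt' hF' one_ne_zero).eventually_right_inverse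
  have h2 : ContDiffAt ℂ 1 (Function.invFunOn F D) (F w) := by
    refine h1.congr_of_eventuallyEq ?_
    filter_upwards [hev1, hev2] with p hp1 hp2
    have hex : ∃ a ∈ D, F a = p := ⟨_, hp1, hp2⟩
    exact hi (Function.invFunOn_mem hex) hp1 ((Function.invFunOn_eq hex).trans hp2.symm)
  exact h2.restrict_scalars ℝ

theorem det_span (a : ℂ) :
    ((ContinuousLinearMap.toSpanSingleton ℂ a).restrictScalars ℝ : ℂ →L[ℝ] ℂ).det
      = ‖a‖ ^ 2 := by
  have h : (((ContinuousLinearMap.toSpanSingleton ℂ a).restrictScalars ℝ : ℂ →L[ℝ] ℂ) :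
      ℂ →ₗ[ℝ] ℂ) = (LinearMap.mul ℝ ℂ a) := by
    apply LinearMap.ext
    intro z
    simp [mul_comm]
  have h2 : LinearMap.det (LinearMap.mul ℝ ℂ a) = Algebra.norm ℝ a := by
    rw [Algebra.norm_apply]
    rfl
  rw [ContinuousLinearMap.det, h, h2, Algebra.norm_complex_apply, Complex.normSq_eq_norm_sq]

section cov

variable {F : ℂ → ℂ} (hd : DifferentiableOn ℂ F D) (hi : InjOn F D)

include hd hi

theorem cov_int {Ω : Set ℂ} (him : F '' D = Ω) (g : ℂ → ℝ) :
    ∫ p in Ω, g p = ∫ w in D, tau F w * g (F w) := by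
  have hDo : IsOpen D := isOpen_ball
  have h := integral_image_eq_integral_abs_det_fderiv_smul (volume : Measure ℂ)
    hDo.measurableSet (f := F)
    (f' := fun w => (ContinuousLinearMap.toSpanSingleton ℂ (deriv F w)).restrictScalars ℝ)
    (fun w hw => (((hd.differentiableAt (hDo.mem_nhds hw)).hasDerivAt.hasFDerivAt).restrictScalars
      ℝ).hasFDerivWithinAt) hi g
  rw [him] at h
  rw [h]
  refine setIntegral_congr_fun hDo.measurableSet fun w _ => ?_
  simp only [det_span, smul_eq_mul, tau]
  rw [abs_of_nonneg (by positivity)]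

theorem cov_integrable {Ω : Set ℂ} (him : F '' D = Ω) (g : ℂ → ℝ) :
    IntegrableOn g Ω ↔ IntegrableOn (fun w => tau F w * g (F w)) D := by
  have hDo : IsOpen D := isOpen_ball
  have h := integrableOn_image_iff_integrableOn_abs_det_fderiv_smul (volume : Measure ℂ)
    hDo.measurableSet (f := F)
    (f' := fun w => (ContinuousLinearMap.toSpanSingleton ℂ (deriv F w)).restrictScalars ℝ)
    (fun w hw => (((hd.differentiableAt (hDo.mem_nhds hw)).hasDerivAt.hasFDerivAt).restrictScalars
      ℝ).hasFDerivWithinAt) hi g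
  rw [him] at h
  rw [h]
  refine integrableOn_congr_fun (fun w _ => ?_) hDo.measurableSet
  simp only [det_span, smul_eq_mul, tau]
  rw [abs_of_nonneg (by positivity)]

end cov

end Crest.Agent.HS
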