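import Crest.Agent.HS.Reg
import Crest.Agent.HS.SolDomAux
set_option autoImplicit false
noncomputable section
namespace Crest.Agent.HS
open MeasureTheory Complex Metric Set
open scoped ComplexConjugate Topology

theorem gr_const_sub (c : ℝ) (v : ℂ → ℝ) (w : ℂ) : gr (fun z => c - v z) w = -gr v w := by
  unfold gr
  rw [fderiv_const_sub]
  apply Complex.ext <;> simp

theorem gr_congr {v v' : ℂ → ℝ} {w : ℂ} (h : v =ᶠ[𝓝 w] v') : gr v w = gr v' w := by
  unfold gr
  rw [h.fderiv_eq]

theorem continuousOn_gr {v : ℂ → ℝ} {s : Set ℂ} (hs : IsOpen s) (hv : ContDiffOn ℝ 1 v s) :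
    ContinuousOn (gr v) s := by
  have h1 : ContinuousOn (fun w => fderiv ℝ v w) s := hv.continuousOn_fderiv_of_isOpen hs le_rfl
  have h2 : gr v = fun w => ((fderiv ℝ v w 1 : ℝ) : ℂ) + ((-(fderiv ℝ v w I) : ℝ) : ℂ) * I := by
    funext w
    apply Complex.ext <;> simp [gr]
  rw [h2]
  have h3 : ContinuousOn (fun w => fderiv ℝ v w 1) s := h1.clm_apply continuousOn_const
  have h4 : ContinuousOn (fun w => fderiv ℝ v w I) s := h1.clm_apply continuousOn_const
  exact (continuous_ofReal.comp_continuousOn h3).add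
    ((continuous_ofReal.comp_continuousOn h4.neg).mul continuousOn_const)

/-- change of variables by the Riemann map -/
theorem sol_of_domain (Ω : Set ℂ) (hΩ : IsOpen Ω) (f : ℂ → ℂ) (hf : Conf f) (x0 : ℂ)
    (him : (fun w => x0 + f w) '' D = Ω)
    (u : ℂ → ℝ) (hu : ContDiffOn ℝ 1 u Ω)
    (hu2 : IntegrableOn (fun p => u p ^ 2) Ω) (hg2 : IntegrableOn (fun p => ‖gr u p‖ ^ 2) Ω)
    (κ : ℝ) (hκ : 0 < κ)
    (hweak : ∀ v : ℂ → ℝ, ContDiffOn ℝ 1 v Ω →
        IntegrableOn (fun p => v p ^ 2) Ω → IntegrableOn (fun p => ‖gr v p‖ ^ 2) Ω →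
        ∫ p in Ω, (gr u p * conj (gr v p)).re = κ * ∫ p in Ω, u p * v p)
    (hpoin : ∀ v : ℂ → ℝ, ContDiffOn ℝ 1 v Ω →
        IntegrableOn (fun p => v p ^ 2) Ω → IntegrableOn (fun p => ‖gr v p‖ ^ 2) Ω →
        ∫ p in Ω, v p = 0 → κ * ∫ p in Ω, v p ^ 2 ≤ ∫ p in Ω, ‖gr v p‖ ^ 2)
    (hcrit : gr u x0 = 0) :
    Sol f κ (u x0) (fun w => u x0 - u (x0 + f w)) := by
  have hDo : IsOpen D := isOpen_ball
  set F : ℂ → ℂ := fun w => x0 + f w with hF
  have hFd : DifferentiableOn ℂ F D := hf.diff.const_add x0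
  have hFi : InjOn F D := fun a ha b hb h => hf.inj ha hb (add_left_cancel h)
  have hdF : ∀ w, deriv F w = deriv f w := fun w => deriv_const_add x0
  have htau : ∀ w, tau F w = tau f w := by intro w; simp only [tau, hdF]
  have hFw : ∀ w ∈ D, F w ∈ Ω := fun w hw => him ▸ mem_image_of_mem F hw
  have hder : ∀ w ∈ D, HasDerivAt F (deriv f w) w := fun w hw => by
    rw [← hdF]; exact (hFd.differentiableAt (hDo.mem_nhds hw)).hasDerivAt
  have hne : ∀ w ∈ D, deriv F w ≠ 0 := fun w hw => by rw [hdF]; exact hf.dne w hw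
  have hdiffAt : ∀ v : ℂ → ℝ, ContDiffOn ℝ 1 v Ω → ∀ p ∈ Ω, DifferentiableAt ℝ v p :=
    fun v hv p hp => (hv.contDiffAt (hΩ.mem_nhds hp)).differentiableAt one_ne_zero
  have hgr : ∀ v : ℂ → ℝ, ContDiffOn ℝ 1 v Ω → ∀ w ∈ D,
      gr (fun z => v (F z)) w = gr v (F w) * deriv f w := fun v hv w hw =>
    gr_comp (hdiffAt v hv _ (hFw w hw)) (hder w hw)
  have hFc : ContDiffOn ℝ 1 F D := (hFd.contDiffOn hDo).restrict_scalars ℝ
  have hint : ∀ g : ℂ → ℝ, ∫ p in Ω, g p = ∫ w in D, tau f w * g (F w) := by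
    intro g
    rw [cov_int hFd hFi him g]
    simp only [htau]
  have hintg : ∀ g : ℂ → ℝ, IntegrableOn g Ω ↔
      IntegrableOn (fun w => tau f w * g (F w)) D := by
    intro g
    rw [cov_integrable hFd hFi him g]
    simp only [htau]
  have hnorm : ∀ z w : ℂ, ‖z * deriv f w‖ ^ 2 = tau f w * ‖z‖ ^ 2 := by
    intro z w
    rw [norm_mul, mul_pow, tau]
    ring
  -- pushing test functions to the domain
  have push : ∀ χ : ℂ → ℝ, Test f χ → ∃ v : ℂ → ℝ, ContDiffOn ℝ 1 v Ω ∧
      IntegrableOn (fun p => v p ^ 2) Ω ∧ IntegrableOn (fun p => ‖gr v p‖ ^ 2) Ω ∧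
      (∀ w ∈ D, v (F w) = χ w) ∧ (∀ w ∈ D, gr χ w = gr v (F w) * deriv f w) := by
    intro χ hχ
    have hG : ∀ w ∈ D, Function.invFunOn F D (F w) = w := fun w hw =>
      hFi.leftInvOn_invFunOn hw
    have hv : ContDiffOn ℝ 1 (fun p => χ (Function.invFunOn F D p)) Ω := by
      intro p hp
      rw [← him] at hp
      obtain ⟨w, hw, rfl⟩ := hp
      have h1 := contDiffAt_invFunOn hFd hFi hne hw
      have h2 : ContDiffAt ℝ 1 χ (Function.invFunOn F D (F w)) := by
        rw [hG w hw]; exact hχ.c1.contDiffAt (hDo.mem_nhds hw)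
      exact (h2.comp (F w) h1).contDiffWithinAt
    have hval : ∀ w ∈ D, χ (Function.invFunOn F D (F w)) = χ w := fun w hw => by rw [hG w hw]
    have hgrv : ∀ w ∈ D, gr χ w =
        gr (fun p => χ (Function.invFunOn F D p)) (F w) * deriv f w := by
      intro w hw
      rw [← hgr _ hv w hw]
      refine gr_congr ?_
      filter_upwards [hDo.mem_nhds hw] with z hz
      exact (hval z hz).symm
    refine ⟨_, hv, ?_, ?_, hval, hgrv⟩
    · rw [hintg]
      refine (integrableOn_congr_fun (fun w hw => ?_) hDo.measurableSet).mpr hχ.l2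
      rw [hval w hw]
    · rw [hintg]
      refine (integrableOn_congr_fun (fun w hw => ?_) hDo.measurableSet).mpr hχ.en
      rw [hgrv w hw, hnorm]
  -- gradient of theta
  have hgrθ : ∀ w ∈ D, gr (fun w => u x0 - u (F w)) w = -(gr u (F w) * deriv f w) := by
    intro w hw
    rw [gr_const_sub, hgr u hu w hw]
  have hθc1 : ContDiffOn ℝ 1 (fun w => u x0 - u (F w)) D :=
    contDiffOn_const.sub (hu.comp hFc (fun w hw => hFw w hw))
  refine ⟨hf, hκ, ⟨hθc1, ?_, ?_⟩, ?_, ?_, ?_⟩
  · -- finite energy
    have h1 := (hintg _).mp hg2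
    refine (integrableOn_congr_fun (fun w hw => ?_) hDo.measurableSet).mp h1
    rw [hgrθ w hw, norm_neg, hnorm]
  · -- square integrable
    have h1 := (hintg _).mp hu2
    have h2 : IntegrableOn (fun w => 2 * (u x0) ^ 2 * tau f w + 2 * (tau f w * u (F w) ^ 2)) D :=
      (hf.area.const_mul _).add (h1.const_mul 2)
    refine Integrable.mono' h2 ?_ ?_
    · refine ContinuousOn.aestronglyMeasurable ?_ hDo.measurableSet
      have hd' : ContinuousOn (deriv f) D := (hf.diff.deriv hDo).continuousOn
      exact ((hd'.norm.pow 2)).mul ((hθc1.continuousOn).pow 2)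
    · refine Filter.Eventually.of_forall fun w => ?_
      have ht : 0 ≤ tau f w := by unfold tau; positivity
      rw [Real.norm_eq_abs, abs_of_nonneg (by positivity)]
      nlinarith [sq_nonneg (u x0 + u (F w)), mul_nonneg ht (sq_nonneg (u x0 + u (F w)))]
  · -- near the critical point
    have hnear := near_crit Ω hΩ u κ hu ?_ x0 ?_ hcrit
    · obtain ⟨C, r, hr, hC⟩ := hnear
      obtain ⟨M, hM⟩ := hf.bdd
      have hM0 : 0 ≤ M := (norm_nonneg _).trans (hM 0 (mem_ball_self one_pos))
      have hSch : ∀ w ∈ D, ‖f w‖ ≤ (M + 1) * ‖w‖ := by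
        intro w hw
        have hmaps : MapsTo f (ball 0 1) (closedBall (f 0) (M + 1)) := by
          intro z hz
          rw [hf.zero, mem_closedBall_zero_iff]
          linarith [hM z hz]
        have := Complex.dist_le_div_mul_dist_of_mapsTo_ball hf.diff hmaps hw
        rw [hf.zero, dist_zero_right, dist_zero_right, div_one] at this
        exact this
      have hcb : closedBall (0 : ℂ) (1 / 2) ⊆ D := by
        intro w hw
        rw [mem_closedBall_zero_iff] at hw
        rw [mem_ball_zero_iff]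
        linarith
      have hcomp : IsCompact (closedBall (0 : ℂ) (1 / 2)) := isCompact_closedBall _ _
      have hd' : ContinuousOn (deriv f) D := (hf.diff.deriv hDo).continuousOn
      obtain ⟨B1, hB1⟩ := hcomp.exists_bound_of_continuousOn (hd'.mono hcb)
      obtain ⟨B2, hB2⟩ := hcomp.exists_bound_of_continuousOn (hθc1.continuousOn.mono hcb)
      obtain ⟨B3, hB3⟩ := hcomp.exists_bound_of_continuousOn
        ((continuousOn_gr hDo hθc1).mono hcb)
      have hB10 : 0 ≤ B1 := (norm_nonneg _).trans (hB1 0 (by simp))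
      have hB20 : 0 ≤ B2 := (norm_nonneg _).trans (hB2 0 (by simp))
      have hB30 : 0 ≤ B3 := (norm_nonneg _).trans (hB3 0 (by simp))
      have hC0 : 0 ≤ C ∨ C < 0 := le_or_gt 0 C
      set s : ℝ := min (1 / 2) (r / (M + 1)) with hs
      have hM1 : 0 < M + 1 := by linarith
      have hs0 : 0 < s := lt_min (by norm_num) (div_pos hr hM1)
      set C' : ℝ := |C| * (M + 1) ^ 2 + |C| * (M + 1) * B1 + B2 / s ^ 2 + B3 / s with hC'
      have hp1 : 0 ≤ |C| * (M + 1) ^ 2 := by positivity
      have hp2 : 0 ≤ |C| * (M + 1) * B1 := by positivity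
      have hp3 : 0 ≤ B2 / s ^ 2 := by positivity
      have hp4 : 0 ≤ B3 / s := by positivity
      refine ⟨C', fun w hw => ?_⟩
      have hw2 : ‖w‖ < 1 / 2 := by simpa using hw
      have hwD : w ∈ D := by rw [mem_ball_zero_iff]; linarith
      have hwc : w ∈ closedBall (0 : ℂ) (1 / 2) := by rw [mem_closedBall_zero_iff]; linarith
      by_cases hws : ‖w‖ < s
      · have hfw := hSch w hwD
        have hball : F w ∈ ball x0 r := by
          rw [mem_ball, dist_eq_norm]
          have : F w - x0 = f w := by simp [hF]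
          rw [this]
          calc ‖f w‖ ≤ (M + 1) * ‖w‖ := hfw
            _ < (M + 1) * (r / (M + 1)) :=
              mul_lt_mul_of_pos_left (hws.trans_le (min_le_right _ _)) hM1
            _ = r := by field_simp
        obtain ⟨h1, h2⟩ := hC _ hball
        have hsub : F w - x0 = f w := by simp [hF]
        rw [hsub] at h1 h2
        constructor
        · rw [abs_sub_comm]
          calc |u (F w) - u x0| ≤ C * ‖f w‖ ^ 2 := h1
            _ ≤ |C| * ‖f w‖ ^ 2 := mul_le_mul_of_nonneg_right (le_abs_self C) (by positivity)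
            _ ≤ |C| * ((M + 1) * ‖w‖) ^ 2 := by gcongr
            _ = |C| * (M + 1) ^ 2 * ‖w‖ ^ 2 := by ring
            _ ≤ C' * ‖w‖ ^ 2 := mul_le_mul_of_nonneg_right (by linarith) (by positivity)
        · rw [hgrθ w hwD, norm_neg, norm_mul]
          calc ‖gr u (F w)‖ * ‖deriv f w‖ ≤ (|C| * ((M + 1) * ‖w‖)) * B1 := by
                refine mul_le_mul ?_ (hB1 w hwc) (norm_nonneg _) (by positivity)
                calc ‖gr u (F w)‖ ≤ C * ‖f w‖ := h2
                  _ ≤ |C| * ‖f w‖ := mul_le_mul_of_nonneg_right (le_abs_self C) (norm_nonneg _)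
                  _ ≤ |C| * ((M + 1) * ‖w‖) := by gcongr
            _ = |C| * (M + 1) * B1 * ‖w‖ := by ring
            _ ≤ C' * ‖w‖ := mul_le_mul_of_nonneg_right (by linarith) (norm_nonneg _)
      · rw [not_lt] at hws
        constructor
        · have h1 := hB2 w hwc
          rw [Real.norm_eq_abs] at h1
          calc |u x0 - u (F w)| ≤ B2 := h1
            _ = B2 / s ^ 2 * s ^ 2 := by field_simp
            _ ≤ B2 / s ^ 2 * ‖w‖ ^ 2 := by gcongr
            _ ≤ C' * ‖w‖ ^ 2 := mul_le_mul_of_nonneg_right (by linarith) (by positivity)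
        · have h1 := hB3 w hwc
          calc ‖gr (fun w => u x0 - u (F w)) w‖ ≤ B3 := h1
            _ = B3 / s * s := by field_simp
            _ ≤ B3 / s * ‖w‖ := by gcongr
            _ ≤ C' * ‖w‖ := mul_le_mul_of_nonneg_right (by linarith) (norm_nonneg _)
    · -- the weak equation for compactly supported smooth functions
      intro χ hχ hcs hts
      have hχ1 : ContDiff ℝ 1 χ := hχ.of_le (by exact_mod_cast le_top)
      have hχc : Continuous χ := hχ1.continuous
      have hgc : Continuous (gr χ) := by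
        rw [← continuousOn_univ]
        exact continuousOn_gr isOpen_univ hχ1.contDiffOn
      have hgs : ∀ p, p ∉ Ω → gr χ p = 0 := by
        intro p hp
        have h1 : p ∉ tsupport χ := fun h => hp (hts h)
        have h2 : χ =ᶠ[𝓝 p] fun _ => 0 := notMem_tsupport_iff_eventuallyEq.mp h1
        rw [gr_congr h2]
        unfold gr
        apply Complex.ext <;> simp
      have hχs : ∀ p, p ∉ Ω → χ p = 0 := by
        intro p hp
        exact image_eq_zero_of_notMem_tsupport (fun h => hp (hts h))
      have hgcs : HasCompactSupport (gr χ) := by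
        refine HasCompactSupport.intro hcs.isCompact (fun p hp => ?_)
        have h2 : χ =ᶠ[𝓝 p] fun _ => 0 := notMem_tsupport_iff_eventuallyEq.mp hp
        rw [gr_congr h2]
        unfold gr
        apply Complex.ext <;> simp
      have h1 := hweak χ hχ1.contDiffOn ?_ ?_
      · rw [← setIntegral_eq_integral_of_forall_compl_eq_zero (s := Ω),
          ← setIntegral_eq_integral_of_forall_compl_eq_zero (s := Ω) (f := fun p => u p * χ p)]
        · exact h1
        · intro p hp; simp [hχs p hp]
        · intro p hp; simp [hgs p hp]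
      · refine (Continuous.integrable_of_hasCompactSupport (hχc.pow 2) ?_).integrableOn
        exact HasCompactSupport.intro hcs.isCompact (fun p hp => by
          simp [image_eq_zero_of_notMem_tsupport hp])
      · refine (Continuous.integrable_of_hasCompactSupport (hgc.norm.pow 2) ?_).integrableOn
        refine HasCompactSupport.intro hgcs.isCompact (fun p hp => by
          simp [image_eq_zero_of_notMem_tsupport hp])
    · have := hFw 0 (mem_ball_self one_pos)
      simpa [hF, hf.zero] using this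
  · -- weak identity
    intro χ hχ
    obtain ⟨v, hv, hv2, hgv2, hval, hgrv⟩ := push χ hχ
    have h1 := hweak v hv hv2 hgv2
    rw [hint, hint] at h1
    have e1 : ∫ w in D, (gr (fun w => u x0 - u (F w)) w * conj (gr χ w)).re =
        -∫ w in D, tau f w * (gr u (F w) * conj (gr v (F w))).re := by
      rw [← integral_neg]
      refine setIntegral_congr_fun hDo.measurableSet fun w hw => ?_
      rw [hgrθ w hw, hgrv w hw, map_mul]
      have : -(gr u (F w) * deriv f w) * (conj (gr v (F w)) * conj (deriv f w)) =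
          ((-tau f w : ℝ) : ℂ) * (gr u (F w) * conj (gr v (F w))) := by
        have h3 : deriv f w * conj (deriv f w) = ((tau f w : ℝ) : ℂ) := by
          rw [Complex.mul_conj, Complex.normSq_eq_norm_sq]; rfl
        push_cast
        rw [← h3]
        ring
      rw [this, Complex.re_ofReal_mul]
      ring
    have e2 : ∫ w in D, tau f w * ((u x0 - (u x0 - u (F w))) * χ w) =
        ∫ w in D, tau f w * (u (F w) * v (F w)) := by
      refine setIntegral_congr_fun hDo.measurableSet fun w hw => ?_
      rw [hval w hw]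
      ring
    rw [e1, e2, h1]
    ring
  · -- Poincaré
    intro χ hχ hmean
    obtain ⟨v, hv, hv2, hgv2, hval, hgrv⟩ := push χ hχ
    have e0 : ∫ p in Ω, v p = 0 := by
      rw [hint, ← hmean]
      refine setIntegral_congr_fun hDo.measurableSet fun w hw => ?_
      rw [hval w hw]
    have h1 := hpoin v hv hv2 hgv2 e0
    rw [hint, hint] at h1
    have e1 : ∫ w in D, tau f w * χ w ^ 2 = ∫ w in D, tau f w * v (F w) ^ 2 := by
      refine setIntegral_congr_fun hDo.measurableSet fun w hw => ?_
      rw [hval w hw]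
    have e2 : ∫ w in D, ‖gr χ w‖ ^ 2 = ∫ w in D, tau f w * ‖gr v (F w)‖ ^ 2 := by
      refine setIntegral_congr_fun hDo.measurableSet fun w hw => ?_
      rw [hgrv w hw, hnorm]
    rw [e1, e2]
    exact h1

end Crest.Agent.HS
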