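import Crest.Agent.HS.Defs
set_option autoImplicit false
noncomputable section
namespace Crest.Agent.HS
open MeasureTheory Complex Metric Set
open scoped ComplexConjugate Topology

namespace WM

variable {Ω : Set ℂ}

theorem diffAt (hΩ : IsOpen Ω) {u : ℂ → ℝ} (hu : ContDiffOn ℝ 1 u Ω) {p : ℂ} (hp : p ∈ Ω) :
    DifferentiableAt ℝ u p :=
  (hu.differentiableOn one_ne_zero).differentiableAt (hΩ.mem_nhds hp)

theorem gr_cont (hΩ : IsOpen Ω) {u : ℂ → ℝ} (hu : ContDiffOn ℝ 1 u Ω) : ContinuousOn (gr u) Ω := by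
  have h1 : ContinuousOn (fderiv ℝ u) Ω := hu.continuousOn_fderiv_of_isOpen hΩ le_rfl
  have h2 : ContinuousOn (fun p => ((fderiv ℝ u p 1 : ℝ) : ℂ) + ((-(fderiv ℝ u p I) : ℝ) : ℂ) * I) Ω :=
    (continuous_ofReal.comp_continuousOn (h1.clm_apply continuousOn_const)).add
      ((continuous_ofReal.comp_continuousOn (h1.clm_apply continuousOn_const).neg).mul
        continuousOn_const)
  exact h2.congr (fun p _ => Complex.mk_eq_add_mul_I _ _)

theorem gr_add (hΩ : IsOpen Ω) {u v : ℂ → ℝ} (hu : ContDiffOn ℝ 1 u Ω) (hv : ContDiffOn ℝ 1 v Ω)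
    (s : ℝ) {p : ℂ} (hp : p ∈ Ω) : gr (fun q => u q + s * v q) p = gr u p + s * gr v p := by
  have h1 : fderiv ℝ (fun q => u q + s * v q) p = fderiv ℝ u p + s • fderiv ℝ v p := by
    rw [fderiv_fun_add (diffAt hΩ hu hp) ((diffAt hΩ hv hp).const_mul s),
      fderiv_const_mul (diffAt hΩ hv hp)]
  apply Complex.ext
  · simp [gr, h1]
  · simp [gr, h1]; ring

theorem gr_sub_const {v : ℂ → ℝ} (m : ℝ) (p : ℂ) : gr (fun q => v q - m) p = gr v p := by
  unfold gr
  rw [fderiv_sub_const]

theorem int_mul {μ : Measure ℂ} {f g : ℂ → ℝ} (hf : AEStronglyMeasurable f μ)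
    (hg : AEStronglyMeasurable g μ) (hf2 : Integrable (fun p => f p ^ 2) μ)
    (hg2 : Integrable (fun p => g p ^ 2) μ) : Integrable (fun p => f p * g p) μ := by
  refine (hf2.add hg2).mono' (hf.mul hg) (Filter.Eventually.of_forall fun p => ?_)
  simp only [Pi.add_apply, Real.norm_eq_abs]
  rw [abs_le]
  constructor <;> nlinarith [sq_nonneg (f p + g p), sq_nonneg (f p - g p), sq_nonneg (f p), sq_nonneg (g p)]

theorem int_mulC {μ : Measure ℂ} {f g : ℂ → ℂ} (hf : AEStronglyMeasurable f μ)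
    (hg : AEStronglyMeasurable g μ) (hf2 : Integrable (fun p => ‖f p‖ ^ 2) μ)
    (hg2 : Integrable (fun p => ‖g p‖ ^ 2) μ) : Integrable (fun p => (f p * conj (g p)).re) μ := by
  have hm : AEStronglyMeasurable (fun p => (f p * conj (g p)).re) μ :=
    Complex.continuous_re.comp_aestronglyMeasurable
      (hf.mul (Complex.continuous_conj.comp_aestronglyMeasurable hg))
  refine (hf2.add hg2).mono' hm (Filter.Eventually.of_forall fun p => ?_)
  simp only [Pi.add_apply, Real.norm_eq_abs]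
  have h1 : |(f p * conj (g p)).re| ≤ ‖f p‖ * ‖g p‖ := by
    refine (Complex.abs_re_le_norm _).trans ?_
    rw [norm_mul, Complex.norm_conj]
  nlinarith [sq_nonneg (‖f p‖ - ‖g p‖), sq_nonneg (‖f p‖), sq_nonneg (‖g p‖)]

theorem linear_zero {a b : ℝ} (h : ∀ s : ℝ, 2 * s * a + s ^ 2 * b ≤ 0) : a = 0 := by
  by_contra ha
  have hb := h (a / (|b| + 1))
  have hpos : 0 < |b| + 1 := by positivity
  have h1 : (a / (|b| + 1)) ^ 2 * b ≥ -(a ^ 2 / (|b| + 1)) := by
    have h2 : (a / (|b| + 1)) ^ 2 * b ≥ -((a / (|b| + 1)) ^ 2 * (|b| + 1)) := by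
      have h3 : -(|b| + 1) ≤ b := by linarith [neg_abs_le b]
      nlinarith [sq_nonneg (a / (|b| + 1))]
    have h4 : (a / (|b| + 1)) ^ 2 * (|b| + 1) = a ^ 2 / (|b| + 1) := by
      field_simp
    rw [h4] at h2
    exact h2
  have h5 : 2 * (a / (|b| + 1)) * a = 2 * (a ^ 2 / (|b| + 1)) := by ring
  have h6 : 0 < a ^ 2 / (|b| + 1) := by positivity
  linarith

end WM

open WM

/-- weak formulation and Poincaré inequality from minimality, in the domain `Ω ⊂ ℂ`. -/
theorem weak_of_min (Ω : Set ℂ) (hΩ : IsOpen Ω) (hconn : IsPreconnected Ω)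
    (hbd : Bornology.IsBounded Ω)
    (u : ℂ → ℝ) (hu : ContDiffOn ℝ 1 u Ω)
    (hu2 : IntegrableOn (fun p => u p ^ 2) Ω) (hg2 : IntegrableOn (fun p => ‖gr u p‖ ^ 2) Ω)
    (hmean : ∫ p in Ω, u p = 0) (hnz : ∃ p ∈ Ω, u p ≠ 0)
    (hmin : ∀ v : ℂ → ℝ, ContDiffOn ℝ 1 v Ω →
      IntegrableOn (fun p => v p ^ 2) Ω → IntegrableOn (fun p => ‖gr v p‖ ^ 2) Ω →
      ∫ p in Ω, v p = 0 →
      (∫ p in Ω, ‖gr u p‖ ^ 2) * (∫ p in Ω, v p ^ 2)
        ≤ (∫ p in Ω, ‖gr v p‖ ^ 2) * (∫ p in Ω, u p ^ 2)) :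
    ∃ κ : ℝ, 0 < κ ∧
      (∀ v : ℂ → ℝ, ContDiffOn ℝ 1 v Ω →
        IntegrableOn (fun p => v p ^ 2) Ω → IntegrableOn (fun p => ‖gr v p‖ ^ 2) Ω →
        ∫ p in Ω, (gr u p * conj (gr v p)).re = κ * ∫ p in Ω, u p * v p) ∧
      (∀ v : ℂ → ℝ, ContDiffOn ℝ 1 v Ω →
        IntegrableOn (fun p => v p ^ 2) Ω → IntegrableOn (fun p => ‖gr v p‖ ^ 2) Ω →
        ∫ p in Ω, v p = 0 → κ * ∫ p in Ω, v p ^ 2 ≤ ∫ p in Ω, ‖gr v p‖ ^ 2) := by
  obtain ⟨p0, hp0, hup0⟩ := hnz
  have hms := hΩ.measurableSet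
  have hfin : volume Ω ≠ ⊤ := hbd.measure_lt_top.ne
  have : IsFiniteMeasure (volume.restrict Ω) := ⟨by
    rw [Measure.restrict_apply_univ]; exact hbd.measure_lt_top⟩
  have hpos : 0 < volume Ω := hΩ.measure_pos volume ⟨p0, hp0⟩
  have mea : ∀ v : ℂ → ℝ, ContDiffOn ℝ 1 v Ω → AEStronglyMeasurable v (volume.restrict Ω) :=
    fun v hv => hv.continuousOn.aestronglyMeasurable hms
  have meaG : ∀ v : ℂ → ℝ, ContDiffOn ℝ 1 v Ω → AEStronglyMeasurable (gr v) (volume.restrict Ω) :=
    fun v hv => (gr_cont hΩ hv).aestronglyMeasurable hms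
  have hint : ∀ v : ℂ → ℝ, ContDiffOn ℝ 1 v Ω → IntegrableOn (fun p => v p ^ 2) Ω →
      IntegrableOn v Ω := fun v hv hv2 => by
    have h1 : Integrable (fun p => v p * (fun _ : ℂ => (1 : ℝ)) p) (volume.restrict Ω) :=
      int_mul (mea v hv) aestronglyMeasurable_const hv2 (by simp)
    exact h1.congr (Filter.Eventually.of_forall fun p => mul_one (v p))
  -- positivity of the denominators
  have hB : 0 < ∫ p in Ω, u p ^ 2 := by
    rw [setIntegral_pos_iff_support_of_nonneg_ae (Filter.Eventually.of_forall fun p => sq_nonneg _) hu2]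
    have hopen : IsOpen (Ω ∩ u ⁻¹' {0}ᶜ) :=
      hu.continuousOn.isOpen_inter_preimage hΩ isOpen_compl_singleton
    refine (hopen.measure_pos volume ⟨p0, hp0, hup0⟩).trans_le (measure_mono ?_)
    rintro p ⟨hp, hpu⟩
    exact ⟨by
      rw [Function.mem_support]
      exact pow_ne_zero 2 hpu, hp⟩
  have hA : 0 < ∫ p in Ω, ‖gr u p‖ ^ 2 := by
    refine lt_of_le_of_ne (integral_nonneg fun p => by positivity) (fun h0 => ?_)
    -- the gradient vanishes
    have hz : ∀ p ∈ Ω, gr u p = 0 := by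
      intro p hp
      by_contra hne
      have hopen : IsOpen (Ω ∩ (gr u) ⁻¹' {0}ᶜ) :=
        (gr_cont hΩ hu).isOpen_inter_preimage hΩ isOpen_compl_singleton
      have h1 : 0 < ∫ p in Ω, ‖gr u p‖ ^ 2 := by
        rw [setIntegral_pos_iff_support_of_nonneg_ae
          (Filter.Eventually.of_forall fun p => by positivity) hg2]
        refine (hopen.measure_pos volume ⟨p, hp, hne⟩).trans_le (measure_mono ?_)
        rintro q ⟨hq, hqu⟩
        exact ⟨by
          rw [Function.mem_support]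
          exact pow_ne_zero 2 (norm_ne_zero_iff.2 hqu), hq⟩
      exact absurd h0 h1.ne
    have hfd : ∀ p ∈ Ω, fderiv ℝ u p = 0 := by
      intro p hp
      have h1 := hz p hp
      have h2 : fderiv ℝ u p 1 = 0 := by
        have := congrArg Complex.re h1
        simpa [gr] using this
      have h3 : fderiv ℝ u p I = 0 := by
        have := congrArg Complex.im h1
        simpa [gr] using this
      ext z
      have h4 : z = z.re • (1 : ℂ) + z.im • I := by
        rw [Complex.real_smul, Complex.real_smul, mul_one, Complex.re_add_im]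
      rw [h4, map_add, map_smul, map_smul, h2, h3]
      simp
    have hconst : ∀ p ∈ Ω, u p = u p0 := fun p hp =>
      hΩ.is_const_of_fderiv_eq_zero hconn (hu.differentiableOn one_ne_zero) hfd hp hp0
    have h5 : ∫ p in Ω, u p = ∫ _ in Ω, u p0 := setIntegral_congr_fun hms (fun p hp => hconst p hp)
    rw [hmean, setIntegral_const, smul_eq_mul] at h5
    have h6 : volume.real Ω ≠ 0 := by
      rw [Measure.real]
      exact (ENNReal.toReal_pos hpos.ne' hfin).ne'
    rcases mul_eq_zero.1 h5.symm with h | h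
    · exact h6 h
    · exact hup0 h
  refine ⟨(∫ p in Ω, ‖gr u p‖ ^ 2) / ∫ p in Ω, u p ^ 2, div_pos hA hB, ?_, ?_⟩
  · -- mean zero case
    have main : ∀ v : ℂ → ℝ, ContDiffOn ℝ 1 v Ω →
        IntegrableOn (fun p => v p ^ 2) Ω → IntegrableOn (fun p => ‖gr v p‖ ^ 2) Ω →
        ∫ p in Ω, v p = 0 → ∫ p in Ω, (gr u p * conj (gr v p)).re =
          (∫ p in Ω, ‖gr u p‖ ^ 2) / (∫ p in Ω, u p ^ 2) * ∫ p in Ω, u p * v p := by
      intro v hv hv2 hgv2 hvm
      have iuv : IntegrableOn (fun p => u p * v p) Ω := int_mul (mea u hu) (mea v hv) hu2 hv2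
      have igg : IntegrableOn (fun p => (gr u p * conj (gr v p)).re) Ω :=
        int_mulC (meaG u hu) (meaG v hv) hg2 hgv2
      have key : ∀ s : ℝ, 2 * s * ((∫ p in Ω, ‖gr u p‖ ^ 2) * (∫ p in Ω, u p * v p) -
          (∫ p in Ω, u p ^ 2) * (∫ p in Ω, (gr u p * conj (gr v p)).re)) +
          s ^ 2 * ((∫ p in Ω, ‖gr u p‖ ^ 2) * (∫ p in Ω, v p ^ 2) -
            (∫ p in Ω, u p ^ 2) * ∫ p in Ω, ‖gr v p‖ ^ 2) ≤ 0 := by
        intro s
        have e1 : ∀ p, (u p + s * v p) ^ 2 = u p ^ 2 + (2 * s) * (u p * v p) + s ^ 2 * v p ^ 2 :=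
          fun p => by ring
        have e2 : ∀ p ∈ Ω, ‖gr (fun q => u q + s * v q) p‖ ^ 2 =
            ‖gr u p‖ ^ 2 + (2 * s) * (gr u p * conj (gr v p)).re + s ^ 2 * ‖gr v p‖ ^ 2 := by
          intro p hp
          rw [gr_add hΩ hu hv s hp]
          rw [← Complex.normSq_eq_norm_sq, ← Complex.normSq_eq_norm_sq, ← Complex.normSq_eq_norm_sq,
            Complex.normSq_add, Complex.normSq_mul, Complex.normSq_ofReal, map_mul, Complex.conj_ofReal]
          have : (gr u p * (↑s * conj (gr v p))).re = s * (gr u p * conj (gr v p)).re := by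
            rw [mul_left_comm, Complex.re_ofReal_mul]
          rw [this]; ring
        have i1 : IntegrableOn (fun p => u p ^ 2 + (2 * s) * (u p * v p)) Ω :=
          hu2.add (iuv.const_mul _)
        have i2 : IntegrableOn (fun p => ‖gr u p‖ ^ 2 + (2 * s) * (gr u p * conj (gr v p)).re) Ω :=
          hg2.add (igg.const_mul _)
        have hm := hmin (fun q => u q + s * v q) (hu.add (contDiffOn_const.mul hv)) (by
            refine (i1.add (hv2.const_mul (s ^ 2))).congr (Filter.Eventually.of_forall fun p => ?_)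
            exact (e1 p).symm) (by
            refine (i2.add (hgv2.const_mul (s ^ 2))).congr
              ((ae_restrict_iff' hms).2 (Filter.Eventually.of_forall fun p hp => ?_))
            exact (e2 p hp).symm) (by
            rw [integral_add (hint u hu hu2) ((hint v hv hv2).const_mul s), integral_const_mul, hmean,
              hvm]; simp)
        have f1 : ∫ p in Ω, (u p + s * v p) ^ 2 = (∫ p in Ω, u p ^ 2) +
            (2 * s) * (∫ p in Ω, u p * v p) + s ^ 2 * ∫ p in Ω, v p ^ 2 := by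
          rw [← integral_const_mul, ← integral_const_mul, ← integral_add hu2 (iuv.const_mul _),
            ← integral_add i1 (hv2.const_mul _)]
          exact integral_congr_ae (Filter.Eventually.of_forall e1)
        have f2 : ∫ p in Ω, ‖gr (fun q => u q + s * v q) p‖ ^ 2 = (∫ p in Ω, ‖gr u p‖ ^ 2) +
            (2 * s) * (∫ p in Ω, (gr u p * conj (gr v p)).re) + s ^ 2 * ∫ p in Ω, ‖gr v p‖ ^ 2 := by
          rw [← integral_const_mul, ← integral_const_mul, ← integral_add hg2 (igg.const_mul _),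
            ← integral_add i2 (hgv2.const_mul _)]
          exact setIntegral_congr_fun hms e2
        rw [f1, f2] at hm
        nlinarith [hm]
      have h0 := linear_zero key
      field_simp
      linarith
    intro v hv hv2 hgv2
    have hv1 := hint v hv hv2
    set m : ℝ := (∫ p in Ω, v p) / volume.real Ω with hm
    have h6 : volume.real Ω ≠ 0 := by
      rw [Measure.real]
      exact (ENNReal.toReal_pos hpos.ne' hfin).ne'
    have ic : IntegrableOn (fun _ : ℂ => m) Ω := integrableOn_const hfin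
    have h7 := main (fun p => v p - m) (hv.sub contDiffOn_const) (by
        have e : ∀ p, (v p - m) ^ 2 = v p ^ 2 + (-2 * m) * v p + m ^ 2 := fun p => by ring
        have : IntegrableOn (fun p => v p ^ 2 + (-2 * m) * v p + m ^ 2) Ω :=
          (hv2.add (hv1.const_mul _)).add (integrableOn_const hfin)
        exact this.congr (Filter.Eventually.of_forall fun p => (e p).symm)) (by
        simpa only [gr_sub_const] using hgv2) (by
        rw [integral_sub hv1 ic, setIntegral_const, smul_eq_mul, hm]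
        field_simp
        ring)
    simp only [gr_sub_const] at h7
    rw [h7]
    congr 1
    have e : ∀ p, u p * (v p - m) = u p * v p - m * u p := fun p => by ring
    simp only [e]
    rw [integral_sub (int_mul (mea u hu) (mea v hv) hu2 hv2) ((hint u hu hu2).const_mul m),
      integral_const_mul, hmean, mul_zero, sub_zero]
  · intro v hv hv2 hgv2 hvm
    have h := hmin v hv hv2 hgv2 hvm
    rw [div_mul_eq_mul_div, div_le_iff₀ hB]
    exact h

end Crest.Agent.HS
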