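import Crest.Agent.HS.Main
import Crest.Agent.HS.SolDom
import Crest.Agent.HS.WeakMin
import Crest.Agent.HS.Rmt
set_option autoImplicit false
noncomputable section
namespace Crest.Agent.HS
open MeasureTheory Complex Metric Set
open scoped ComplexConjugate Topology

theorem main_C (Ω : Set ℂ) (hΩ : IsOpen Ω) (hsc : IsSimplyConnected Ω)
    (hbd : Bornology.IsBounded Ω)
    (u : ℂ → ℝ) (hu : ContDiffOn ℝ 1 u Ω)
    (hu2 : IntegrableOn (fun p => u p ^ 2) Ω) (hg2 : IntegrableOn (fun p => ‖gr u p‖ ^ 2) Ω)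
    (hmean : ∫ p in Ω, u p = 0) (hnz : ∃ p ∈ Ω, u p ≠ 0)
    (hmin : ∀ v : ℂ → ℝ, ContDiffOn ℝ 1 v Ω →
      IntegrableOn (fun p => v p ^ 2) Ω → IntegrableOn (fun p => ‖gr v p‖ ^ 2) Ω →
      ∫ p in Ω, v p = 0 →
      (∫ p in Ω, ‖gr u p‖ ^ 2) * (∫ p in Ω, v p ^ 2)
        ≤ (∫ p in Ω, ‖gr v p‖ ^ 2) * (∫ p in Ω, u p ^ 2)) :
    ∀ p ∈ Ω, gr u p ≠ 0 := by
  intro x0 hx0 hcrit
  have hconn : IsPreconnected Ω := hsc.isPathConnected.isConnected.isPreconnected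
  obtain ⟨κ, hκ, hweak, hpoin⟩ := weak_of_min Ω hΩ hconn hbd u hu hu2 hg2 hmean hnz hmin
  obtain ⟨f, hf, him⟩ := exists_conf Ω hΩ hsc hbd x0 hx0
  have hS := sol_of_domain Ω hΩ f hf x0 him u hu hu2 hg2 κ hκ hweak hpoin hcrit
  obtain ⟨hc, hθ⟩ := disc_main hS
  obtain ⟨p, hp, hpu⟩ := hnz
  rw [← him] at hp
  obtain ⟨w, hw, rfl⟩ := hp
  have h1 := hθ w hw
  simp only [hc, zero_sub, neg_eq_zero] at h1
  exact hpu h1

end Crest.Agent.HS
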