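import Crest.Agent.HS.Poinc
set_option autoImplicit false
noncomputable section
namespace Crest.Agent.HS
open MeasureTheory Complex Metric Set
open scoped ComplexConjugate Topology

/-! ### auxiliary facts -/

namespace IntsAux

theorem restrict_eq : (volume : Measure ℂ).restrict D = volume.restrict (D \ {0}) := by
  apply Measure.restrict_congr_set
  exact (sdiff_null_ae_eq_self (by simp)).symm

theorem aesm {E : Type*} [TopologicalSpace E] [TopologicalSpace.PseudoMetrizableSpace E]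
    [SecondCountableTopologyEither ℂ E]
    {F : ℂ → E} (h : ContinuousOn F (D \ {0})) :
    AEStronglyMeasurable F (volume.restrict D) := by
  rw [restrict_eq]
  exact h.aestronglyMeasurable (measurableSet_ball.diff (measurableSet_singleton _))

theorem ae_D {P : ℂ → Prop} (h : ∀ w ∈ D, w ≠ 0 → P w) : ∀ᵐ w ∂(volume.restrict D), P w := by
  rw [restrict_eq, ae_restrict_iff' (measurableSet_ball.diff (measurableSet_singleton _))]
  exact Filter.Eventually.of_forall fun w hw => h w hw.1 hw.2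

theorem cont_f' {f : ℂ → ℂ} (hf : Conf f) : ContinuousOn (deriv f) D :=
  (hf.diff.deriv isOpen_ball).continuousOn

theorem cont_ph (q : ℂ) : ContinuousOn (ph q) (D \ {0}) := by
  unfold ph
  refine ContinuousOn.add ?_ (by fun_prop)
  exact continuousOn_const.div continuousOn_id fun w hw => hw.2

theorem cont_dph (q : ℂ) : ContinuousOn (dph q) (D \ {0}) := by
  unfold dph
  refine ContinuousOn.add ?_ continuousOn_const
  exact continuousOn_const.div (continuousOn_id.pow 2) fun w hw => pow_ne_zero 2 hw.2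

theorem cont_gr {χ : ℂ → ℝ} (h : ContDiffOn ℝ 1 χ D) : ContinuousOn (gr χ) D := by
  have h1 : ContinuousOn (fderiv ℝ χ) D := h.continuousOn_fderiv_of_isOpen isOpen_ball le_rfl
  have e : gr χ = fun w => ((fderiv ℝ χ w 1 : ℝ) : ℂ) - ((fderiv ℝ χ w I : ℝ) : ℂ) * I := by
    funext w
    apply Complex.ext <;> simp [gr]
  rw [e]
  have a1 : ContinuousOn (fun w => fderiv ℝ χ w 1) D := h1.clm_apply continuousOn_const
  have a2 : ContinuousOn (fun w => fderiv ℝ χ w I) D := h1.clm_apply continuousOn_const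
  exact (continuous_ofReal.comp_continuousOn a1).sub
    ((continuous_ofReal.comp_continuousOn a2).mul continuousOn_const)

/-- Schwarz -/
theorem f_le {f : ℂ → ℂ} (hf : Conf f) : ∃ M : ℝ, 0 ≤ M ∧ ∀ w ∈ D, ‖f w‖ ≤ M * ‖w‖ := by
  obtain ⟨M, hM⟩ := hf.bdd
  have hM0 : 0 ≤ M := le_trans (norm_nonneg _) (hM 0 (by simp [D]))
  refine ⟨M + 1, by linarith, fun w hw => ?_⟩
  have := Complex.dist_le_div_mul_dist_of_mapsTo_ball (f := f) (c := 0) (z := w) (R₁ := 1)
    (R₂ := M + 1) hf.diff (fun z hz => by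
      rw [hf.zero, mem_closedBall_zero_iff]
      linarith [hM z hz]) hw
  simpa [hf.zero] using this

theorem ph_le {q : ℂ} (hq : ‖q‖ = 1) {w : ℂ} (hw : w ∈ D) (h0 : w ≠ 0) :
    ‖ph q w‖ ≤ 2 / ‖w‖ := by
  have hw1 : ‖w‖ < 1 := by simpa [D] using hw
  have hwp : 0 < ‖w‖ := norm_pos_iff.mpr h0
  have h1 : ‖ph q w‖ ≤ 1 / ‖w‖ + ‖w‖ := by
    unfold ph
    refine (norm_add_le _ _).trans ?_
    simp [hq]
  have h2 : ‖w‖ ≤ 1 / ‖w‖ := by
    rw [le_div_iff₀ hwp]
    nlinarith
  calc ‖ph q w‖ ≤ 1 / ‖w‖ + ‖w‖ := h1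
    _ ≤ 1 / ‖w‖ + 1 / ‖w‖ := by linarith
    _ = 2 / ‖w‖ := by ring

theorem dph_le {q : ℂ} (hq : ‖q‖ = 1) {w : ℂ} (hw : w ∈ D) (h0 : w ≠ 0) :
    ‖dph q w‖ ≤ 2 / ‖w‖ ^ 2 := by
  have hw1 : ‖w‖ < 1 := by simpa [D] using hw
  have hwp : 0 < ‖w‖ := norm_pos_iff.mpr h0
  have h1 : ‖dph q w‖ ≤ 1 / ‖w‖ ^ 2 + 1 := by
    unfold dph
    refine (norm_add_le _ _).trans ?_
    simp [hq]
  have h2 : 1 ≤ 1 / ‖w‖ ^ 2 := by
    rw [le_div_iff₀ (by positivity)]
    nlinarith
  calc ‖dph q w‖ ≤ 1 / ‖w‖ ^ 2 + 1 := h1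
    _ ≤ 1 / ‖w‖ ^ 2 + 1 / ‖w‖ ^ 2 := by linarith
    _ = 2 / ‖w‖ ^ 2 := by ring

theorem memLp_one : MemLp (fun _ : ℂ => (1 : ℝ)) 2 (volume.restrict D) := by
  have : IsFiniteMeasure ((volume : Measure ℂ).restrict D) :=
    ⟨by rw [Measure.restrict_apply_univ]; exact measure_ball_lt_top⟩
  exact memLp_const 1

theorem memLp_f' {f : ℂ → ℂ} (hf : Conf f) :
    MemLp (fun w => ‖deriv f w‖) 2 (volume.restrict D) := by
  have hm : AEStronglyMeasurable (fun w => ‖deriv f w‖) (volume.restrict D) :=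
    aesm (((cont_f' hf).mono sdiff_subset).norm)
  rw [memLp_two_iff_integrable_sq hm]
  exact hf.area

theorem memLp_gr {f : ℂ → ℂ} {κ c : ℝ} {θ : ℂ → ℝ} (hS : Sol f κ c θ) :
    MemLp (fun w => ‖gr θ w‖) 2 (volume.restrict D) := by
  have hm : AEStronglyMeasurable (fun w => ‖gr θ w‖) (volume.restrict D) :=
    aesm (((cont_gr hS.test.c1).mono sdiff_subset).norm)
  rw [memLp_two_iff_integrable_sq hm]
  exact hS.test.en

theorem int_one (a : ℝ) : IntegrableOn (fun _ : ℂ => a) D := by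
  rw [integrableOn_const_iff]
  right
  exact measure_ball_lt_top

end IntsAux

open IntsAux

theorem memLp_Kf {f : ℂ → ℂ} (hf : Conf f) (q : ℂ) (hq : ‖q‖ = 1) :
    MemLp (Kf f q) 2 (volume.restrict D) := by
  obtain ⟨M, hM0, hM⟩ := f_le hf
  have hb : MemLp (fun w => M * ‖deriv f w‖ + M ^ 2 * 1) 2 (volume.restrict D) :=
    ((memLp_f' hf).const_mul M).add (memLp_one.const_mul (M ^ 2))
  refine hb.mono' ?_ (ae_D fun w hw h0 => ?_)
  · apply aesm
    unfold Kf
    have c1 : ContinuousOn (fun w => ((ph q w).im : ℂ)) (D \ {0}) :=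
      continuous_ofReal.comp_continuousOn (continuous_im.comp_continuousOn (cont_ph q))
    have c2 : ContinuousOn (fun w => conj (f w)) (D \ {0}) :=
      continuous_conj.comp_continuousOn (hf.diff.continuousOn.mono sdiff_subset)
    have c3 : ContinuousOn (fun w => deriv f w) (D \ {0}) := (cont_f' hf).mono sdiff_subset
    have c4 : ContinuousOn (fun w => ((‖f w‖ ^ 2 : ℝ) : ℂ)) (D \ {0}) :=
      continuous_ofReal.comp_continuousOn
        (((hf.diff.continuousOn.mono sdiff_subset).norm).pow 2)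
    exact continuousOn_const.mul ((((continuousOn_const.mul c1).mul c2).mul c3).sub
      ((continuousOn_const.mul c4).mul (cont_dph q)))
  · have hwp : 0 < ‖w‖ := norm_pos_iff.mpr h0
    have h1 := hM w hw
    have h2 := ph_le hq hw h0
    have h3 := dph_le hq hw h0
    have h4 : |(ph q w).im| ≤ 2 / ‖w‖ := (Complex.abs_im_le_norm _).trans h2
    have e1 : ‖I * ((ph q w).im : ℂ) * conj (f w) * deriv f w‖ ≤ 2 * M * ‖deriv f w‖ := by
      rw [norm_mul, norm_mul, norm_mul, norm_I, one_mul, Complex.norm_real, Real.norm_eq_abs,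
        Complex.norm_conj]
      have : |(ph q w).im| * ‖f w‖ ≤ 2 / ‖w‖ * (M * ‖w‖) := by
        gcongr
      have e : 2 / ‖w‖ * (M * ‖w‖) = 2 * M := by field_simp
      rw [e] at this
      gcongr
    have e2 : ‖(1 / 2 : ℂ) * ((‖f w‖ ^ 2 : ℝ) : ℂ) * dph q w‖ ≤ M ^ 2 := by
      rw [norm_mul, norm_mul, Complex.norm_real, Real.norm_eq_abs, abs_of_nonneg (by positivity)]
      have : ‖f w‖ ^ 2 * ‖dph q w‖ ≤ (M * ‖w‖) ^ 2 * (2 / ‖w‖ ^ 2) := by
        gcongr
      have e : (M * ‖w‖) ^ 2 * (2 / ‖w‖ ^ 2) = 2 * M ^ 2 := by field_simp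
      rw [e] at this
      have e' : ‖(1 / 2 : ℂ)‖ = 1 / 2 := by norm_num
      rw [e', mul_assoc]
      linarith
    unfold Kf
    rw [norm_mul]
    have e' : ‖(1 / 2 : ℂ)‖ = 1 / 2 := by norm_num
    rw [e']
    have e3 := (norm_sub_le (I * ((ph q w).im : ℂ) * conj (f w) * deriv f w)
      ((1 / 2 : ℂ) * ((‖f w‖ ^ 2 : ℝ) : ℂ) * dph q w))
    nlinarith [norm_nonneg (deriv f w), sq_nonneg M]

theorem int_chi {f : ℂ → ℂ} (hf : Conf f) (q : ℂ) (hq : ‖q‖ = 1) :
    AEStronglyMeasurable (chi f q) (volume.restrict D) ∧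
    IntegrableOn (fun w => tau f w * chi f q w ^ 2) D := by
  have cchi : ContinuousOn (chi f q) (D \ {0}) := by
    unfold chi
    refine continuous_re.comp_continuousOn ((cont_ph q).add ?_)
    exact (((hf.diff.continuousOn.mono sdiff_subset)).mul (cont_dph q)).div
      ((cont_f' hf).mono sdiff_subset) fun w hw => hf.dne w hw.1
  refine ⟨aesm cchi, ?_⟩
  obtain ⟨M, hM0, hM⟩ := f_le hf
  -- bound of `f' ph + f dph`
  have hh1 : DifferentiableOn ℂ (dslope f 0) D :=
    (Complex.differentiableOn_dslope (isOpen_ball.mem_nhds (by simp))).2 hf.diff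
  have hh2 : ContinuousOn (deriv (dslope f 0)) D := (hh1.deriv isOpen_ball).continuousOn
  obtain ⟨B, hB⟩ := (isCompact_closedBall (0 : ℂ) (1 / 2)).exists_bound_of_continuousOn
    (hh2.mono (closedBall_subset_ball (by norm_num)))
  have hB0 : 0 ≤ B := le_trans (norm_nonneg _) (hB 0 (by simp))
  have key : ∀ w ∈ D, w ≠ 0 → ‖deriv f w * ph q w + f w * dph q w‖ ≤
      4 * ‖deriv f w‖ + (8 * M + B) * 1 := by
    intro w hw h0
    have hwp : 0 < ‖w‖ := norm_pos_iff.mpr h0
    have hw1 : ‖w‖ < 1 := by simpa [D] using hw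
    have h1 := hM w hw
    by_cases hsm : ‖w‖ ≤ 1 / 2
    · have hd : deriv (dslope f 0) w = (deriv f w * w - f w) / w ^ 2 := by
        have e : dslope f 0 =ᶠ[𝓝 w] fun z => f z / z := by
          filter_upwards [isOpen_ne.mem_nhds h0] with z hz
          rw [dslope_of_ne _ hz, slope_def_field, hf.zero]
          simp
        have hdf : HasDerivAt f (deriv f w) w :=
          (hf.diff.differentiableAt (isOpen_ball.mem_nhds hw)).hasDerivAt
        have hq := hdf.fun_div (hasDerivAt_id' w) h0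
        rw [e.deriv_eq, hq.deriv]
        simp
      have e : deriv f w * ph q w + f w * dph q w =
          q * deriv (dslope f 0) w + conj q * (w * deriv f w + f w) := by
        rw [hd]
        unfold ph dph
        field_simp
        ring
      rw [e]
      have b1 : ‖q * deriv (dslope f 0) w‖ ≤ B := by
        rw [norm_mul, hq, one_mul]
        exact hB w (by simpa using hsm)
      have b2 : ‖conj q * (w * deriv f w + f w)‖ ≤ ‖deriv f w‖ + M := by
        rw [norm_mul, Complex.norm_conj, hq, one_mul]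
        refine (norm_add_le _ _).trans ?_
        rw [norm_mul]
        have : ‖w‖ * ‖deriv f w‖ ≤ 1 * ‖deriv f w‖ := by gcongr
        nlinarith
      have := norm_add_le (q * deriv (dslope f 0) w) (conj q * (w * deriv f w + f w))
      nlinarith [norm_nonneg (deriv f w)]
    · push Not at hsm
      have h2 : ‖ph q w‖ ≤ 4 := by
        refine (ph_le hq hw h0).trans ?_
        rw [div_le_iff₀ hwp]
        linarith
      have h3 : ‖dph q w‖ ≤ 8 := by
        refine (dph_le hq hw h0).trans ?_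
        rw [div_le_iff₀ (by positivity)]
        nlinarith
      have h4 : ‖f w‖ ≤ M := by nlinarith
      refine (norm_add_le _ _).trans ?_
      rw [norm_mul, norm_mul]
      have b1 : ‖deriv f w‖ * ‖ph q w‖ ≤ ‖deriv f w‖ * 4 := by gcongr
      have b2 : ‖f w‖ * ‖dph q w‖ ≤ M * 8 := by gcongr
      linarith
  have hb : MemLp (fun w => 4 * ‖deriv f w‖ + (8 * M + B) * 1) 2 (volume.restrict D) :=
    ((memLp_f' hf).const_mul 4).add (memLp_one.const_mul (8 * M + B))
  have hb2 := hb.integrable_sq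
  refine hb2.mono' ?_ (ae_D fun w hw h0 => ?_)
  · apply aesm
    unfold tau
    exact ((((cont_f' hf).mono sdiff_subset).norm).pow 2).mul (cchi.pow 2)
  · have hk := key w hw h0
    have hd := hf.dne w hw
    have e : deriv f w * ph q w + f w * dph q w =
        deriv f w * (ph q w + f w * dph q w / deriv f w) := by
      field_simp
    have h1 : |chi f q w| ≤ ‖ph q w + f w * dph q w / deriv f w‖ := Complex.abs_re_le_norm _
    have h2 : tau f w * chi f q w ^ 2 ≤ ‖deriv f w * ph q w + f w * dph q w‖ ^ 2 := by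
      rw [e, norm_mul, mul_pow]
      unfold tau
      have : chi f q w ^ 2 ≤ ‖ph q w + f w * dph q w / deriv f w‖ ^ 2 := by
        rw [← sq_abs]
        gcongr
      gcongr
    rw [Real.norm_eq_abs, abs_of_nonneg (by unfold tau; positivity)]
    refine h2.trans ?_
    gcongr

theorem memLp_grad {f : ℂ → ℂ} {κ c : ℝ} {θ : ℂ → ℝ} (hS : Sol f κ c θ) (q : ℂ) (hq : ‖q‖ = 1) :
    MemLp (fun w => ph q w * gr θ w) 2 (volume.restrict D) := by
  obtain ⟨C, hC⟩ := hS.near
  have hb : MemLp (fun w => 4 * ‖gr θ w‖ + (2 * |C|) * 1) 2 (volume.restrict D) :=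
    ((memLp_gr hS).const_mul 4).add (memLp_one.const_mul (2 * |C|))
  refine hb.mono' ?_ (ae_D fun w hw h0 => ?_)
  · apply aesm
    exact (cont_ph q).mul ((cont_gr hS.test.c1).mono sdiff_subset)
  · have hwp : 0 < ‖w‖ := norm_pos_iff.mpr h0
    rw [norm_mul]
    by_cases hsm : ‖w‖ < 1 / 2
    · have h1 := (hC w (by simpa using hsm)).2
      have h2 := ph_le hq hw h0
      have h3 : ‖gr θ w‖ ≤ |C| * ‖w‖ := h1.trans (by gcongr; exact le_abs_self C)
      have : ‖ph q w‖ * ‖gr θ w‖ ≤ 2 / ‖w‖ * (|C| * ‖w‖) := by gcongr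
      have e : 2 / ‖w‖ * (|C| * ‖w‖) = 2 * |C| := by field_simp
      rw [e] at this
      linarith [norm_nonneg (gr θ w)]
    · push Not at hsm
      have h2 : ‖ph q w‖ ≤ 4 := by
        refine (ph_le hq hw h0).trans ?_
        rw [div_le_iff₀ hwp]
        linarith
      have : ‖ph q w‖ * ‖gr θ w‖ ≤ 4 * ‖gr θ w‖ := by gcongr
      linarith [abs_nonneg C]

theorem int_th {f : ℂ → ℂ} {κ c : ℝ} {θ : ℂ → ℝ} (hS : Sol f κ c θ) (q : ℂ) (hq : ‖q‖ = 1) :
    IntegrableOn (fun w => tau f w * (θ w ^ 2 * ‖ph q w‖ ^ 2)) D := by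
  obtain ⟨C, hC⟩ := hS.near
  have hb : Integrable (fun w => 16 * (tau f w * θ w ^ 2) + (4 * C ^ 2) * tau f w)
      (volume.restrict D) :=
    (hS.test.l2.const_mul 16).add (hS.conf.area.const_mul (4 * C ^ 2))
  refine hb.mono' ?_ (ae_D fun w hw h0 => ?_)
  · apply aesm
    unfold tau
    exact ((((cont_f' hS.conf).mono sdiff_subset).norm).pow 2).mul
      (((hS.test.c1.continuousOn.mono sdiff_subset).pow 2).mul (((cont_ph q).norm).pow 2))
  · have hwp : 0 < ‖w‖ := norm_pos_iff.mpr h0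
    have hw1 : ‖w‖ < 1 := by simpa [D] using hw
    have ht : 0 ≤ tau f w := by unfold tau; positivity
    rw [Real.norm_eq_abs, abs_of_nonneg (by positivity)]
    by_cases hsm : ‖w‖ < 1 / 2
    · have h1 := (hC w (by simpa using hsm)).1
      have h2 := ph_le hq hw h0
      have h3 : θ w ^ 2 ≤ (C * ‖w‖ ^ 2) ^ 2 := by
        rw [← sq_abs (θ w)]
        exact pow_le_pow_left₀ (abs_nonneg _) h1 2
      have h4 : ‖ph q w‖ ^ 2 ≤ (2 / ‖w‖) ^ 2 := by gcongr
      have h5 : θ w ^ 2 * ‖ph q w‖ ^ 2 ≤ (C * ‖w‖ ^ 2) ^ 2 * (2 / ‖w‖) ^ 2 := by gcongr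
      have e : (C * ‖w‖ ^ 2) ^ 2 * (2 / ‖w‖) ^ 2 = 4 * C ^ 2 * ‖w‖ ^ 2 := by
        field_simp
        ring
      rw [e] at h5
      have h6 : 4 * C ^ 2 * ‖w‖ ^ 2 ≤ 4 * C ^ 2 := by
        have : ‖w‖ ^ 2 ≤ 1 := by nlinarith
        have h7 : 0 ≤ 4 * C ^ 2 := by positivity
        nlinarith
      have h8 : tau f w * (θ w ^ 2 * ‖ph q w‖ ^ 2) ≤ tau f w * (4 * C ^ 2) :=
        mul_le_mul_of_nonneg_left (h5.trans h6) ht
      have h9 : 0 ≤ tau f w * θ w ^ 2 := by positivity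
      linarith
    · push Not at hsm
      have h2 : ‖ph q w‖ ≤ 4 := by
        refine (ph_le hq hw h0).trans ?_
        rw [div_le_iff₀ hwp]
        linarith
      have h4 : ‖ph q w‖ ^ 2 ≤ 16 := by
        have : ‖ph q w‖ ^ 2 ≤ 4 ^ 2 := by gcongr
        linarith
      have h5 : tau f w * (θ w ^ 2 * ‖ph q w‖ ^ 2) ≤ tau f w * (θ w ^ 2 * 16) := by gcongr
      have h9 : 0 ≤ 4 * C ^ 2 * tau f w := by positivity
      linarith

theorem int_wt {f : ℂ → ℂ} {κ c : ℝ} {θ : ℂ → ℝ} (hS : Sol f κ c θ) :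
    IntegrableOn (fun w => (1 + (tt w ^ 2)⁻¹) * θ w ^ 2) D := by
  obtain ⟨C, hC⟩ := hS.near
  have hθ := sq_int θ hS.test.c1 hS.test.en
  have hb : Integrable (fun w => 17 * θ w ^ 2 + C ^ 2) (volume.restrict D) :=
    (hθ.const_mul 17).add (int_one (C ^ 2))
  refine hb.mono' ?_ (ae_D fun w hw h0 => ?_)
  · apply aesm
    unfold tt
    refine ContinuousOn.mul (continuousOn_const.add (ContinuousOn.inv₀ (by fun_prop) ?_))
      ((hS.test.c1.continuousOn.mono sdiff_subset).pow 2)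
    intro w hw
    have : ‖w‖ ≠ 0 := norm_ne_zero_iff.mpr hw.2
    positivity
  · have hwp : 0 < ‖w‖ := norm_pos_iff.mpr h0
    have htp : 0 < tt w := by unfold tt; positivity
    rw [Real.norm_eq_abs, abs_of_nonneg (by positivity)]
    by_cases hsm : ‖w‖ < 1 / 2
    · have h1 := (hC w (by simpa using hsm)).1
      have h3 : θ w ^ 2 ≤ (C * tt w) ^ 2 := by
        rw [← sq_abs (θ w)]
        exact pow_le_pow_left₀ (abs_nonneg _) h1 2
      have h4 : (tt w ^ 2)⁻¹ * θ w ^ 2 ≤ C ^ 2 := by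
        rw [inv_mul_le_iff₀ (by positivity)]
        calc θ w ^ 2 ≤ (C * tt w) ^ 2 := h3
          _ = tt w ^ 2 * C ^ 2 := by ring
      have h5 : 0 ≤ θ w ^ 2 := sq_nonneg _
      rw [add_mul, one_mul]
      linarith
    · push Not at hsm
      have h4 : (tt w ^ 2)⁻¹ ≤ 16 := by
        rw [inv_le_comm₀ (by positivity) (by norm_num)]
        have : 1 / 4 ≤ tt w := by
          unfold tt
          nlinarith
        nlinarith
      have h5 : 0 ≤ θ w ^ 2 := sq_nonneg _
      rw [add_mul, one_mul]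
      have h6 : (tt w ^ 2)⁻¹ * θ w ^ 2 ≤ 16 * θ w ^ 2 := by gcongr
      nlinarith [sq_nonneg C]

end Crest.Agent.HS
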