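import Crest.Agent.HS.ESq
import Crest.Agent.HS.ELin
import Crest.Agent.HS.Ints
set_option autoImplicit false
noncomputable section
namespace Crest.Agent.HS
open MeasureTheory Complex Metric Set
open scoped ComplexConjugate Topology

/-- lower bound for `G = 4A - Σ ∫ τ χ²` -/
theorem G_lower {f : ℂ → ℂ} (hf : Conf f) (a : ℕ → ℂ) (ha : Coef f a) :
    Summable (fun j : ℕ => ‖a j‖ ^ 2) ∧ 0 < ∑' j, ‖a j‖ ^ 2 ∧
    (Real.pi * ∑' j, ‖a j‖ ^ 2) ^ 2 ≤ (∫ w in D, tau f w) *
      (4 * (∫ w in D, tau f w) - ∫ w in D, tau f w * (chi f 1 w ^ 2 + chi f I w ^ 2)) := by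
  obtain ⟨hL, hLs⟩ := E_lin hf a ha
  obtain ⟨hE, hEq⟩ := E_sq hf a ha
  have hpi : (Real.pi : ℝ) ≠ 0 := Real.pi_ne_zero
  have hsum : Summable (fun j : ℕ => ‖a j‖ ^ 2) := by
    have h1 := hLs.summable
    have h2 := h1.mul_left (Real.pi⁻¹)
    refine h2.congr (fun j => ?_)
    field_simp
  refine ⟨hsum, ?_, ?_⟩
  · have h0 : 0 ≤ ∑' j, ‖a j‖ ^ 2 := tsum_nonneg (fun j => by positivity)
    rcases h0.lt_or_eq with h | h
    · exact h
    · exfalso
      have hz : HasSum (fun j : ℕ => ‖a j‖ ^ 2) 0 := by rw [h]; exact hsum.hasSum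
      rw [hasSum_zero_iff_of_nonneg (fun j => by positivity)] at hz
      have haz : ∀ j, a j = 0 := by
        intro j
        have := congrFun hz j
        simpa using this
      have hf0 : ∀ w ∈ D, f w = 0 := by
        intro w hw
        have h1 := ha w hw
        have h2 : (fun j => a j * w ^ (j + 1)) = fun _ => (0 : ℂ) := by
          funext j; rw [haz j, zero_mul]
        rw [h2] at h1
        exact h1.unique hasSum_zero
      have hm : (1 / 2 : ℂ) ∈ D := by
        rw [D, mem_ball_zero_iff]; norm_num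
      have hm0 : (0 : ℂ) ∈ D := by
        rw [D, mem_ball_zero_iff]; norm_num
      have := hf.inj hm hm0 (by rw [hf0 _ hm, hf0 _ hm0])
      norm_num at this
  · set S := ∑' j, ‖a j‖ ^ 2 with hS
    have hLv : ∫ w in D, tau f w * (w.im * (Ep f 1 w).im - w.re * (Ep f I w).im)
        = Real.pi * S := by
      rw [hS, ← tsum_mul_left]
      exact hLs.tsum_eq.symm
    have hc1 := (int_chi hf 1 (by simp)).2
    have hcI := (int_chi hf I (by simp)).2
    have hc : IntegrableOn (fun w => tau f w * (chi f 1 w ^ 2 + chi f I w ^ 2)) D := by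
      refine (hc1.add hcI).congr (Filter.Eventually.of_forall fun w => ?_)
      simp only [Pi.add_apply]; ring
    have hchi : ∀ q w, chi f q w = (Ep f q w).re := fun q w => rfl
    have hnn : ∀ z : ℂ, ‖z‖ ^ 2 = z.re ^ 2 + z.im ^ 2 := by
      intro z
      rw [← Complex.normSq_eq_norm_sq, Complex.normSq_apply]; ring
    have hGi : IntegrableOn (fun w => tau f w * ((Ep f 1 w).im ^ 2 + (Ep f I w).im ^ 2)) D := by
      refine (hE.sub hc).congr (Filter.Eventually.of_forall fun w => ?_)
      simp only [Pi.sub_apply]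
      rw [hnn, hnn, hchi, hchi]; ring
    have hG : 4 * (∫ w in D, tau f w) - ∫ w in D, tau f w * (chi f 1 w ^ 2 + chi f I w ^ 2)
        = ∫ w in D, tau f w * ((Ep f 1 w).im ^ 2 + (Ep f I w).im ^ 2) := by
      rw [← hEq, ← integral_sub hE hc]
      refine integral_congr_ae (Filter.Eventually.of_forall fun w => ?_)
      simp only
      rw [hnn, hnn, hchi, hchi]; ring
    rw [hG]
    set G := ∫ w in D, tau f w * ((Ep f 1 w).im ^ 2 + (Ep f I w).im ^ 2) with hGdef
    set A := ∫ w in D, tau f w with hA
    have key : ∀ x : ℝ, 0 ≤ A * (x * x) + (-2 * (Real.pi * S)) * x + G := by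
      intro x
      have e : A * (x * x) + (-2 * (Real.pi * S)) * x + G
          = ∫ w in D, ((tau f w * ((Ep f 1 w).im ^ 2 + (Ep f I w).im ^ 2)
            + (-2 * x) * (tau f w * (w.im * (Ep f 1 w).im - w.re * (Ep f I w).im)))
            + (x * x) * tau f w) := by
        have i2 : IntegrableOn (fun w => (-2 * x) *
            (tau f w * (w.im * (Ep f 1 w).im - w.re * (Ep f I w).im))) D :=
          Integrable.const_mul hL (-2 * x)
        have i3 : IntegrableOn (fun w => (x * x) * tau f w) D :=
          Integrable.const_mul hf.area (x * x)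
        have i12 : IntegrableOn (fun w => tau f w * ((Ep f 1 w).im ^ 2 + (Ep f I w).im ^ 2)
            + (-2 * x) * (tau f w * (w.im * (Ep f 1 w).im - w.re * (Ep f I w).im))) D :=
          Integrable.add hGi i2
        have e1 := integral_add (μ := volume.restrict D) i12 i3
        have e2 := integral_add (μ := volume.restrict D) hGi i2
        have e3 : ∫ w in D, (-2 * x) * (tau f w * (w.im * (Ep f 1 w).im - w.re * (Ep f I w).im))
            = (-2 * x) * (Real.pi * S) := by rw [integral_const_mul, hLv]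
        have e4 : ∫ w in D, (x * x) * tau f w = (x * x) * A := by rw [integral_const_mul]
        refine Eq.symm (e1.trans ?_)
        rw [e2, e3, e4, ← hGdef]
        ring
      rw [e]
      refine setIntegral_nonneg measurableSet_ball (fun w hw => ?_)
      have hw1 : w.re ^ 2 + w.im ^ 2 ≤ 1 := by
        have h1 : ‖w‖ < 1 := by simpa [D, mem_ball_zero_iff] using hw
        have h2 : ‖w‖ ^ 2 ≤ 1 := by
          have := norm_nonneg w
          nlinarith
        rw [hnn] at h2
        exact h2
      have ht : 0 ≤ tau f w := by unfold tau; positivity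
      have hid : tau f w * ((Ep f 1 w).im ^ 2 + (Ep f I w).im ^ 2)
            + (-2 * x) * (tau f w * (w.im * (Ep f 1 w).im - w.re * (Ep f I w).im))
            + (x * x) * tau f w
          = tau f w * (((Ep f 1 w).im - x * w.im) ^ 2 + ((Ep f I w).im + x * w.re) ^ 2
            + x ^ 2 * (1 - (w.re ^ 2 + w.im ^ 2))) := by ring
      rw [hid]
      have h3 : 0 ≤ 1 - (w.re ^ 2 + w.im ^ 2) := by linarith
      positivity
    have hd := discrim_le_zero key
    unfold discrim at hd
    nlinarith [hd]

end Crest.Agent.HS
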