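import Crest.Agent.HS.Cut
import Crest.Agent.HS.Ints
set_option autoImplicit false
noncomputable section
namespace Crest.Agent.HS
open MeasureTheory Complex Metric Set Filter
open scoped ComplexConjugate Topology

theorem idA_gr_congr {a b : ℂ → ℝ} {w : ℂ} (h : a =ᶠ[𝓝 w] b) : gr a w = gr b w := by
  unfold gr; rw [h.fderiv_eq]

theorem idA_gr_mul {a b : ℂ → ℝ} {w : ℂ} (ha : DifferentiableAt ℝ a w)
    (hb : DifferentiableAt ℝ b w) :
    gr (fun z => a z * b z) w = (a w : ℂ) * gr b w + (b w : ℂ) * gr a w := by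
  unfold gr
  rw [fderiv_fun_mul ha hb]
  apply Complex.ext
  · simp
  · simp
    ring

theorem idA_gr_comp {a : ℂ → ℝ} {g : ℝ → ℝ} {g' : ℝ} {w : ℂ} (ha : DifferentiableAt ℝ a w)
    (hg : HasDerivAt g g' (a w)) :
    gr (fun z => g (a z)) w = (g' : ℂ) * gr a w := by
  have h := hg.comp_hasFDerivAt w ha.hasFDerivAt
  unfold gr
  rw [show fderiv ℝ (fun z => g (a z)) w = g' • fderiv ℝ a w from h.fderiv]
  apply Complex.ext <;> simp

theorem idA_hasFDerivAt_tt (w : ℂ) : HasFDerivAt tt (2 • (innerSL ℝ w)) w :=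
  (hasStrictFDerivAt_norm_sq w).hasFDerivAt

theorem idA_gr_tt (w : ℂ) : gr tt w = 2 * conj w := by
  unfold gr
  rw [(idA_hasFDerivAt_tt w).fderiv]
  apply Complex.ext
  · simp [Complex.inner]
  · simp [Complex.inner]

theorem idA_contDiff_tt {n : WithTop ℕ∞} : ContDiff ℝ n tt := contDiff_norm_sq ℝ

theorem idA_tt_pos {w : ℂ} (hw : w ≠ 0) : 0 < tt w := by
  unfold tt; positivity

theorem idA_tt_lt {w : ℂ} (hw : w ∈ D) : tt w < 1 := by
  have h1 : ‖w‖ < 1 := by simpa using hw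
  have h0 := norm_nonneg w
  unfold tt
  nlinarith

theorem idA_gr_eq (χ : ℂ → ℝ) : gr χ = fun w => ((fderiv ℝ χ w 1 : ℝ) : ℂ) - I * ((fderiv ℝ χ w I : ℝ) : ℂ) := by
  funext w
  unfold gr
  apply Complex.ext <;> simp

theorem idA_cont_gr {χ : ℂ → ℝ} {s : Set ℂ} (hs : IsOpen s) (h : ContDiffOn ℝ 1 χ s) :
    ContinuousOn (gr χ) s := by
  have h1 := h.continuousOn_fderiv_of_isOpen hs le_rfl
  rw [idA_gr_eq]
  refine ContinuousOn.sub ?_ (continuousOn_const.mul ?_)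
  · exact Complex.continuous_ofReal.comp_continuousOn (h1.clm_apply continuousOn_const)
  · exact Complex.continuous_ofReal.comp_continuousOn (h1.clm_apply continuousOn_const)

theorem idA_aesm {E : Type*} [TopologicalSpace E] [TopologicalSpace.PseudoMetrizableSpace E]
    [SecondCountableTopology E] {F : ℂ → E}
    (hF : ContinuousOn F (D \ {0})) : AEStronglyMeasurable F (volume.restrict D) := by
  have h1 : AEStronglyMeasurable F (volume.restrict (D \ {0})) :=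
    hF.aestronglyMeasurable (isOpen_ball.measurableSet.diff (measurableSet_singleton _))
  have h2 : volume.restrict (D \ {0}) = volume.restrict D := by
    apply Measure.restrict_congr_set
    exact sdiff_ae_eq_self.2 (measure_mono_null inter_subset_right (by simp))
  rwa [h2] at h1

theorem idA_ae_ne : ∀ᵐ w ∂(volume.restrict D), w ∈ D ∧ w ≠ 0 := by
  have h1 : ∀ᵐ w ∂(volume.restrict D), w ∈ D := ae_restrict_mem isOpen_ball.measurableSet
  have h2 : ∀ᵐ w ∂(volume.restrict D), w ≠ (0 : ℂ) := by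
    apply ae_restrict_of_ae
    exact Measure.ae_ne volume 0
  filter_upwards [h1, h2] with w h1 h2 using ⟨h1, h2⟩

theorem idA_int {F G : ℂ → ℝ} (hF : ContinuousOn F (D \ {0})) (hG : IntegrableOn G D)
    (hle : ∀ w ∈ D, w ≠ 0 → |F w| ≤ G w) : IntegrableOn F D := by
  refine Integrable.mono' hG (idA_aesm hF) ?_
  filter_upwards [idA_ae_ne] with w hw
  exact hle w hw.1 hw.2

theorem idA_norm_sq_add (a b : ℂ) : ‖a + b‖ ^ 2 ≤ 2 * ‖a‖ ^ 2 + 2 * ‖b‖ ^ 2 := by
  have h := norm_add_le a b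
  have h1 := norm_nonneg (a + b)
  have h2 := norm_nonneg a
  have h3 := norm_nonneg b
  nlinarith [sq_nonneg (‖a‖ - ‖b‖)]

theorem idA_test_mul {f : ℂ → ℂ} {θ P : ℂ → ℝ} (hf : DifferentiableOn ℂ f D) (h : Test f θ)
    (hP : ContDiff ℝ 1 P) : Test f (fun w => P w * θ w) := by
  have hth2 := sq_int θ h.c1 h.en
  have hPc : Continuous P := hP.continuous
  have hgc : Continuous (gr P) := by
    rw [← continuousOn_univ]
    exact idA_cont_gr isOpen_univ hP.contDiffOn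
  obtain ⟨M1, hM1⟩ := (isCompact_closedBall (0 : ℂ) 1).exists_bound_of_continuousOn hPc.continuousOn
  obtain ⟨M2, hM2⟩ := (isCompact_closedBall (0 : ℂ) 1).exists_bound_of_continuousOn hgc.continuousOn
  have hprod : ContDiffOn ℝ 1 (fun w => P w * θ w) D := hP.contDiffOn.mul h.c1
  have hdth : ∀ w ∈ D, DifferentiableAt ℝ θ w := fun w hw =>
    (h.c1.differentiableOn (by norm_num)).differentiableAt (isOpen_ball.mem_nhds hw)
  have hdf : ContinuousOn (tau f) D := by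
    have h1 : ContinuousOn (deriv f) D := (hf.deriv isOpen_ball).continuousOn
    exact (h1.norm).pow 2
  refine ⟨hprod, ?_, ?_⟩
  · refine idA_int (G := fun w => 2 * M1 ^ 2 * ‖gr θ w‖ ^ 2 + 2 * M2 ^ 2 * θ w ^ 2)
      (((idA_cont_gr isOpen_ball hprod).norm.pow 2).mono sdiff_subset) ?_ ?_
    · exact (h.en.const_mul _).add (hth2.const_mul _)
    · intro w hw _
      have hwc : w ∈ closedBall (0 : ℂ) 1 := ball_subset_closedBall hw
      rw [idA_gr_mul (hP.differentiable (by norm_num) w) (hdth w hw), abs_of_nonneg (by positivity)]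
      refine (idA_norm_sq_add _ _).trans ?_
      rw [norm_mul, norm_mul, Complex.norm_real, Complex.norm_real, mul_pow, mul_pow]
      have e1 : ‖P w‖ ^ 2 ≤ M1 ^ 2 := pow_le_pow_left₀ (norm_nonneg _) (hM1 w hwc) 2
      have e2 : ‖gr P w‖ ^ 2 ≤ M2 ^ 2 := pow_le_pow_left₀ (norm_nonneg _) (hM2 w hwc) 2
      have e3 : ‖θ w‖ ^ 2 = θ w ^ 2 := by rw [Real.norm_eq_abs, sq_abs]
      rw [e3]
      have e4 := mul_le_mul_of_nonneg_right e1 (sq_nonneg ‖gr θ w‖)
      have e5 := mul_le_mul_of_nonneg_left e2 (sq_nonneg (θ w))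
      nlinarith
  · refine idA_int (G := fun w => M1 ^ 2 * (tau f w * θ w ^ 2)) ?_ (h.l2.const_mul _) ?_
    · exact ((hdf.mul (hprod.continuousOn.pow 2))).mono sdiff_subset
    · intro w hw _
      have hwc : w ∈ closedBall (0 : ℂ) 1 := ball_subset_closedBall hw
      have e1 : ‖P w‖ ^ 2 ≤ M1 ^ 2 := pow_le_pow_left₀ (norm_nonneg _) (hM1 w hwc) 2
      have e3 : ‖P w‖ ^ 2 = P w ^ 2 := by rw [Real.norm_eq_abs, sq_abs]
      rw [e3] at e1
      have e4 : 0 ≤ tau f w * θ w ^ 2 := by unfold tau; positivity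
      have e5 := mul_le_mul_of_nonneg_right e1 e4
      show |tau f w * (P w * θ w) ^ 2| ≤ M1 ^ 2 * (tau f w * θ w ^ 2)
      rw [abs_of_nonneg (by unfold tau; positivity)]
      calc tau f w * (P w * θ w) ^ 2 = P w ^ 2 * (tau f w * θ w ^ 2) := by ring
        _ ≤ _ := e5

/-- cut-off near the origin -/
def idAom (N : ℝ) (w : ℂ) : ℝ := Real.smoothTransition (N * tt w - 1)
def idAP (N : ℝ) (w : ℂ) : ℝ := idAom N w * Ph w

theorem idA_dsT_gt {x : ℝ} (hx : 1 < x) : deriv Real.smoothTransition x = 0 := by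
  have h : Real.smoothTransition =ᶠ[𝓝 x] fun _ => (1 : ℝ) := by
    filter_upwards [lt_mem_nhds hx] with y hy
    exact Real.smoothTransition.one_of_one_le hy.le
  rw [h.deriv_eq]
  simp

theorem idA_dsT_lt {x : ℝ} (hx : x < 0) : deriv Real.smoothTransition x = 0 := by
  have h : Real.smoothTransition =ᶠ[𝓝 x] fun _ => (0 : ℝ) := by
    filter_upwards [gt_mem_nhds hx] with y hy
    exact Real.smoothTransition.zero_of_nonpos hy.le
  rw [h.deriv_eq]
  simp

theorem idA_exists_M : ∃ M : ℝ, 0 ≤ M ∧ ∀ x, |deriv Real.smoothTransition x| ≤ M := by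
  have hc : Continuous (deriv Real.smoothTransition) :=
    (Real.smoothTransition.contDiff (n := 1)).continuous_deriv le_rfl
  obtain ⟨M, hM⟩ := (isCompact_Icc (a := (0 : ℝ)) (b := 1)).exists_bound_of_continuousOn hc.continuousOn
  have hM0 : 0 ≤ M := (norm_nonneg _).trans (hM 0 (by simp))
  refine ⟨M, hM0, fun x => ?_⟩
  rcases lt_or_ge x 0 with h | h
  · rw [idA_dsT_lt h, abs_zero]; exact hM0
  · rcases lt_or_ge 1 x with h' | h'
    · rw [idA_dsT_gt h', abs_zero]; exact hM0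
    · exact hM x ⟨h, h'⟩

theorem idA_gr_om (N : ℝ) (w : ℂ) :
    gr (idAom N) w = ((deriv Real.smoothTransition (N * tt w - 1) * N : ℝ) : ℂ) * (2 * conj w) := by
  have h1 : HasDerivAt (fun t : ℝ => Real.smoothTransition (N * t - 1))
      (deriv Real.smoothTransition (N * tt w - 1) * N) (tt w) := by
    have h2 : HasDerivAt (fun t : ℝ => N * t - 1) N (tt w) := by
      simpa using ((hasDerivAt_id (tt w)).const_mul N).sub_const 1
    have h3 : HasDerivAt Real.smoothTransition (deriv Real.smoothTransition (N * tt w - 1))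
        (N * tt w - 1) :=
      ((Real.smoothTransition.contDiff (n := 1)).differentiable (by norm_num) _).hasDerivAt
    exact h3.comp (tt w) h2
  have h4 := idA_gr_comp (a := tt) (w := w) (idA_hasFDerivAt_tt w).differentiableAt h1
  rw [← idA_gr_tt, ← h4]
  rfl

theorem idA_contDiff_om (N : ℝ) : ContDiff ℝ 1 (idAom N) := by
  unfold idAom
  exact (Real.smoothTransition.contDiff (n := 1)).comp ((contDiff_const.mul idA_contDiff_tt).sub contDiff_const)

theorem idA_contDiffAt_Ph {w : ℂ} (hw : w ≠ 0) : ContDiffAt ℝ 1 Ph w := by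
  unfold Ph
  exact contDiffAt_const.mul (idA_contDiff_tt.contDiffAt.add
    (idA_contDiff_tt.contDiffAt.inv (idA_tt_pos hw).ne'))

theorem idA_gr_Ph {w : ℂ} (hw : w ≠ 0) :
    gr Ph w = ((4 * (1 - (tt w ^ 2)⁻¹) : ℝ) : ℂ) * conj w := by
  have h1 : HasDerivAt (fun t : ℝ => 2 * (t + t⁻¹)) (2 * (1 + -(tt w ^ 2)⁻¹)) (tt w) :=
    ((hasDerivAt_id (tt w)).add (hasDerivAt_inv (idA_tt_pos hw).ne')).const_mul 2
  have h4 := idA_gr_comp (a := tt) (w := w) (idA_hasFDerivAt_tt w).differentiableAt h1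
  have h5 : gr Ph w = ((2 * (1 + -(tt w ^ 2)⁻¹) : ℝ) : ℂ) * gr tt w := by
    rw [← h4]; rfl
  rw [h5, idA_gr_tt]
  push_cast
  ring

theorem idA_om_zero {N : ℝ} {w : ℂ} (h : N * tt w ≤ 1) : idAom N w = 0 :=
  Real.smoothTransition.zero_of_nonpos (by linarith)

theorem idA_om_one {N : ℝ} {w : ℂ} (h : 2 ≤ N * tt w) : idAom N w = 1 :=
  Real.smoothTransition.one_of_one_le (by linarith)

theorem idA_contDiff_P {N : ℝ} : ContDiff ℝ 1 (idAP N) := by
  rw [contDiff_iff_contDiffAt]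
  intro w
  by_cases hw : w = 0
  · have h : idAP N =ᶠ[𝓝 w] fun _ => (0 : ℝ) := by
      have h1 : ∀ᶠ z in 𝓝 w, N * tt z < 1 := by
        have hc : Continuous (fun z => N * tt z) := continuous_const.mul
          (idA_contDiff_tt (n := 0)).continuous
        have h0 : N * tt w < 1 := by
          rw [hw]; simp [tt]
        exact hc.continuousAt.eventually (gt_mem_nhds h0)
      filter_upwards [h1] with z hz
      unfold idAP
      rw [idA_om_zero hz.le, zero_mul]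
    exact contDiffAt_const.congr_of_eventuallyEq h
  · exact (idA_contDiff_om N).contDiffAt.mul (idA_contDiffAt_Ph hw)

/-- the integrand of the weak identity -/
def idAF (θ : ℂ → ℝ) (w : ℂ) : ℝ :=
  Ph w * ‖gr θ w‖ ^ 2 + 4 * θ w * (1 - (tt w ^ 2)⁻¹) * (w * gr θ w).re

theorem idA_point {θ : ℂ → ℝ} {N : ℝ} {w : ℂ} (hw : w ≠ 0) (hθ : DifferentiableAt ℝ θ w) :
    (gr θ w * conj (gr (fun z => idAP N z * θ z) w)).re = idAom N w * idAF θ w +
      Ph w * θ w * (2 * N * deriv Real.smoothTransition (N * tt w - 1)) * (w * gr θ w).re := by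
  rw [idA_gr_mul (idA_contDiff_P.differentiable (by norm_num) w) hθ]
  have h1 : gr (idAP N) w = (idAom N w : ℂ) * gr Ph w + (Ph w : ℂ) * gr (idAom N) w :=
    idA_gr_mul ((idA_contDiff_om N).differentiable (by norm_num) w)
      ((idA_contDiffAt_Ph hw).differentiableAt (by norm_num))
  rw [h1, idA_gr_Ph hw, idA_gr_om]
  unfold idAF idAP
  rw [← Complex.normSq_eq_norm_sq, Complex.normSq_apply]
  generalize gr θ w = A
  generalize deriv Real.smoothTransition (N * tt w - 1) = B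
  generalize (tt w ^ 2)⁻¹ = T
  generalize Ph w = P
  generalize idAom N w = O
  generalize θ w = Th
  simp only [Complex.mul_re, Complex.conj_re, Complex.conj_im, Complex.add_re, Complex.add_im,
    Complex.mul_im, Complex.ofReal_re, Complex.ofReal_im, Complex.re_ofNat, Complex.im_ofNat]
  ring

theorem idA_Ph_nonneg (w : ℂ) : 0 ≤ Ph w := by
  unfold Ph tt; positivity

theorem idA_b1 {w : ℂ} (hw : w ∈ D) (h0 : w ≠ 0) : Ph w * tt w ≤ 4 := by
  have h1 := idA_tt_pos h0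
  have h2 := idA_tt_lt hw
  have h3 : Ph w * tt w = 2 * (tt w ^ 2 + 1) := by
    unfold Ph
    field_simp
  rw [h3]
  nlinarith

theorem idA_tt_ge {w : ℂ} (h : 1 / 2 ≤ ‖w‖) : 1 / 4 ≤ tt w := by
  unfold tt; nlinarith

theorem idA_b2 {w : ℂ} (hw : w ∈ D) (h : 1 / 2 ≤ ‖w‖) : Ph w ≤ 10 := by
  have h1 := idA_tt_ge h
  have h2 := idA_tt_lt hw
  have h3 : (tt w)⁻¹ ≤ 4 := by
    rw [inv_le_comm₀ (by linarith) (by norm_num)]
    linarith
  unfold Ph
  linarith

theorem idA_abs_T {w : ℂ} (hw : w ∈ D) (h0 : w ≠ 0) :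
    |1 - (tt w ^ 2)⁻¹| = (tt w ^ 2)⁻¹ - 1 := by
  have h1 := idA_tt_pos h0
  have h2 := idA_tt_lt hw
  have h3 : 1 ≤ (tt w ^ 2)⁻¹ := by
    rw [one_le_inv₀ (by positivity)]
    nlinarith
  rw [abs_of_nonpos (by linarith)]
  ring

theorem idA_b3 {w : ℂ} (hw : w ∈ D) (h0 : w ≠ 0) : |1 - (tt w ^ 2)⁻¹| * tt w ^ 2 ≤ 1 := by
  have h1 := idA_tt_pos h0
  rw [idA_abs_T hw h0, sub_mul, inv_mul_cancel₀ (by positivity)]
  nlinarith

theorem idA_b4 {w : ℂ} (hw : w ∈ D) (h : 1 / 2 ≤ ‖w‖) : |1 - (tt w ^ 2)⁻¹| ≤ 16 := by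
  have h0 : w ≠ 0 := by
    intro h0; rw [h0, norm_zero] at h; norm_num at h
  have h1 := idA_tt_ge h
  rw [idA_abs_T hw h0]
  have h3 : (tt w ^ 2)⁻¹ ≤ 16 := by
    rw [inv_le_comm₀ (by positivity) (by norm_num)]
    nlinarith
  linarith

theorem idA_re_le (w A : ℂ) : |(w * A).re| ≤ ‖w‖ * ‖A‖ := by
  rw [← norm_mul]
  exact Complex.abs_re_le_norm _

/-- the constant near the critical point -/
theorem idA_near {f : ℂ → ℂ} {κ c : ℝ} {θ : ℂ → ℝ} (hS : Sol f κ c θ) : ∃ C : ℝ, 0 ≤ C ∧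
    ∀ w : ℂ, ‖w‖ < 1 / 2 → |θ w| ≤ C * tt w ∧ ‖gr θ w‖ ≤ C * ‖w‖ ∧ |(w * gr θ w).re| ≤ C * tt w ∧
      ‖gr θ w‖ ^ 2 ≤ C ^ 2 * tt w := by
  obtain ⟨C, hC⟩ := hS.near
  refine ⟨|C|, abs_nonneg C, fun w hw => ?_⟩
  obtain ⟨h1, h2⟩ := hC w (by simpa using hw)
  have h3 : ‖gr θ w‖ ≤ |C| * ‖w‖ := h2.trans (mul_le_mul_of_nonneg_right (le_abs_self C) (norm_nonneg w))
  refine ⟨h1.trans (mul_le_mul_of_nonneg_right (le_abs_self C) (by positivity)), h3, ?_, ?_⟩
  · refine (idA_re_le _ _).trans ?_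
    have := mul_le_mul_of_nonneg_left h3 (norm_nonneg w)
    unfold tt
    nlinarith
  · have := pow_le_pow_left₀ (norm_nonneg _) h3 2
    unfold tt
    nlinarith

theorem idA_bFa {f : ℂ → ℂ} {κ c : ℝ} {θ : ℂ → ℝ} (hS : Sol f κ c θ) : ∃ K : ℝ,
    ∀ w ∈ D, w ≠ 0 → |Ph w * ‖gr θ w‖ ^ 2| ≤ K + 10 * ‖gr θ w‖ ^ 2 := by
  obtain ⟨C, hC0, hC⟩ := idA_near hS
  refine ⟨4 * C ^ 2, fun w hw h0 => ?_⟩
  have hP := idA_Ph_nonneg w
  rw [abs_of_nonneg (by positivity)]
  rcases lt_or_ge ‖w‖ (1 / 2) with h | h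
  · obtain ⟨-, -, -, h4⟩ := hC w h
    have h5 := mul_le_mul_of_nonneg_left h4 hP
    have h6 := mul_le_mul_of_nonneg_left (idA_b1 hw h0) (sq_nonneg C)
    have h7 : 0 ≤ ‖gr θ w‖ ^ 2 := by positivity
    nlinarith
  · have h5 := mul_le_mul_of_nonneg_right (idA_b2 hw h) (sq_nonneg ‖gr θ w‖)
    nlinarith [sq_nonneg C]

theorem idA_bFb {f : ℂ → ℂ} {κ c : ℝ} {θ : ℂ → ℝ} (hS : Sol f κ c θ) : ∃ K : ℝ,
    ∀ w ∈ D, w ≠ 0 → |4 * θ w * (1 - (tt w ^ 2)⁻¹) * (w * gr θ w).re| ≤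
      K + 32 * (θ w ^ 2 + ‖gr θ w‖ ^ 2) := by
  obtain ⟨C, hC0, hC⟩ := idA_near hS
  refine ⟨4 * C ^ 2, fun w hw h0 => ?_⟩
  have ht := idA_tt_pos h0
  rw [abs_mul, abs_mul, abs_mul, abs_of_pos (show (0 : ℝ) < 4 by norm_num)]
  rcases lt_or_ge ‖w‖ (1 / 2) with h | h
  · obtain ⟨h1, -, h3, -⟩ := hC w h
    have e1 : 4 * |θ w| * |1 - (tt w ^ 2)⁻¹| * |(w * gr θ w).re| ≤
        4 * (C * tt w) * |1 - (tt w ^ 2)⁻¹| * (C * tt w) := by
      gcongr
    have e2 := mul_le_mul_of_nonneg_left (idA_b3 hw h0) (sq_nonneg C)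
    nlinarith [sq_nonneg (θ w), sq_nonneg ‖gr θ w‖]
  · have e0 : |(w * gr θ w).re| ≤ 1 * ‖gr θ w‖ := by
      refine (idA_re_le _ _).trans (mul_le_mul_of_nonneg_right ?_ (norm_nonneg _))
      exact (by simpa using hw : ‖w‖ < 1).le
    have e1 : 4 * |θ w| * |1 - (tt w ^ 2)⁻¹| * |(w * gr θ w).re| ≤
        4 * |θ w| * 16 * (1 * ‖gr θ w‖) := by
      have := idA_b4 hw h
      gcongr
    have e2 : |θ w| ^ 2 = θ w ^ 2 := sq_abs _
    nlinarith [sq_nonneg (|θ w| - ‖gr θ w‖), sq_nonneg C]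

theorem idA_bR {f : ℂ → ℂ} {κ c : ℝ} {θ : ℂ → ℝ} (hS : Sol f κ c θ) : ∃ K : ℝ, ∀ N : ℝ, 9 ≤ N →
    ∀ w ∈ D, w ≠ 0 → |Ph w * θ w * (2 * N * deriv Real.smoothTransition (N * tt w - 1)) *
      (w * gr θ w).re| ≤ K := by
  obtain ⟨C, hC0, hC⟩ := idA_near hS
  obtain ⟨M, hM0, hM⟩ := idA_exists_M
  refine ⟨16 * M * C ^ 2, fun N hN w hw h0 => ?_⟩
  have ht := idA_tt_pos h0
  rcases lt_or_ge 2 (N * tt w) with h2 | h2
  · rw [idA_dsT_gt (by linarith), mul_zero, mul_zero, zero_mul, abs_zero]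
    positivity
  · have h : ‖w‖ < 1 / 2 := by
      by_contra hcon
      push Not at hcon
      have := idA_tt_ge hcon
      nlinarith
    obtain ⟨h1, -, h3, -⟩ := hC w h
    have hP := idA_Ph_nonneg w
    rw [abs_mul, abs_mul, abs_mul, abs_mul, abs_of_nonneg hP,
      abs_of_nonneg (show 0 ≤ 2 * N by linarith)]
    have e1 : Ph w * |θ w| * (2 * N * |deriv Real.smoothTransition (N * tt w - 1)|) *
        |(w * gr θ w).re| ≤ Ph w * (C * tt w) * (2 * N * M) * (C * tt w) := by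
      have := hM (N * tt w - 1)
      gcongr
    have e2 : Ph w * (C * tt w) * (2 * N * M) * (C * tt w) =
        (2 * M * C ^ 2) * ((Ph w * tt w) * (N * tt w)) := by ring
    have e3 : (Ph w * tt w) * (N * tt w) ≤ 4 * 2 := by
      have := idA_b1 hw h0
      gcongr
    have e4 := mul_le_mul_of_nonneg_left e3 (show 0 ≤ 2 * M * C ^ 2 by positivity)
    linarith

theorem idA_bC {f : ℂ → ℂ} {κ c : ℝ} {θ : ℂ → ℝ} (hS : Sol f κ c θ) : ∃ K : ℝ, 0 ≤ K ∧
    ∀ w ∈ D, w ≠ 0 → |tau f w * ((c - θ w) * (Ph w * θ w))| ≤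
      K * (tau f w * (|c| + 1 + θ w ^ 2)) + 10 * (tau f w * (c ^ 2 + 2 * θ w ^ 2)) := by
  obtain ⟨C, hC0, hC⟩ := idA_near hS
  refine ⟨4 * C, by positivity, fun w hw h0 => ?_⟩
  have ht := idA_tt_pos h0
  have hτ : 0 ≤ tau f w := by unfold tau; positivity
  have hP := idA_Ph_nonneg w
  rw [abs_mul, abs_mul, abs_mul, abs_of_nonneg hτ, abs_of_nonneg hP]
  have hc : |c - θ w| ≤ |c| + |θ w| := abs_sub _ _
  have hs : |θ w| ^ 2 = θ w ^ 2 := sq_abs _
  have hs' : |c| ^ 2 = c ^ 2 := sq_abs _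
  have ha := abs_nonneg (θ w)
  have hb := abs_nonneg c
  rcases lt_or_ge ‖w‖ (1 / 2) with h | h
  · obtain ⟨h1, -, -, -⟩ := hC w h
    have e1 : Ph w * |θ w| ≤ 4 * C := by
      calc Ph w * |θ w| ≤ Ph w * (C * tt w) := by gcongr
        _ = C * (Ph w * tt w) := by ring
        _ ≤ C * 4 := by have := idA_b1 hw h0; gcongr
        _ = 4 * C := by ring
    have e2 : |c - θ w| ≤ |c| + 1 + θ w ^ 2 := by nlinarith [sq_nonneg (|θ w| - 1)]
    have e3 : |c - θ w| * (Ph w * |θ w|) ≤ (|c| + 1 + θ w ^ 2) * (4 * C) := by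
      gcongr
    have e4 := mul_le_mul_of_nonneg_left e3 hτ
    have e5 : 0 ≤ tau f w * (c ^ 2 + 2 * θ w ^ 2) := by positivity
    nlinarith
  · have e1 : |c - θ w| * |θ w| ≤ c ^ 2 + 2 * θ w ^ 2 := by
      have := mul_le_mul_of_nonneg_right hc ha
      nlinarith [sq_nonneg (|c| - |θ w|)]
    have e2 : |c - θ w| * (Ph w * |θ w|) ≤ 10 * (c ^ 2 + 2 * θ w ^ 2) := by
      calc |c - θ w| * (Ph w * |θ w|) = Ph w * (|c - θ w| * |θ w|) := by ring
        _ ≤ 10 * (c ^ 2 + 2 * θ w ^ 2) := by have := idA_b2 hw h; gcongr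
    have e4 := mul_le_mul_of_nonneg_left e2 hτ
    have e5 : 0 ≤ 4 * C * (tau f w * (|c| + 1 + θ w ^ 2)) := by positivity
    nlinarith

theorem idA_cont_tt : Continuous tt := (idA_contDiff_tt (n := 0)).continuous

theorem idA_cont_T : ContinuousOn (fun w => (tt w ^ 2)⁻¹) (D \ {0}) := by
  intro w hw
  have h0 : w ≠ 0 := fun h => hw.2 (by simp [h])
  exact ((idA_cont_tt.pow 2).continuousAt.inv₀ (pow_ne_zero 2 (idA_tt_pos h0).ne')).continuousWithinAt

theorem idA_cont_Ph : ContinuousOn Ph (D \ {0}) := by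
  intro w hw
  have h0 : w ≠ 0 := fun h => hw.2 (by simp [h])
  exact (idA_contDiffAt_Ph h0).continuousAt.continuousWithinAt

theorem idA_contFa {θ : ℂ → ℝ} (hθ : ContDiffOn ℝ 1 θ D) :
    ContinuousOn (fun w => Ph w * ‖gr θ w‖ ^ 2) (D \ {0}) :=
  idA_cont_Ph.mul (((idA_cont_gr isOpen_ball hθ).norm.pow 2).mono sdiff_subset)

theorem idA_contFb {θ : ℂ → ℝ} (hθ : ContDiffOn ℝ 1 θ D) :
    ContinuousOn (fun w => 4 * θ w * (1 - (tt w ^ 2)⁻¹) * (w * gr θ w).re) (D \ {0}) := by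
  refine ContinuousOn.mul (ContinuousOn.mul ?_ ?_) ?_
  · exact (continuousOn_const.mul hθ.continuousOn).mono sdiff_subset
  · exact continuousOn_const.sub idA_cont_T
  · exact (Complex.continuous_re.comp_continuousOn
      (continuousOn_id.mul (idA_cont_gr isOpen_ball hθ))).mono sdiff_subset

theorem idA_cont_tau {f : ℂ → ℂ} (hf : DifferentiableOn ℂ f D) : ContinuousOn (tau f) D := by
  have h1 : ContinuousOn (deriv f) D := (hf.deriv isOpen_ball).continuousOn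
  exact (h1.norm).pow 2

theorem idA_int_one : IntegrableOn (fun _ : ℂ => (1 : ℝ)) D := by
  refine (integrableOn_const (μ := volume) (s := D) (C := (1 : ℝ)) ?_)
  exact measure_ball_lt_top.ne

theorem idA_intFa {f : ℂ → ℂ} {κ c : ℝ} {θ : ℂ → ℝ} (hS : Sol f κ c θ) :
    IntegrableOn (fun w => Ph w * ‖gr θ w‖ ^ 2) D := by
  obtain ⟨K, hK⟩ := idA_bFa hS
  refine idA_int (idA_contFa hS.test.c1) ?_ hK
  have h1 : IntegrableOn (fun _ : ℂ => K) D := by simp
  exact h1.add (hS.test.en.const_mul 10)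

theorem idA_intFb {f : ℂ → ℂ} {κ c : ℝ} {θ : ℂ → ℝ} (hS : Sol f κ c θ) :
    IntegrableOn (fun w => 4 * θ w * (1 - (tt w ^ 2)⁻¹) * (w * gr θ w).re) D := by
  obtain ⟨K, hK⟩ := idA_bFb hS
  refine idA_int (idA_contFb hS.test.c1) ?_ hK
  have h1 : IntegrableOn (fun _ : ℂ => K) D := by simp
  exact h1.add (((sq_int θ hS.test.c1 hS.test.en).add hS.test.en).const_mul 32)

theorem idA_intC {f : ℂ → ℂ} {κ c : ℝ} {θ : ℂ → ℝ} (hS : Sol f κ c θ) :
    IntegrableOn (fun w => tau f w * ((c - θ w) * (Ph w * θ w))) D := by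
  obtain ⟨K, hK0, hK⟩ := idA_bC hS
  refine idA_int ?_ ?_ hK
  · have hθ := hS.test.c1.continuousOn
    exact ((idA_cont_tau hS.conf.diff).mono sdiff_subset).mul
      (((continuousOn_const.sub hθ).mono sdiff_subset).mul
        (idA_cont_Ph.mul (hθ.mono sdiff_subset)))
  · refine Integrable.add (Integrable.const_mul ?_ _) (Integrable.const_mul ?_ _)
    · have h1 := (hS.conf.area.const_mul (|c| + 1)).add hS.test.l2
      refine h1.congr (Filter.Eventually.of_forall fun w => ?_)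
      show (|c| + 1) * tau f w + tau f w * θ w ^ 2 = tau f w * (|c| + 1 + θ w ^ 2)
      ring
    · have h1 := (hS.conf.area.const_mul (c ^ 2)).add (hS.test.l2.const_mul 2)
      refine h1.congr (Filter.Eventually.of_forall fun w => ?_)
      show c ^ 2 * tau f w + 2 * (tau f w * θ w ^ 2) = tau f w * (c ^ 2 + 2 * θ w ^ 2)
      ring

theorem idA_dth {f : ℂ → ℂ} {θ : ℂ → ℝ} (h : Test f θ) {w : ℂ} (hw : w ∈ D) :
    DifferentiableAt ℝ θ w :=
  (h.c1.differentiableOn (by norm_num)).differentiableAt (isOpen_ball.mem_nhds hw)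

theorem idA_eventually {w : ℂ} (h0 : w ≠ 0) : ∀ᶠ n : ℕ in atTop, 2 < ((n : ℝ) + 9) * tt w := by
  have ht := idA_tt_pos h0
  obtain ⟨m, hm⟩ := exists_nat_gt (2 / tt w)
  filter_upwards [eventually_ge_atTop m] with n hn
  have h1 : (m : ℝ) ≤ n := by exact_mod_cast hn
  have h2 : 2 / tt w < (n : ℝ) + 9 := by linarith
  rwa [div_lt_iff₀ ht] at h2

theorem idA_step1 {f : ℂ → ℂ} {κ c : ℝ} {θ : ℂ → ℝ} (hS : Sol f κ c θ) :
    ∫ w in D, idAF θ w = -κ * ∫ w in D, tau f w * ((c - θ w) * (Ph w * θ w)) := by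
  have hT : ∀ n : ℕ, Test f (fun w => idAP ((n : ℝ) + 9) w * θ w) := fun n =>
    idA_test_mul hS.conf.diff hS.test idA_contDiff_P
  have hFint : IntegrableOn (idAF θ) D := (idA_intFa hS).add (idA_intFb hS)
  obtain ⟨K, hK⟩ := idA_bR hS
  have hom : ∀ (N : ℝ) (w : ℂ), 0 ≤ idAom N w ∧ idAom N w ≤ 1 := fun N w =>
    ⟨Real.smoothTransition.nonneg _, Real.smoothTransition.le_one _⟩
  have hL : Tendsto (fun n : ℕ => ∫ w in D,
      (gr θ w * conj (gr (fun w => idAP ((n : ℝ) + 9) w * θ w) w)).re) atTop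
      (𝓝 (∫ w in D, idAF θ w)) := by
    refine tendsto_integral_of_dominated_convergence (fun w => |idAF θ w| + K) ?_ ?_ ?_ ?_
    · intro n
      refine idA_aesm (ContinuousOn.mono ?_ sdiff_subset)
      refine Complex.continuous_re.comp_continuousOn (ContinuousOn.mul ?_ ?_)
      · exact idA_cont_gr isOpen_ball hS.test.c1
      · exact Complex.continuous_conj.comp_continuousOn (idA_cont_gr isOpen_ball (hT n).c1)
    · exact hFint.abs.add (by simpa using idA_int_one.const_mul K)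
    · intro n
      filter_upwards [idA_ae_ne] with w hw
      rw [Real.norm_eq_abs, idA_point hw.2 (idA_dth hS.test hw.1)]
      refine (abs_add_le _ _).trans (add_le_add ?_ (hK _ ?_ w hw.1 hw.2))
      · rw [abs_mul, abs_of_nonneg (hom _ w).1]
        exact mul_le_of_le_one_left (abs_nonneg _) (hom _ w).2
      · have : (0 : ℝ) ≤ n := Nat.cast_nonneg n
        linarith
    · filter_upwards [idA_ae_ne] with w hw
      refine tendsto_const_nhds.congr' ?_
      filter_upwards [idA_eventually hw.2] with n hn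
      rw [idA_point hw.2 (idA_dth hS.test hw.1), idA_om_one hn.le, idA_dsT_gt (by linarith)]
      ring
  have hR : Tendsto (fun n : ℕ => ∫ w in D,
      tau f w * ((c - θ w) * (idAP ((n : ℝ) + 9) w * θ w))) atTop
      (𝓝 (∫ w in D, tau f w * ((c - θ w) * (Ph w * θ w)))) := by
    refine tendsto_integral_of_dominated_convergence
      (fun w => |tau f w * ((c - θ w) * (Ph w * θ w))|) ?_ ?_ ?_ ?_
    · intro n
      refine idA_aesm (ContinuousOn.mono ?_ sdiff_subset)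
      have hθ := hS.test.c1.continuousOn
      exact (idA_cont_tau hS.conf.diff).mul ((continuousOn_const.sub hθ).mul
        (idA_contDiff_P.continuous.continuousOn.mul hθ))
    · exact (idA_intC hS).abs
    · intro n
      filter_upwards [idA_ae_ne] with w hw
      rw [Real.norm_eq_abs]
      have e : tau f w * ((c - θ w) * (idAP ((n : ℝ) + 9) w * θ w)) =
          idAom ((n : ℝ) + 9) w * (tau f w * ((c - θ w) * (Ph w * θ w))) := by
        unfold idAP; ring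
      rw [e, abs_mul, abs_of_nonneg (hom _ w).1]
      exact mul_le_of_le_one_left (abs_nonneg _) (hom _ w).2
    · filter_upwards [idA_ae_ne] with w hw
      refine tendsto_const_nhds.congr' ?_
      filter_upwards [idA_eventually hw.2] with n hn
      unfold idAP
      rw [idA_om_one hn.le, one_mul]
  have hEq : (fun n : ℕ => ∫ w in D,
      (gr θ w * conj (gr (fun w => idAP ((n : ℝ) + 9) w * θ w) w)).re) =
      fun n : ℕ => -κ * ∫ w in D, tau f w * ((c - θ w) * (idAP ((n : ℝ) + 9) w * θ w)) := by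
    funext n
    exact hS.weak _ (hT n)
  rw [hEq] at hL
  exact tendsto_nhds_unique hL (hR.const_mul (-κ))

theorem idA_db {φ : ℂ → ℝ} {w : ℂ} (hφ : DifferentiableAt ℝ φ w) :
    db (fun z => (φ z : ℂ) * conj z) w = 2 * (φ w : ℂ) + conj w * conj (gr φ w) := by
  have h1 : HasFDerivAt (fun z => (φ z : ℂ)) (Complex.ofRealCLM.comp (fderiv ℝ φ w)) w :=
    Complex.ofRealCLM.hasFDerivAt.comp w hφ.hasFDerivAt
  have h2 : HasFDerivAt (fun z : ℂ => conj z) (Complex.conjCLE : ℂ →L[ℝ] ℂ) w :=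
    Complex.conjCLE.hasFDerivAt
  have h3 := h1.mul h2
  unfold db
  rw [show fderiv ℝ (fun z => (φ z : ℂ) * conj z) w = _ from h3.fderiv]
  unfold gr
  apply Complex.ext
  · simp
    ring
  · simp
    ring

/-- the real factor of the field -/
def idAphi (θ : ℂ → ℝ) (w : ℂ) : ℝ := (2 * (1 - (tt w ^ 2)⁻¹)) * (θ w * θ w)

theorem idA_gr_S {w : ℂ} (h0 : w ≠ 0) : gr (fun z => 2 * (1 - (tt z ^ 2)⁻¹)) w =
    ((4 * tt w / (tt w ^ 2) ^ 2 : ℝ) : ℂ) * (2 * conj w) := by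
  have ht := idA_tt_pos h0
  have h1 : HasDerivAt (fun t : ℝ => 2 * (1 - (t ^ 2)⁻¹)) (4 * tt w / (tt w ^ 2) ^ 2) (tt w) := by
    have h2 : HasDerivAt (fun t : ℝ => t ^ 2) (2 * tt w) (tt w) := by
      simpa using hasDerivAt_pow 2 (tt w)
    have h3 := (h2.inv (by positivity : tt w ^ 2 ≠ 0)).const_sub 1 |>.const_mul 2
    refine h3.congr_deriv ?_
    ring
  have h4 := idA_gr_comp (a := tt) (w := w) (idA_hasFDerivAt_tt w).differentiableAt h1
  rw [← idA_gr_tt, ← h4]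

theorem idA_contDiffAt_S {w : ℂ} (h0 : w ≠ 0) :
    ContDiffAt ℝ 1 (fun z => 2 * (1 - (tt z ^ 2)⁻¹)) w :=
  contDiffAt_const.mul (contDiffAt_const.sub ((idA_contDiff_tt.contDiffAt.pow 2).inv
    (pow_ne_zero 2 (idA_tt_pos h0).ne')))

theorem idA_mul_conj (w : ℂ) : w * conj w = ((tt w : ℝ) : ℂ) := by
  rw [Complex.mul_conj, Complex.normSq_eq_norm_sq]; rfl

theorem idA_dbZ {θ : ℂ → ℝ} {w : ℂ} (h0 : w ≠ 0) (hθ : DifferentiableAt ℝ θ w) :
    (db (fun z => (idAphi θ z : ℂ) * conj z) w).re =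
      4 * θ w * (1 - (tt w ^ 2)⁻¹) * (w * gr θ w).re + 4 * ((1 + (tt w ^ 2)⁻¹) * θ w ^ 2) := by
  have ht := idA_tt_pos h0
  have hS := (idA_contDiffAt_S h0).differentiableAt (by norm_num)
  have hθθ : DifferentiableAt ℝ (fun z => θ z * θ z) w := hθ.mul hθ
  have hφ : DifferentiableAt ℝ (idAphi θ) w := hS.mul hθθ
  rw [idA_db hφ]
  have e1 : gr (idAphi θ) w = ((2 * (1 - (tt w ^ 2)⁻¹) : ℝ) : ℂ) *
      ((θ w : ℂ) * gr θ w + (θ w : ℂ) * gr θ w) +
      ((θ w * θ w : ℝ) : ℂ) * (((4 * tt w / (tt w ^ 2) ^ 2 : ℝ) : ℂ) * (2 * conj w)) := by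
    rw [← idA_gr_mul hθ hθ, ← idA_gr_S h0]
    exact idA_gr_mul hS hθθ
  have e2 : conj w * conj (gr (idAphi θ) w) = conj (w * gr (idAphi θ) w) := by
    rw [map_mul]
  have e3 : w * gr (idAphi θ) w = ((2 * (1 - (tt w ^ 2)⁻¹) * (2 * θ w) : ℝ) : ℂ) * (w * gr θ w) +
      ((θ w * θ w * (8 * (tt w ^ 2)⁻¹) : ℝ) : ℂ) := by
    rw [e1]
    have e4 : w * (((2 * (1 - (tt w ^ 2)⁻¹) : ℝ) : ℂ) *
      ((θ w : ℂ) * gr θ w + (θ w : ℂ) * gr θ w) +
      ((θ w * θ w : ℝ) : ℂ) * (((4 * tt w / (tt w ^ 2) ^ 2 : ℝ) : ℂ) * (2 * conj w))) =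
      ((2 * (1 - (tt w ^ 2)⁻¹) : ℝ) : ℂ) * (2 * (θ w : ℂ)) * (w * gr θ w) +
      ((θ w * θ w : ℝ) : ℂ) * (((4 * tt w / (tt w ^ 2) ^ 2 : ℝ) : ℂ) * (2 * (w * conj w))) := by
      ring
    rw [e4, idA_mul_conj]
    have e5 : 8 * (tt w ^ 2)⁻¹ = 4 * tt w / (tt w ^ 2) ^ 2 * (2 * tt w) := by
      field_simp
      ring
    rw [e5]
    push_cast
    ring
  rw [e2, e3, map_add, Complex.add_re, Complex.add_re, Complex.conj_re, Complex.conj_re,
    Complex.re_ofReal_mul, Complex.ofReal_re]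
  have e6 : (2 * (idAphi θ w : ℂ)).re = 2 * idAphi θ w := by
    simp
  rw [e6]
  unfold idAphi
  ring

theorem idA_step2 {f : ℂ → ℂ} {κ c : ℝ} {θ : ℂ → ℝ} (hS : Sol f κ c θ) :
    ∫ w in D, (4 * θ w * (1 - (tt w ^ 2)⁻¹) * (w * gr θ w).re +
      4 * ((1 + (tt w ^ 2)⁻¹) * θ w ^ 2)) = 0 := by
  have hth2 := sq_int θ hS.test.c1 hS.test.en
  obtain ⟨C, hC0, hC⟩ := idA_near hS
  have hint : IntegrableOn (fun w => 4 * θ w * (1 - (tt w ^ 2)⁻¹) * (w * gr θ w).re +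
      4 * ((1 + (tt w ^ 2)⁻¹) * θ w ^ 2)) D := (idA_intFb hS).add ((int_wt hS).const_mul 4)
  have hae : ∀ᵐ w ∂(volume.restrict D), 4 * θ w * (1 - (tt w ^ 2)⁻¹) * (w * gr θ w).re +
      4 * ((1 + (tt w ^ 2)⁻¹) * θ w ^ 2) = (db (fun z => (idAphi θ z : ℂ) * conj z) w).re := by
    filter_upwards [idA_ae_ne] with w hw
    exact (idA_dbZ hw.2 (idA_dth hS.test hw.1)).symm
  rw [integral_congr_ae hae]
  have hZ : ContDiffOn ℝ 1 (fun z => (idAphi θ z : ℂ) * conj z) (D \ {0}) := by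
    have h1 : ContDiffOn ℝ 1 (idAphi θ) (D \ {0}) := by
      refine ContDiffOn.mul ?_ ?_
      · intro w hw
        have h0 : w ≠ 0 := fun h => hw.2 (by simp [h])
        exact (idA_contDiffAt_S h0).contDiffWithinAt
      · exact (hS.test.c1.mul hS.test.c1).mono sdiff_subset
    exact (Complex.ofRealCLM.contDiff.comp_contDiffOn h1).mul
      (Complex.conjCLE.contDiff.contDiffOn)
  refine cut _ hZ (hint.congr hae) (fun w => 32 * θ w ^ 2) (hth2.const_mul 32) ?_ (2 * C ^ 2) ?_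
  · intro w hw hr
    have h0 : w ≠ 0 := by
      intro h0; rw [h0, norm_zero] at hr; norm_num at hr
    have ht := idA_tt_pos h0
    have hr1 : ‖w‖ < 1 := by simpa using hw
    have e1 : w * ((idAphi θ w : ℂ) * conj w) = ((idAphi θ w * tt w : ℝ) : ℂ) := by
      rw [mul_left_comm, idA_mul_conj]
      push_cast
      ring
    rw [e1, Complex.ofReal_re]
    unfold idAphi
    have e2 : |2 * (1 - (tt w ^ 2)⁻¹) * (θ w * θ w) * tt w| =
        2 * θ w ^ 2 * (((tt w ^ 2)⁻¹ - 1) * tt w) := by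
      rw [abs_mul, abs_mul, abs_mul, idA_abs_T hw h0, abs_of_pos ht,
        abs_of_pos (show (0 : ℝ) < 2 by norm_num), abs_of_nonneg (mul_self_nonneg (θ w))]
      ring
    rw [e2]
    have e3 : ((tt w ^ 2)⁻¹ - 1) * tt w = (1 - tt w ^ 2) / tt w := by
      field_simp
    have e4 : (1 - tt w ^ 2) / tt w ≤ 16 * (1 - ‖w‖) := by
      rw [div_le_iff₀ ht]
      have h5 : 1 - tt w ^ 2 = (1 - ‖w‖) * ((1 + ‖w‖) * (1 + tt w)) := by
        unfold tt; ring
      rw [h5, mul_comm 16, mul_assoc]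
      have h6 := idA_tt_ge hr
      have h7 := idA_tt_lt hw
      refine mul_le_mul_of_nonneg_left ?_ (by linarith)
      nlinarith
    rw [e3]
    have e5 := mul_le_mul_of_nonneg_left e4 (show 0 ≤ 2 * θ w ^ 2 by positivity)
    calc 2 * θ w ^ 2 * ((1 - tt w ^ 2) / tt w) ≤ 2 * θ w ^ 2 * (16 * (1 - ‖w‖)) := e5
      _ = 32 * θ w ^ 2 * (1 - ‖w‖) := by ring
  · intro w hw h0 hr
    have ht := idA_tt_pos h0
    obtain ⟨h1, -, -, -⟩ := hC w hr
    rw [norm_mul, Complex.norm_real, Real.norm_eq_abs, Complex.norm_conj]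
    have hr1 : ‖w‖ ≤ 1 := by linarith
    have e1 : |idAphi θ w| ≤ 2 * C ^ 2 := by
      unfold idAphi
      rw [abs_mul, abs_mul, abs_mul, abs_of_pos (show (0 : ℝ) < 2 by norm_num)]
      have e2 : 2 * |1 - (tt w ^ 2)⁻¹| * (|θ w| * |θ w|) ≤
          2 * |1 - (tt w ^ 2)⁻¹| * ((C * tt w) * (C * tt w)) := by
        gcongr
      have e3 := mul_le_mul_of_nonneg_left (idA_b3 hw h0) (sq_nonneg C)
      nlinarith
    calc |idAphi θ w| * ‖w‖ ≤ |idAphi θ w| * 1 := by gcongr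
      _ ≤ 2 * C ^ 2 := by rw [mul_one]; exact e1

theorem idA {f : ℂ → ℂ} {κ c : ℝ} {θ : ℂ → ℝ} (hS : Sol f κ c θ) :
    ∫ w in D, Ph w * ‖gr θ w‖ ^ 2
      = -κ * (∫ w in D, tau f w * ((c - θ w) * (Ph w * θ w)))
        + 4 * ∫ w in D, (1 + (tt w ^ 2)⁻¹) * θ w ^ 2 := by
  have h1 := idA_step1 hS
  have h2 := idA_step2 hS
  unfold idAF at h1
  rw [integral_add (idA_intFa hS) (idA_intFb hS)] at h1
  rw [integral_add (idA_intFb hS) ((int_wt hS).const_mul 4), integral_const_mul] at h2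
  linear_combination h1 - h2

end Crest.Agent.HS
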