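import Crest.Agent.HS.Poinc
set_option autoImplicit false
noncomputable section
namespace Crest.Agent.HS
open MeasureTheory Complex Metric Set
open scoped ComplexConjugate Topology

/-- `‖w‖⁻¹` is integrable on the disc -/
private theorem ints2_inv_int : IntegrableOn (fun w : ℂ => ‖w‖⁻¹) D := by
  refine integrableOn_ball_of_norm_le_rpow (C := 1) (α := 1) ?_ ?_ ?_ ?_
  · simp
  · simp
  · refine Filter.Eventually.of_forall fun x => ?_
    rw [Real.rpow_neg_one]; simp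
  · exact (measurable_norm.inv).aestronglyMeasurable

private theorem ints2_deriv_cont {f : ℂ → ℂ} (hf : Conf f) : ContinuousOn (deriv f) D :=
  (hf.diff.deriv isOpen_ball).continuousOn

private theorem ints2_tau_cont {f : ℂ → ℂ} (hf : Conf f) : ContinuousOn (tau f) D :=
  ((ints2_deriv_cont hf).norm).pow 2

private theorem ints2_small {f : ℂ → ℂ} (hf : Conf f) :
    ∃ C : ℝ, 0 ≤ C ∧ ∀ w ∈ ball (0 : ℂ) (1 / 2), tau f w ≤ C ∧ ‖f w‖ ≤ C * ‖w‖ := by
  have hsub : closedBall (0 : ℂ) (1 / 2) ⊆ D := closedBall_subset_ball (by norm_num)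
  obtain ⟨C, hC⟩ := (isCompact_closedBall (0 : ℂ) (1 / 2)).exists_bound_of_continuousOn
    ((ints2_deriv_cont hf).mono hsub)
  have hC0 : 0 ≤ C := (norm_nonneg _).trans (hC 0 (by simp))
  refine ⟨C + C ^ 2, by positivity, fun w hw => ⟨?_, ?_⟩⟩
  · have h1 := hC w (ball_subset_closedBall hw)
    have : tau f w ≤ C ^ 2 := by
      unfold tau; exact pow_le_pow_left₀ (norm_nonneg _) h1 2
    linarith
  · have h2 : ‖f w - f 0‖ ≤ C * ‖w - 0‖ := by
      refine Convex.norm_image_sub_le_of_norm_deriv_le (s := ball (0 : ℂ) (1 / 2))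
        (fun x hx => ?_) (fun x hx => hC x (ball_subset_closedBall hx)) (convex_ball _ _)
        (by simp) hw
      exact hf.diff.differentiableAt
        (isOpen_ball.mem_nhds (hsub (ball_subset_closedBall hx)))
    rw [hf.zero, sub_zero, sub_zero] at h2
    nlinarith [norm_nonneg w, mul_nonneg (sq_nonneg C) (norm_nonneg w)]

private theorem ints2_near {f : ℂ → ℂ} {κ c : ℝ} {θ : ℂ → ℝ} (hS : Sol f κ c θ) :
    ∃ C : ℝ, 0 ≤ C ∧ ∀ w ∈ ball (0 : ℂ) (1 / 2), |θ w| ≤ C * tt w := by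
  obtain ⟨C, hC⟩ := hS.near
  refine ⟨max C 0, le_max_right _ _, fun w hw => (hC w hw).1.trans ?_⟩
  exact mul_le_mul_of_nonneg_right (le_max_left _ _) (sq_nonneg _)

/-- the two regions -/
private theorem ints2_cases {w : ℂ} (hw : w ∈ D) :
    w ∈ ball (0 : ℂ) (1 / 2) ∨ (1 / 2 ≤ ‖w‖ ∧ ‖w‖ < 1) := by
  have h1 : ‖w‖ < 1 := by simpa using hw
  rcases lt_or_ge ‖w‖ (1 / 2) with h | h
  · left; simpa using h
  · right; exact ⟨h, h1⟩

private theorem ints2_tt1 {w : ℂ} (hw : w ∈ D) : 0 ≤ tt w ∧ tt w < 1 := by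
  have h1 : ‖w‖ < 1 := by simpa using hw
  refine ⟨sq_nonneg _, ?_⟩
  unfold tt
  nlinarith [norm_nonneg w]

private theorem ints2_tt2 {w : ℂ} (hw : 1 / 2 ≤ ‖w‖) : 1 / 4 ≤ tt w := by
  unfold tt
  nlinarith [norm_nonneg w]

/-- measurability of `θ` and `ph` on the disc -/
theorem meas_th {f : ℂ → ℂ} {κ c : ℝ} {θ : ℂ → ℝ} (hS : Sol f κ c θ) :
    AEStronglyMeasurable θ (volume.restrict D) :=
  hS.test.c1.continuousOn.aestronglyMeasurable measurableSet_ball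

theorem meas_ph (q : ℂ) : AEStronglyMeasurable (ph q) (volume.restrict D) := by
  have : Measurable (ph q) := by
    unfold ph
    exact (measurable_const.div measurable_id).add (measurable_const.mul measurable_id)
  exact this.aestronglyMeasurable

private theorem ints2_meas_tau {f : ℂ → ℂ} (hf : Conf f) :
    AEStronglyMeasurable (tau f) (volume.restrict D) :=
  (ints2_tau_cont hf).aestronglyMeasurable measurableSet_ball

private theorem ints2_meas_f {f : ℂ → ℂ} (hf : Conf f) :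
    AEStronglyMeasurable f (volume.restrict D) :=
  hf.diff.continuousOn.aestronglyMeasurable measurableSet_ball

private theorem ints2_meas_tt : Measurable tt := measurable_norm.pow_const 2

private theorem ints2_tau_nn (f : ℂ → ℂ) (w : ℂ) : 0 ≤ tau f w := sq_nonneg _

theorem int_phn {f : ℂ → ℂ} (hf : Conf f) (q : ℂ) (hq : ‖q‖ = 1) :
    IntegrableOn (fun w => tau f w * ‖ph q w‖) D := by
  obtain ⟨C, hC0, hC⟩ := ints2_small hf
  have hdom : IntegrableOn (fun w => C * (‖w‖⁻¹ + 1) + 3 * tau f w) D := by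
    refine Integrable.add (Integrable.const_mul (Integrable.add ints2_inv_int ?_) C)
      (hf.area.const_mul 3)
    exact (integrableOn_const (C := (1 : ℝ)) (by simp))
  refine Integrable.mono' hdom ((ints2_meas_tau hf).mul (meas_ph q).norm) ?_
  refine ae_restrict_of_forall_mem measurableSet_ball fun w hw => ?_
  have hph : ‖ph q w‖ ≤ ‖w‖⁻¹ + ‖w‖ := by
    unfold ph
    refine (norm_add_le _ _).trans ?_
    rw [norm_div, norm_mul, hq, RCLike.norm_conj, hq, one_mul, one_div]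
  have ht := ints2_tau_nn f w
  have hn : 0 ≤ tau f w * ‖ph q w‖ := mul_nonneg ht (norm_nonneg _)
  rw [Real.norm_of_nonneg hn]
  have hw1 : ‖w‖ < 1 := by simpa using hw
  have hi : 0 ≤ ‖w‖⁻¹ := by positivity
  rcases ints2_cases hw with h | ⟨h, -⟩
  · have h1 := (hC w h).1
    have h2 : tau f w * ‖ph q w‖ ≤ C * (‖w‖⁻¹ + 1) :=
      mul_le_mul h1 (hph.trans (by linarith)) (norm_nonneg _) hC0
    linarith
  · have h3 : ‖w‖⁻¹ ≤ 2 := by
      rw [inv_le_comm₀ (by linarith) (by norm_num)]; linarith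
    have h4 : tau f w * ‖ph q w‖ ≤ tau f w * 3 :=
      mul_le_mul_of_nonneg_left (hph.trans (by linarith)) ht
    have h5 : 0 ≤ C * (‖w‖⁻¹ + 1) := by positivity
    linarith

theorem int_thPh {f : ℂ → ℂ} {κ c : ℝ} {θ : ℂ → ℝ} (hS : Sol f κ c θ) :
    IntegrableOn (fun w => tau f w * (Ph w * θ w)) D := by
  obtain ⟨C, hC0, hC⟩ := ints2_small hS.conf
  obtain ⟨C₀, hC₀0, hC₀⟩ := ints2_near hS
  have hdom : IntegrableOn (fun w => C * (4 * C₀) + 5 * (tau f w + tau f w * θ w ^ 2)) D := by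
    refine Integrable.add ?_ (Integrable.const_mul (Integrable.add hS.conf.area hS.test.l2) 5)
    exact (integrableOn_const (by simp))
  have hPhm : Measurable Ph := (ints2_meas_tt.add ints2_meas_tt.inv).const_mul 2
  refine Integrable.mono' hdom ((ints2_meas_tau hS.conf).mul
    (hPhm.aestronglyMeasurable.mul (meas_th hS))) ?_
  refine ae_restrict_of_forall_mem measurableSet_ball fun w hw => ?_
  have ht := ints2_tau_nn f w
  obtain ⟨t0, t1⟩ := ints2_tt1 hw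
  have hi : 0 ≤ (tt w)⁻¹ := by positivity
  have hP0 : 0 ≤ Ph w := by unfold Ph; positivity
  rw [Real.norm_eq_abs, abs_mul, abs_mul, abs_of_nonneg ht, abs_of_nonneg hP0]
  have htt : 0 ≤ tau f w * θ w ^ 2 := mul_nonneg ht (sq_nonneg _)
  rcases ints2_cases hw with h | ⟨h, -⟩
  · have h1 := (hC w h).1
    have h2 := hC₀ w h
    have h3 : Ph w * |θ w| ≤ 4 * C₀ := by
      have h4 : Ph w * |θ w| ≤ Ph w * (C₀ * tt w) := mul_le_mul_of_nonneg_left h2 hP0
      have h5 : Ph w * (C₀ * tt w) = 2 * C₀ * (tt w * tt w + tt w * (tt w)⁻¹) := by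
        unfold Ph; ring
      have h6 : tt w * (tt w)⁻¹ ≤ 1 := mul_inv_le_one
      have h7 : tt w * tt w ≤ 1 := by nlinarith
      nlinarith
    have h8 : tau f w * (Ph w * |θ w|) ≤ C * (4 * C₀) :=
      mul_le_mul h1 h3 (mul_nonneg hP0 (abs_nonneg _)) hC0
    linarith
  · have h3 : (tt w)⁻¹ ≤ 4 := by
      have := ints2_tt2 h
      rw [inv_le_comm₀ (by linarith) (by norm_num)]; linarith
    have h4 : Ph w ≤ 10 := by unfold Ph; linarith
    have h5 : Ph w * |θ w| ≤ 10 * |θ w| := mul_le_mul_of_nonneg_right h4 (abs_nonneg _)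
    have h6 : 10 * |θ w| ≤ 5 * (1 + θ w ^ 2) := by
      nlinarith [sq_nonneg (|θ w| - 1), sq_abs (θ w)]
    have h7 : tau f w * (Ph w * |θ w|) ≤ tau f w * (5 * (1 + θ w ^ 2)) :=
      mul_le_mul_of_nonneg_left (h5.trans h6) ht
    have h8 : 0 ≤ C * (4 * C₀) := by positivity
    nlinarith

theorem int_B {f : ℂ → ℂ} {κ c : ℝ} {θ : ℂ → ℝ} (hS : Sol f κ c θ) :
    IntegrableOn (fun w => θ w * (Yf w * tau f w - ‖f w‖ ^ 2 * (1 + (tt w ^ 2)⁻¹))) D := by
  obtain ⟨C, hC0, hC⟩ := ints2_small hS.conf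
  obtain ⟨C₀, hC₀0, hC₀⟩ := ints2_near hS
  obtain ⟨M, hM⟩ := hS.conf.bdd
  have hM0 : 0 ≤ M := (norm_nonneg _).trans (hM 0 (by simp))
  have hθ2 : IntegrableOn (fun w => θ w ^ 2) D := sq_int θ hS.test.c1 hS.test.en
  have hdom : IntegrableOn (fun w => (C₀ * C + 2 * C₀ * C ^ 2)
      + 2 * (tau f w + tau f w * θ w ^ 2) + (17 * M ^ 2 / 2) * (1 + θ w ^ 2)) D := by
    refine Integrable.add (Integrable.add ?_
      (Integrable.const_mul (Integrable.add hS.conf.area hS.test.l2) 2))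
      (Integrable.const_mul (Integrable.add ?_ hθ2) _)
    · exact (integrableOn_const (by simp))
    · exact (integrableOn_const (by simp))
  have hYm : Measurable Yf := ((measurable_const.sub ints2_meas_tt).pow_const 2).div ints2_meas_tt
  have hm3 : Measurable (fun w => 1 + (tt w ^ 2)⁻¹) :=
    measurable_const.add (ints2_meas_tt.pow_const 2).inv
  refine Integrable.mono' hdom ((meas_th hS).mul ((hYm.aestronglyMeasurable.mul
    (ints2_meas_tau hS.conf)).sub (((ints2_meas_f hS.conf).norm.pow 2).mul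
      hm3.aestronglyMeasurable))) ?_
  refine ae_restrict_of_forall_mem measurableSet_ball fun w hw => ?_
  have ht := ints2_tau_nn f w
  obtain ⟨t0, t1⟩ := ints2_tt1 hw
  have hi : 0 ≤ (tt w)⁻¹ := by positivity
  have hY0 : 0 ≤ Yf w := by unfold Yf; positivity
  have hW0 : 0 ≤ 1 + (tt w ^ 2)⁻¹ := by positivity
  have hθ0 := abs_nonneg (θ w)
  have hf0 := norm_nonneg (f w)
  have hsplit : ‖θ w * (Yf w * tau f w - ‖f w‖ ^ 2 * (1 + (tt w ^ 2)⁻¹))‖ ≤
      |θ w| * Yf w * tau f w + |θ w| * ‖f w‖ ^ 2 * (1 + (tt w ^ 2)⁻¹) := by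
    rw [Real.norm_eq_abs, abs_mul]
    have h1 : |Yf w * tau f w - ‖f w‖ ^ 2 * (1 + (tt w ^ 2)⁻¹)| ≤
        Yf w * tau f w + ‖f w‖ ^ 2 * (1 + (tt w ^ 2)⁻¹) := by
      have ha : 0 ≤ Yf w * tau f w := mul_nonneg hY0 ht
      have hb : 0 ≤ ‖f w‖ ^ 2 * (1 + (tt w ^ 2)⁻¹) := mul_nonneg (sq_nonneg _) hW0
      rw [abs_le]; constructor <;> linarith
    have h2 := mul_le_mul_of_nonneg_left h1 hθ0
    linarith [h2]
  refine hsplit.trans ?_
  have htt : 0 ≤ tau f w * θ w ^ 2 := mul_nonneg ht (sq_nonneg _)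
  have hMM : 0 ≤ (17 * M ^ 2 / 2) * (1 + θ w ^ 2) := by positivity
  have h6 : |θ w| ≤ (1 + θ w ^ 2) / 2 := by
    nlinarith [sq_nonneg (|θ w| - 1), sq_abs (θ w)]
  rcases ints2_cases hw with h | ⟨h, -⟩
  · obtain ⟨h1, h1'⟩ := hC w h
    have h2 := hC₀ w h
    have hinv : tt w * (tt w)⁻¹ ≤ 1 := mul_inv_le_one
    have hinv0 : 0 ≤ tt w * (tt w)⁻¹ := by positivity
    have hf2 : ‖f w‖ ^ 2 ≤ C ^ 2 * tt w := by
      unfold tt; rw [← mul_pow]; exact pow_le_pow_left₀ hf0 h1' 2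
    have hA : |θ w| * Yf w ≤ C₀ := by
      have e1 : |θ w| * Yf w ≤ (C₀ * tt w) * Yf w := mul_le_mul_of_nonneg_right h2 hY0
      have e2 : (C₀ * tt w) * Yf w = C₀ * ((1 - tt w) ^ 2 * (tt w * (tt w)⁻¹)) := by
        unfold Yf; rw [div_eq_mul_inv]; ring
      have e3 : (1 - tt w) ^ 2 ≤ 1 := by nlinarith
      have e4 : (1 - tt w) ^ 2 * (tt w * (tt w)⁻¹) ≤ 1 := by
        nlinarith [sq_nonneg (1 - tt w)]
      nlinarith
    have hA' : |θ w| * Yf w * tau f w ≤ C₀ * C :=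
      mul_le_mul hA h1 ht hC₀0
    have hB : |θ w| * ‖f w‖ ^ 2 * (1 + (tt w ^ 2)⁻¹) ≤ 2 * C₀ * C ^ 2 := by
      have e1 : |θ w| * ‖f w‖ ^ 2 ≤ (C₀ * tt w) * (C ^ 2 * tt w) :=
        mul_le_mul h2 hf2 (sq_nonneg _) (by positivity)
      have e2 : |θ w| * ‖f w‖ ^ 2 * (1 + (tt w ^ 2)⁻¹) ≤
          (C₀ * tt w) * (C ^ 2 * tt w) * (1 + (tt w ^ 2)⁻¹) :=
        mul_le_mul_of_nonneg_right e1 hW0
      have e3 : (C₀ * tt w) * (C ^ 2 * tt w) * (1 + (tt w ^ 2)⁻¹) =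
          C₀ * C ^ 2 * (tt w ^ 2 + tt w ^ 2 * (tt w ^ 2)⁻¹) := by ring
      have e4 : tt w ^ 2 * (tt w ^ 2)⁻¹ ≤ 1 := mul_inv_le_one
      have e5 : tt w ^ 2 ≤ 1 := by nlinarith
      have e6 : 0 ≤ C₀ * C ^ 2 := by positivity
      nlinarith
    linarith
  · have ht4 := ints2_tt2 h
    have h3 : (tt w)⁻¹ ≤ 4 := by
      rw [inv_le_comm₀ (by linarith) (by norm_num)]; linarith
    have hY4 : Yf w ≤ 4 := by
      unfold Yf; rw [div_eq_mul_inv]
      have e3 : (1 - tt w) ^ 2 ≤ 1 := by nlinarith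
      nlinarith [sq_nonneg (1 - tt w)]
    have hW : 1 + (tt w ^ 2)⁻¹ ≤ 17 := by
      have : (tt w ^ 2)⁻¹ = (tt w)⁻¹ * (tt w)⁻¹ := by rw [sq, mul_inv]
      rw [this]; nlinarith
    have hfM : ‖f w‖ ^ 2 ≤ M ^ 2 := pow_le_pow_left₀ hf0 (hM w hw) 2
    have hA : |θ w| * Yf w * tau f w ≤ 2 * (tau f w + tau f w * θ w ^ 2) := by
      have e1 : |θ w| * Yf w ≤ (1 + θ w ^ 2) / 2 * 4 := mul_le_mul h6 hY4 hY0 (by positivity)
      have e2 := mul_le_mul_of_nonneg_right e1 ht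
      nlinarith
    have hB : |θ w| * ‖f w‖ ^ 2 * (1 + (tt w ^ 2)⁻¹) ≤ (17 * M ^ 2 / 2) * (1 + θ w ^ 2) := by
      have e1 : |θ w| * ‖f w‖ ^ 2 ≤ (1 + θ w ^ 2) / 2 * M ^ 2 :=
        mul_le_mul h6 hfM (sq_nonneg _) (by positivity)
      have e2 : |θ w| * ‖f w‖ ^ 2 * (1 + (tt w ^ 2)⁻¹) ≤ ((1 + θ w ^ 2) / 2 * M ^ 2) * 17 :=
        mul_le_mul e1 hW hW0 (by positivity)
      linarith
    have hpos : 0 ≤ C₀ * C + 2 * C₀ * C ^ 2 := by positivity
    linarith

end Crest.Agent.HS
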