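import Crest.Agent.HS.Cut
import Crest.Agent.HS.Ints
import Crest.Agent.HS.Ints2
set_option autoImplicit false
noncomputable section
namespace Crest.Agent.HS
open MeasureTheory Complex Metric Set
open scoped ComplexConjugate Topology

/-- `X` has Wirtinger derivatives `p = ∂X`, `q = ∂̄X` at `w` -/
def HD (X : ℂ → ℂ) (p q w : ℂ) : Prop :=
  HasFDerivAt X (p • (1 : ℂ →L[ℝ] ℂ) + q • (conjCLE : ℂ →L[ℝ] ℂ)) w

theorem HD.db {X : ℂ → ℂ} {p q w : ℂ} (h : HD X p q w) : db X w = 2 * q := by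
  unfold Crest.Agent.HS.db
  rw [HasFDerivAt.fderiv h]
  have e1 : (p • (1 : ℂ →L[ℝ] ℂ) + q • (conjCLE : ℂ →L[ℝ] ℂ)) 1 = p + q := by simp
  have e2 : (p • (1 : ℂ →L[ℝ] ℂ) + q • (conjCLE : ℂ →L[ℝ] ℂ)) I = p * I - q * I := by
    simp; ring
  rw [e1, e2]
  linear_combination (p - q) * I_mul_I

theorem HD.congrD {X : ℂ → ℂ} {p q p' q' w : ℂ} (h : HD X p q w) (hp : p = p') (hq : q = q') :
    HD X p' q' w := by rw [← hp, ← hq]; exact h

theorem HD.add {X Y : ℂ → ℂ} {p q p' q' w : ℂ} (h : HD X p q w) (h' : HD Y p' q' w) :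
    HD (fun z => X z + Y z) (p + p') (q + q') w := by
  unfold HD at *
  refine (HasFDerivAt.add h h').congr_fderiv ?_
  ext
  simp [add_mul]
  ring

theorem HD.sub {X Y : ℂ → ℂ} {p q p' q' w : ℂ} (h : HD X p q w) (h' : HD Y p' q' w) :
    HD (fun z => X z - Y z) (p - p') (q - q') w := by
  unfold HD at *
  refine (HasFDerivAt.sub h h').congr_fderiv ?_
  ext
  simp [sub_mul]
  ring

theorem HD.const (c w : ℂ) : HD (fun _ => c) 0 0 w := by
  unfold HD
  refine (hasFDerivAt_const c w).congr_fderiv ?_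
  ext
  simp

theorem HD.mul {X Y : ℂ → ℂ} {p q p' q' w : ℂ} (h : HD X p q w) (h' : HD Y p' q' w) :
    HD (fun z => X z * Y z) (p * Y w + X w * p') (q * Y w + X w * q') w := by
  unfold HD at *
  refine (HasFDerivAt.mul h h').congr_fderiv ?_
  ext
  simp
  ring

theorem HD.inv {X : ℂ → ℂ} {p q w : ℂ} (h : HD X p q w) (h0 : X w ≠ 0) :
    HD (fun z => (X z)⁻¹) (-p / X w ^ 2) (-q / X w ^ 2) w := by
  unfold HD at *
  refine ((hasDerivAt_inv h0).hasFDerivAt.restrictScalars ℝ |>.comp w h).congr_fderiv ?_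
  ext
  simp
  ring

theorem HD.holo {g : ℂ → ℂ} {w : ℂ} (h : DifferentiableAt ℂ g w) : HD g (deriv g w) 0 w := by
  unfold HD
  refine (h.hasDerivAt.hasFDerivAt.restrictScalars ℝ).congr_fderiv ?_
  ext
  simp [mul_comm]

theorem HD.conj {X : ℂ → ℂ} {p q w : ℂ} (h : HD X p q w) :
    HD (fun z => conj (X z)) (conj q) (conj p) w := by
  unfold HD at *
  refine ((conjCLE : ℂ →L[ℝ] ℂ).hasFDerivAt.comp w h).congr_fderiv ?_
  ext
  simp [add_comm]

theorem HD.ofReal {θ : ℂ → ℝ} {w : ℂ} (h : DifferentiableAt ℝ θ w) :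
    HD (fun z => (θ z : ℂ)) (gr θ w / 2) (conj (gr θ w) / 2) w := by
  unfold HD
  refine ((ofRealCLM).hasFDerivAt.comp w h.hasFDerivAt).congr_fderiv ?_
  ext z
  have e : fderiv ℝ θ w z = z.re * fderiv ℝ θ w 1 + z.im * fderiv ℝ θ w I := by
    have : z = z.re • (1 : ℂ) + z.im • I := by
      apply Complex.ext <;> simp
    conv_lhs => rw [this]
    rw [map_add, map_smul, map_smul]
    rfl
  simp only [gr]
  apply Complex.ext
  · simp [e]
    ring
  · simp
    ring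

/-- `V₀ = conj (ph 1) K₁ + conj (ph I) K_I` in closed form -/
def V0 (f : ℂ → ℂ) (w : ℂ) : ℂ :=
  (1 / 2) * (((w * conj w)⁻¹ - 2 + w * conj w) * (conj (f w) * deriv f w)
    - (f w * conj (f w)) * (conj w - (w * w * conj w)⁻¹))

theorem tt_eq (w : ℂ) : ((tt w : ℝ) : ℂ) = w * conj w := by
  rw [mul_conj, normSq_eq_norm_sq]; rfl

theorem V0_eq (f : ℂ → ℂ) {w : ℂ} (hw : w ≠ 0) :
    conj (ph 1 w) * Kf f 1 w + conj (ph I w) * Kf f I w = V0 f w := by
  have him : ∀ z : ℂ, ((z.im : ℝ) : ℂ) = -I / 2 * (z - conj z) := by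
    intro z
    apply Complex.ext
    · simp
      ring
    · simp
  have hv : conj w ≠ 0 := by simpa using hw
  have hn : ((‖f w‖ ^ 2 : ℝ) : ℂ) = f w * conj (f w) := by
    rw [mul_conj, normSq_eq_norm_sq]
  have hI : I * I = -1 := I_mul_I
  have hI2 : I ^ 2 = -1 := I_sq
  unfold Kf V0
  rw [him, him, hn]
  simp only [ph, dph, map_add, map_mul, map_neg, map_div₀, map_one, conj_I, conj_conj, one_mul,
    neg_mul]
  generalize conj w = v at *
  generalize conj (f w) = F' at *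
  generalize deriv f w = g at *
  generalize f w = F at *
  field_simp
  ring_nf
  simp only [hI2, show I ^ 4 = 1 by rw [show (4:ℕ) = 2 * 2 by norm_num, pow_mul, hI2]; norm_num]
  ring

theorem V0_db {f : ℂ → ℂ} {w : ℂ} (hw : w ≠ 0) (hf : DifferentiableAt ℂ f w)
    (hg : DifferentiableAt ℂ (deriv f) w) :
    ∃ p q, HD (V0 f) p q w ∧
      (2 * q).re = Yf w * tau f w - ‖f w‖ ^ 2 * (1 + (tt w ^ 2)⁻¹) := by
  have hv : conj w ≠ 0 := by simpa using hw
  have h1 : HD (fun z => z) 1 0 w := by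
    have := HD.holo (g := fun z : ℂ => z) (w := w) differentiableAt_id
    simpa using this
  have h2 : HD (fun z => conj z) 0 1 w := by
    have := h1.conj
    simpa using this
  have h3 := HD.holo hf
  have h4 : HD (fun z => conj (f z)) 0 (conj (deriv f w)) w := by
    have := h3.conj
    simpa using this
  have h5 := HD.holo hg
  have hA := ((h1.mul h2).inv (mul_ne_zero hw hv)).sub (HD.const 2 w) |>.add (h1.mul h2)
  have hB := h2.sub (((h1.mul h1).mul h2).inv (mul_ne_zero (mul_ne_zero hw hw) hv))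
  have hT := (HD.const (1 / 2) w).mul ((hA.mul (h4.mul h5)).sub ((h3.mul h4).mul hB))
  refine ⟨_, _, hT, ?_⟩
  have hY : ((Yf w * tau f w - ‖f w‖ ^ 2 * (1 + (tt w ^ 2)⁻¹) : ℝ) : ℂ) =
      (1 - w * conj w) ^ 2 / (w * conj w) * (deriv f w * conj (deriv f w)) -
      f w * conj (f w) * (1 + ((w * conj w) ^ 2)⁻¹) := by
    have e1 : ((tau f w : ℝ) : ℂ) = deriv f w * conj (deriv f w) := by
      rw [mul_conj, normSq_eq_norm_sq]; rfl
    have e2 : ((‖f w‖ : ℝ) : ℂ) ^ 2 = f w * conj (f w) := by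
      rw [mul_conj, normSq_eq_norm_sq]; push_cast; rfl
    simp only [Yf]
    push_cast
    rw [tt_eq, e1, e2]
  have hX : ∀ X : ℂ, (X - conj X).re = 0 := by intro X; simp
  set X : ℂ := (1 - ((w * conj w) ^ 2)⁻¹) * (w * conj (f w) * deriv f w) with hXdef
  have hXc : conj X = (1 - ((w * conj w) ^ 2)⁻¹) * (conj w * f w * conj (deriv f w)) := by
    rw [hXdef]
    simp only [map_mul, map_sub, map_one, map_inv₀, map_pow, conj_conj]
    ring
  have key : ∀ q : ℂ, 2 * q = ((Yf w * tau f w - ‖f w‖ ^ 2 * (1 + (tt w ^ 2)⁻¹) : ℝ) : ℂ) +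
      (X - conj X) → (2 * q).re = Yf w * tau f w - ‖f w‖ ^ 2 * (1 + (tt w ^ 2)⁻¹) := by
    intro q hq
    rw [hq, add_re, hX, ofReal_re, add_zero]
  apply key
  rw [hY, hXc, hXdef]
  generalize conj w = v at *
  generalize conj (f w) = F' at *
  generalize conj (deriv f w) = G' at *
  generalize deriv f w = G at *
  generalize f w = F at *
  field_simp
  ring

theorem V0_contDiffOn {f : ℂ → ℂ} (hf : Conf f) : ContDiffOn ℝ 1 (V0 f) (D \ {0}) := by
  have hf1 : ContDiffOn ℝ 1 f (D \ {0}) :=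
    ((hf.diff.contDiffOn isOpen_ball).restrict_scalars ℝ).mono sdiff_subset
  have hg1 : ContDiffOn ℝ 1 (deriv f) (D \ {0}) :=
    (((hf.diff.deriv isOpen_ball).contDiffOn isOpen_ball).restrict_scalars ℝ).mono sdiff_subset
  have hc : ∀ {g : ℂ → ℂ}, ContDiffOn ℝ 1 g (D \ {0}) →
      ContDiffOn ℝ 1 (fun w => conj (g w)) (D \ {0}) := by
    intro g hg
    exact (conjCLE : ℂ →L[ℝ] ℂ).contDiff.comp_contDiffOn hg
  have hid : ContDiffOn ℝ 1 (fun w : ℂ => w) (D \ {0}) := contDiffOn_id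
  have hne : ∀ w ∈ D \ {0}, w * conj w ≠ 0 := by
    intro w hw
    have h0 : w ≠ 0 := hw.2
    exact mul_ne_zero h0 (by simpa using h0)
  have hne2 : ∀ w ∈ D \ {0}, w * w * conj w ≠ 0 := by
    intro w hw
    have h0 : w ≠ 0 := hw.2
    exact mul_ne_zero (mul_ne_zero h0 h0) (by simpa using h0)
  exact contDiffOn_const.mul
    ((((((hid.mul (hc hid)).inv hne).sub contDiffOn_const).add (hid.mul (hc hid))).mul
      ((hc hf1).mul hg1)).sub ((hf1.mul (hc hf1)).mul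
        ((hc hid).sub (((hid.mul hid).mul (hc hid)).inv hne2))))

theorem deriv_bound_half {f : ℂ → ℂ} (hf : Conf f) :
    ∃ B : ℝ, 0 ≤ B ∧ ∀ w ∈ ball (0 : ℂ) (1 / 2), ‖deriv f w‖ ≤ B ∧ ‖f w‖ ≤ B * ‖w‖ := by
  have hcont : ContinuousOn (deriv f) (closedBall (0 : ℂ) (1 / 2)) :=
    (hf.diff.deriv isOpen_ball).continuousOn.mono (closedBall_subset_ball (by norm_num))
  obtain ⟨B, hB⟩ := (isCompact_closedBall (0 : ℂ) (1 / 2)).exists_bound_of_continuousOn hcont
  have hB0 : 0 ≤ B := (norm_nonneg _).trans (hB 0 (by simp))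
  refine ⟨B, hB0, fun w hw => ⟨hB w (ball_subset_closedBall hw), ?_⟩⟩
  have h := (convex_ball (0 : ℂ) (1 / 2)).norm_image_sub_le_of_norm_deriv_le (f := f) (C := B)
    (fun x hx => (hf.diff.differentiableAt (isOpen_ball.mem_nhds
      (ball_subset_ball (by norm_num) hx)))) (fun x hx => hB x (ball_subset_closedBall hx))
    (mem_ball_self (by norm_num)) hw
  rw [hf.zero, sub_zero, sub_zero] at h
  exact h

theorem V0_norm (f : ℂ → ℂ) {w : ℂ} (hw : w ≠ 0) :
    ‖V0 f w‖ ≤ (1 / 2) * (Yf w * (‖f w‖ * ‖deriv f w‖) +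
      ‖f w‖ ^ 2 * (‖w‖ * |1 - (tt w ^ 2)⁻¹|)) := by
  have hv : conj w ≠ 0 := by simpa using hw
  have hY0 : 0 ≤ Yf w := by unfold Yf tt; positivity
  have e1 : (w * conj w)⁻¹ - 2 + w * conj w = ((Yf w : ℝ) : ℂ) := by
    simp only [Yf]
    push_cast
    rw [tt_eq]
    field_simp
    ring
  have e2 : conj w - (w * w * conj w)⁻¹ = conj w * ((1 - (tt w ^ 2)⁻¹ : ℝ) : ℂ) := by
    push_cast
    rw [tt_eq]
    field_simp
  unfold V0
  rw [e1, e2, norm_mul]
  have h12 : ‖(1 / 2 : ℂ)‖ = 1 / 2 := by simp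
  rw [h12]
  refine mul_le_mul_of_nonneg_left ((norm_sub_le _ _).trans (le_of_eq ?_)) (by norm_num)
  rw [norm_mul, norm_mul, norm_mul, norm_mul, norm_mul, norm_real, norm_real, norm_conj, norm_conj,
    Real.norm_eq_abs, Real.norm_eq_abs, abs_of_nonneg hY0]
  ring

theorem idB {f : ℂ → ℂ} {κ c : ℝ} {θ : ℂ → ℝ} (hS : Sol f κ c θ) :
    ∫ w in D, ((ph 1 w * gr θ w * conj (Kf f 1 w)).re + (ph I w * gr θ w * conj (Kf f I w)).re)
      = -∫ w in D, θ w * (Yf w * tau f w - ‖f w‖ ^ 2 * (1 + (tt w ^ 2)⁻¹)) := by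
  have hf := hS.conf
  have hZ : ContDiffOn ℝ 1 (fun w => (θ w : ℂ) * V0 f w) (D \ {0}) :=
    (ofRealCLM.contDiff.comp_contDiffOn (hS.test.c1.mono sdiff_subset)).mul (V0_contDiffOn hf)
  have hdb : ∀ w ∈ D, w ≠ 0 → (db (fun w => (θ w : ℂ) * V0 f w) w).re =
      ((ph 1 w * gr θ w * conj (Kf f 1 w)).re + (ph I w * gr θ w * conj (Kf f I w)).re) +
        θ w * (Yf w * tau f w - ‖f w‖ ^ 2 * (1 + (tt w ^ 2)⁻¹)) := by
    intro w hw hw0
    have hmem := isOpen_ball.mem_nhds hw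
    obtain ⟨p, q, h, hq⟩ := V0_db hw0 (hf.diff.differentiableAt hmem)
      ((hf.diff.deriv isOpen_ball).differentiableAt hmem)
    have hθ : DifferentiableAt ℝ θ w :=
      (hS.test.c1.differentiableOn (by norm_num)).differentiableAt hmem
    rw [((HD.ofReal hθ).mul h).db, ← hq, ← V0_eq f hw0]
    simp only [mul_re, mul_im, add_re, add_im, conj_re, conj_im, div_ofNat_re, div_ofNat_im,
      ofReal_re, ofReal_im, re_ofNat, im_ofNat]
    ring
  have hae : ∀ᵐ w ∂(volume.restrict D), ((ph 1 w * gr θ w * conj (Kf f 1 w)).re +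
      (ph I w * gr θ w * conj (Kf f I w)).re) +
        θ w * (Yf w * tau f w - ‖f w‖ ^ 2 * (1 + (tt w ^ 2)⁻¹)) =
      (db (fun w => (θ w : ℂ) * V0 f w) w).re := by
    filter_upwards [ae_restrict_mem measurableSet_ball,
      ae_restrict_of_ae (compl_mem_ae_iff.2 (measure_singleton (0 : ℂ)))] with w hw h0
    exact (hdb w hw h0).symm
  have hI : ∀ q : ℂ, ‖q‖ = 1 →
      IntegrableOn (fun w => (ph q w * gr θ w * conj (Kf f q w)).re) D := by
    intro q hq
    have h1 := memLp_grad hS q hq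
    have h2 : MemLp (fun w => conj (Kf f q w)) 2 (volume.restrict D) := (memLp_Kf hf q hq).star
    exact (h1.integrable_mul h2).re
  have hA : IntegrableOn (fun w => (ph 1 w * gr θ w * conj (Kf f 1 w)).re +
      (ph I w * gr θ w * conj (Kf f I w)).re) D :=
    (hI 1 (by simp)).add (hI I (by simp))
  have hB := int_B hS
  have hint : IntegrableOn (fun w => (db (fun w => (θ w : ℂ) * V0 f w) w).re) D :=
    (hA.add hB).congr hae
  -- integrable bound
  obtain ⟨M, hM⟩ := hf.bdd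
  have hM0 : 0 ≤ M := (norm_nonneg _).trans (hM 0 (mem_ball_self one_pos))
  have hθ2 : MemLp θ 2 (volume.restrict D) :=
    (memLp_two_iff_integrable_sq (meas_th hS)).2 (sq_int θ hS.test.c1 hS.test.en)
  have hg2 : MemLp (deriv f) 2 (volume.restrict D) := by
    have hm : AEStronglyMeasurable (deriv f) (volume.restrict D) :=
      (hf.diff.deriv isOpen_ball).continuousOn.aestronglyMeasurable measurableSet_ball
    exact (memLp_two_iff_integrable_sq_norm hm).2 hf.area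
  haveI : IsFiniteMeasure (volume.restrict D) :=
    ⟨by rw [Measure.restrict_apply_univ]; exact measure_ball_lt_top⟩
  have hθi : IntegrableOn (fun w => |θ w|) D := (hθ2.integrable (by norm_num)).norm
  have hθg : IntegrableOn (fun w => |θ w| * ‖deriv f w‖) D :=
    hθ2.norm.integrable_mul hg2.norm
  have hH : IntegrableOn (fun w => 8 * M * (|θ w| * ‖deriv f w‖) + 8 * M ^ 2 * |θ w|) D :=
    (hθg.const_mul (8 * M)).add (hθi.const_mul (8 * M ^ 2))
  obtain ⟨C, hC⟩ := hS.near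
  obtain ⟨B, hB0, hBd⟩ := deriv_bound_half hf
  have hcut := cut _ hZ hint _ hH ?_ (2 * (|C| * B ^ 2)) ?_
  · rw [← integral_congr_ae hae, integral_add hA hB] at hcut
    linarith
  · intro w hw hr
    have hr1 : ‖w‖ < 1 := by simpa using hw
    have hw0 : w ≠ 0 := by
      intro h; rw [h, norm_zero] at hr; norm_num at hr
    have hV := V0_norm f hw0
    have hfw := hM w hw
    set r := ‖w‖ with hrdef
    have hr0 : 0 < r := by linarith
    have hY : Yf w ≤ 8 * (1 - r) := by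
      unfold Yf tt
      rw [← hrdef, div_le_iff₀ (by positivity)]
      have h1 : (1 - r) * (1 + r) ^ 2 ≤ 8 * r ^ 2 := by nlinarith
      nlinarith [mul_le_mul_of_nonneg_left h1 (by linarith : (0 : ℝ) ≤ 1 - r)]
    have hY0 : 0 ≤ Yf w := by unfold Yf tt; positivity
    have ha : r * (r * |1 - (tt w ^ 2)⁻¹|) ≤ 16 * (1 - r) := by
      have h1 : tt w = r ^ 2 := rfl
      have h2 : 1 ≤ ((r ^ 2) ^ 2)⁻¹ := by
        rw [one_le_inv₀ (by positivity)]
        calc (r ^ 2) ^ 2 ≤ (1 ^ 2) ^ 2 := by gcongr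
          _ = 1 := by norm_num
      rw [h1, abs_of_nonpos (by linarith)]
      have h3 : r * (r * -(1 - ((r ^ 2) ^ 2)⁻¹)) = (1 - r ^ 4) / r ^ 2 := by
        field_simp
        ring
      rw [h3, div_le_iff₀ (by positivity)]
      have h4 : (1 + r) * (1 + r ^ 2) ≤ 16 * r ^ 2 := by nlinarith
      nlinarith [mul_le_mul_of_nonneg_left h4 (by linarith : (0 : ℝ) ≤ 1 - r)]
    have h5 : ‖f w‖ * ‖deriv f w‖ ≤ M * ‖deriv f w‖ := by gcongr
    have h6 : ‖f w‖ ^ 2 ≤ M ^ 2 := by gcongr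
    have h7 : r * (Yf w * (‖f w‖ * ‖deriv f w‖)) ≤ 8 * (1 - r) * (M * ‖deriv f w‖) := by
      have h8 : Yf w * (‖f w‖ * ‖deriv f w‖) ≤ 8 * (1 - r) * (M * ‖deriv f w‖) := by gcongr
      have h9 : 0 ≤ Yf w * (‖f w‖ * ‖deriv f w‖) := by positivity
      calc r * (Yf w * (‖f w‖ * ‖deriv f w‖)) ≤ 1 * (Yf w * (‖f w‖ * ‖deriv f w‖)) := by
            gcongr
        _ ≤ _ := by rw [one_mul]; exact h8
    have h8 : r * (‖f w‖ ^ 2 * (r * |1 - (tt w ^ 2)⁻¹|)) ≤ M ^ 2 * (16 * (1 - r)) := by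
      calc r * (‖f w‖ ^ 2 * (r * |1 - (tt w ^ 2)⁻¹|)) = ‖f w‖ ^ 2 * (r * (r * |1 - (tt w ^ 2)⁻¹|)) := by
            ring
        _ ≤ M ^ 2 * (16 * (1 - r)) := by gcongr
    have h9 : r * ‖V0 f w‖ ≤ (8 * M * ‖deriv f w‖ + 8 * M ^ 2) * (1 - r) := by
      have h10 : 0 ≤ (1 - r) * (M * ‖deriv f w‖) :=
        mul_nonneg (by linarith) (by positivity)
      calc r * ‖V0 f w‖ ≤ r * ((1 / 2) * (Yf w * (‖f w‖ * ‖deriv f w‖) +
            ‖f w‖ ^ 2 * (r * |1 - (tt w ^ 2)⁻¹|))) := by gcongr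
        _ = (1 / 2) * (r * (Yf w * (‖f w‖ * ‖deriv f w‖)) +
            r * (‖f w‖ ^ 2 * (r * |1 - (tt w ^ 2)⁻¹|))) := by ring
        _ ≤ (1 / 2) * (8 * (1 - r) * (M * ‖deriv f w‖) + M ^ 2 * (16 * (1 - r))) := by gcongr
        _ ≤ _ := by nlinarith
    calc |(w * ((θ w : ℂ) * V0 f w)).re| ≤ ‖w * ((θ w : ℂ) * V0 f w)‖ := abs_re_le_norm _
      _ = |θ w| * (r * ‖V0 f w‖) := by
          rw [norm_mul, norm_mul, norm_real, Real.norm_eq_abs]; ring
      _ ≤ |θ w| * ((8 * M * ‖deriv f w‖ + 8 * M ^ 2) * (1 - r)) := by gcongr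
      _ = _ := by ring
  · intro w hw hw0 hr
    have hV := V0_norm f hw0
    have hball : w ∈ ball (0 : ℂ) (1 / 2) := by simpa using hr
    obtain ⟨hθw, _⟩ := hC w hball
    obtain ⟨hd, hfB⟩ := hBd w hball
    set r := ‖w‖ with hrdef
    have hr0 : 0 < r := norm_pos_iff.2 hw0
    have hY0 : 0 ≤ Yf w := by unfold Yf tt; positivity
    have hY : Yf w * r ^ 2 ≤ 1 := by
      unfold Yf tt
      rw [← hrdef, div_mul_cancel₀ _ (by positivity)]
      have h1 := pow_pos hr0 2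
      have h2 : r ^ 2 ≤ 1 := by nlinarith
      exact pow_le_one₀ (by linarith) (by linarith)
    have ha : (r * |1 - (tt w ^ 2)⁻¹|) * r ^ 3 ≤ 1 := by
      have h1 : tt w = r ^ 2 := rfl
      have h2 : 1 ≤ ((r ^ 2) ^ 2)⁻¹ := by
        rw [one_le_inv₀ (by positivity)]
        calc (r ^ 2) ^ 2 ≤ (1 ^ 2) ^ 2 := by gcongr; linarith
          _ = 1 := by norm_num
      rw [h1, abs_of_nonpos (by linarith)]
      have h3 : r * -(1 - ((r ^ 2) ^ 2)⁻¹) * r ^ 3 = 1 - r ^ 4 := by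
        field_simp
        ring
      rw [h3]
      have := pow_pos hr0 4
      linarith
    have hθ' : |θ w| ≤ |C| * r ^ 2 := hθw.trans (by gcongr; exact le_abs_self C)
    have ha0 : 0 ≤ r * |1 - (tt w ^ 2)⁻¹| := by positivity
    generalize r * |1 - (tt w ^ 2)⁻¹| = a at *
    have h5 : ‖V0 f w‖ ≤ (1 / 2) * (Yf w * (B * r * B) + (B * r) ^ 2 * a) :=
      hV.trans (by gcongr)
    calc ‖(θ w : ℂ) * V0 f w‖ = |θ w| * ‖V0 f w‖ := by
          rw [norm_mul, norm_real, Real.norm_eq_abs]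
      _ ≤ (|C| * r ^ 2) * ((1 / 2) * (Yf w * (B * r * B) + (B * r) ^ 2 * a)) := by gcongr
      _ = (|C| * B ^ 2) * ((1 / 2) * r * ((Yf w * r ^ 2) + (a * r ^ 3))) := by ring
      _ ≤ (|C| * B ^ 2) * ((1 / 2) * 1 * (1 + 1)) := by gcongr; linarith
      _ ≤ 2 * (|C| * B ^ 2) := by
          have : 0 ≤ |C| * B ^ 2 := by positivity
          linarith

end Crest.Agent.HS
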