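import Crest.Agent.HS.Calc
set_option autoImplicit false
noncomputable section
namespace Crest.Agent.HS
open MeasureTheory Complex Metric Set
open scoped ComplexConjugate Topology

theorem isOpen_D0 : IsOpen (D \ {(0 : ℂ)}) := isOpen_ball.sdiff isClosed_singleton

theorem Conf.dif {f : ℂ → ℂ} (hf : Conf f) {w : ℂ} (hw : w ∈ D) : DifferentiableAt ℂ f w :=
  hf.diff.differentiableAt (isOpen_ball.mem_nhds hw)

theorem Conf.dderiv {f : ℂ → ℂ} (hf : Conf f) : DifferentiableOn ℂ (deriv f) D :=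
  hf.diff.deriv isOpen_ball

theorem Conf.ddif {f : ℂ → ℂ} (hf : Conf f) {w : ℂ} (hw : w ∈ D) :
    DifferentiableAt ℂ (deriv f) w :=
  hf.dderiv.differentiableAt (isOpen_ball.mem_nhds hw)

theorem Conf.contDiffR {f : ℂ → ℂ} (hf : Conf f) (n : ℕ∞) : ContDiffOn ℝ n f D :=
  ((hf.diff.contDiffOn isOpen_ball).restrict_scalars ℝ)

theorem Conf.contDiffR' {f : ℂ → ℂ} (hf : Conf f) (n : ℕ∞) : ContDiffOn ℝ n (deriv f) D :=
  ((hf.dderiv.contDiffOn isOpen_ball).restrict_scalars ℝ)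

theorem hasDerivAt_ph (q : ℂ) {w : ℂ} (hw : w ≠ 0) : HasDerivAt (ph q) (dph q w) w := by
  unfold ph dph
  have h1 : HasDerivAt (fun z : ℂ => q / z) (-q / w ^ 2) w := by
    have h := (hasDerivAt_inv hw).const_mul q
    have h' := h.congr_deriv (show q * -(w ^ 2)⁻¹ = -q / w ^ 2 by rw [div_eq_mul_inv]; ring)
    exact h'.congr_of_eventuallyEq (Filter.Eventually.of_forall fun z => div_eq_mul_inv q z)
  have h2 : HasDerivAt (fun z : ℂ => conj q * z) (conj q) w := by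
    simpa using (hasDerivAt_id w).const_mul (conj q)
  exact h1.add h2

theorem dif_ph (q : ℂ) {w : ℂ} (hw : w ≠ 0) : DifferentiableAt ℂ (ph q) w :=
  (hasDerivAt_ph q hw).differentiableAt

theorem dif_dph (q : ℂ) {w : ℂ} (hw : w ≠ 0) : DifferentiableAt ℂ (dph q) w := by
  unfold dph
  have : w ^ 2 ≠ 0 := pow_ne_zero 2 hw
  fun_prop (disch := assumption)

theorem contDiffOn_ph (q : ℂ) (n : ℕ∞) : ContDiffOn ℝ n (ph q) (D \ {0}) := by
  have : DifferentiableOn ℂ (ph q) (D \ {0}) := fun w hw =>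
    (dif_ph q (fun h => hw.2 h)).differentiableWithinAt
  exact (this.contDiffOn isOpen_D0).restrict_scalars ℝ

theorem contDiffOn_dph (q : ℂ) (n : ℕ∞) : ContDiffOn ℝ n (dph q) (D \ {0}) := by
  have : DifferentiableOn ℂ (dph q) (D \ {0}) := fun w hw =>
    (dif_dph q (fun h => hw.2 h)).differentiableWithinAt
  exact (this.contDiffOn isOpen_D0).restrict_scalars ℝ

/-- `ph q w = conj z / t + z`, `z = conj q * w` -/
theorem ph_eq (q : ℂ) {w : ℂ} (hw : w ≠ 0) :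
    ph q w = conj (conj q * w) * ((tt w)⁻¹ : ℝ) + conj q * w := by
  unfold ph tt
  have h : conj w * w = ((‖w‖ ^ 2 : ℝ) : ℂ) := by
    rw [mul_comm, Complex.mul_conj, Complex.normSq_eq_norm_sq]
  have hne : ((‖w‖ ^ 2 : ℝ) : ℂ) ≠ 0 := by
    rw [← h]; exact mul_ne_zero (by simpa using hw) hw
  congr 1
  rw [map_mul, Complex.conj_conj, Complex.ofReal_inv]
  rw [div_eq_iff hw]
  rw [mul_assoc, mul_assoc, mul_comm _ w, ← mul_assoc (conj w), h, mul_inv_cancel₀ hne, mul_one]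

theorem wdph_eq (q : ℂ) {w : ℂ} (hw : w ≠ 0) :
    w * dph q w = - (conj (conj q * w) * ((tt w)⁻¹ : ℝ)) + conj q * w := by
  have h := ph_eq q hw
  have h2 : w * dph q w = - (ph q w) + 2 * (conj q * w) := by
    unfold dph ph
    field_simp
    ring
  rw [h2, h]; ring

theorem tt_pos {w : ℂ} (hw : w ≠ 0) : 0 < tt w := by
  unfold tt; positivity

theorem im_ph (q : ℂ) {w : ℂ} (hw : w ≠ 0) :
    (ph q w).im = (1 - (tt w)⁻¹) * (conj q * w).im := by
  rw [ph_eq q hw, Complex.add_im, Complex.im_mul_ofReal, Complex.conj_im]; ring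

theorem re_wdph (q : ℂ) {w : ℂ} (hw : w ≠ 0) :
    (w * dph q w).re = (1 - (tt w)⁻¹) * (conj q * w).re := by
  rw [wdph_eq q hw, Complex.add_re, Complex.neg_re, Complex.re_mul_ofReal, Complex.conj_re]; ring

theorem tinv_bound {w : ℂ} (hw : w ∈ D) (h : 1 / 2 ≤ ‖w‖) : |1 - (tt w)⁻¹| ≤ 8 * (1 - ‖w‖) := by
  have h1 : ‖w‖ < 1 := by simpa using hw
  have hpos : 0 < ‖w‖ := by linarith
  unfold tt
  have : 1 - (‖w‖ ^ 2)⁻¹ = - ((1 - ‖w‖) * (1 + ‖w‖) / ‖w‖ ^ 2) := by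
    field_simp; ring
  rw [this, abs_neg, abs_of_nonneg (by apply div_nonneg <;> nlinarith), div_le_iff₀ (by positivity)]
  nlinarith [sq_nonneg (‖w‖ - 1/2)]

theorem norm_qw (q : ℂ) (hq : ‖q‖ = 1) (w : ℂ) : ‖conj q * w‖ = ‖w‖ := by
  rw [norm_mul, RCLike.norm_conj, hq, one_mul]

theorem im_ph_bound (q : ℂ) (hq : ‖q‖ = 1) {w : ℂ} (hw : w ∈ D) (h : 1 / 2 ≤ ‖w‖) :
    |(ph q w).im| ≤ 8 * (1 - ‖w‖) := by
  have h1 : ‖w‖ < 1 := by simpa using hw
  have hw0 : w ≠ 0 := by rintro rfl; norm_num at h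
  rw [im_ph q hw0, abs_mul]
  have h2 : |(conj q * w).im| ≤ 1 := (Complex.abs_im_le_norm _).trans (by rw [norm_qw q hq]; exact h1.le)
  calc _ ≤ 8 * (1 - ‖w‖) * 1 := mul_le_mul (tinv_bound hw h) h2 (abs_nonneg _) (by linarith)
    _ = _ := mul_one _

theorem re_wdph_bound (q : ℂ) (hq : ‖q‖ = 1) {w : ℂ} (hw : w ∈ D) (h : 1 / 2 ≤ ‖w‖) :
    |(w * dph q w).re| ≤ 8 * (1 - ‖w‖) := by
  have h1 : ‖w‖ < 1 := by simpa using hw
  have hw0 : w ≠ 0 := by rintro rfl; norm_num at h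
  rw [re_wdph q hw0, abs_mul]
  have h2 : |(conj q * w).re| ≤ 1 := (Complex.abs_re_le_norm _).trans (by rw [norm_qw q hq]; exact h1.le)
  calc _ ≤ 8 * (1 - ‖w‖) * 1 := mul_le_mul (tinv_bound hw h) h2 (abs_nonneg _) (by linarith)
    _ = _ := mul_one _

theorem norm_ph_le (q : ℂ) (hq : ‖q‖ = 1) {w : ℂ} (hw : w ∈ D) (hw0 : w ≠ 0) :
    ‖ph q w‖ ≤ 2 / ‖w‖ := by
  have h1 : ‖w‖ < 1 := by simpa using hw
  have hpos : 0 < ‖w‖ := norm_pos_iff.2 hw0
  unfold ph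
  calc ‖q / w + conj q * w‖ ≤ ‖q / w‖ + ‖conj q * w‖ := norm_add_le _ _
    _ = 1 / ‖w‖ + ‖w‖ := by rw [norm_div, hq, norm_qw q hq]
    _ ≤ 1 / ‖w‖ + 1 / ‖w‖ := by
        gcongr
        rw [le_div_iff₀ hpos]; nlinarith
    _ = 2 / ‖w‖ := by ring

theorem norm_dph_le (q : ℂ) (hq : ‖q‖ = 1) {w : ℂ} (hw : w ∈ D) (hw0 : w ≠ 0) :
    ‖dph q w‖ ≤ 2 / ‖w‖ ^ 2 := by
  have h1 : ‖w‖ < 1 := by simpa using hw
  have hpos : 0 < ‖w‖ := norm_pos_iff.2 hw0
  unfold dph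
  calc ‖-q / w ^ 2 + conj q‖ ≤ ‖-q / w ^ 2‖ + ‖conj q‖ := norm_add_le _ _
    _ = 1 / ‖w‖ ^ 2 + 1 := by rw [norm_div, norm_neg, hq, norm_pow, RCLike.norm_conj, hq]
    _ ≤ 1 / ‖w‖ ^ 2 + 1 / ‖w‖ ^ 2 := by
        gcongr
        rw [le_div_iff₀ (by positivity)]; nlinarith
    _ = 2 / ‖w‖ ^ 2 := by ring

/-- `Kf` as a product of differentiable pieces -/
theorem Kf_eq (f : ℂ → ℂ) (q w : ℂ) :
    Kf f q w = (1 / 2) * (((1 / 2) * ((ph q w - conj (ph q w)) * conj (f w))) * deriv f w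
      - (1 / 2) * ((f w * conj (f w)) * dph q w)) := by
  unfold Kf
  have h1 : ((ph q w).im : ℂ) = (ph q w - conj (ph q w)) / (2 * I) := by
    rw [Complex.sub_conj]
    field_simp
    push_cast
    ring
  have h2 : ((‖f w‖ ^ 2 : ℝ) : ℂ) = f w * conj (f w) := by
    rw [Complex.mul_conj, Complex.normSq_eq_norm_sq]
  rw [h1, h2]
  have hI : (I : ℂ) ≠ 0 := I_ne_zero
  field_simp

theorem db_Kf {f : ℂ → ℂ} (hf : Conf f) (q : ℂ) {w : ℂ} (hw : w ∈ D) (hw0 : w ≠ 0) :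
    db (Kf f q) w = tau f w * (ph q w - (chi f q w : ℂ)) := by
  have hfw := hf.dif hw
  have hf'w := hf.ddif hw
  have hp := dif_ph q hw0
  have hdp := dif_dph q hw0
  have hfR := hfw.restrictScalars ℝ
  have hf'R := hf'w.restrictScalars ℝ
  have hpR := hp.restrictScalars ℝ
  have hdpR := hdp.restrictScalars ℝ
  have hcf : DifferentiableAt ℝ (fun z => conj (f z)) w := (conjCLE_fderiv hfR).differentiableAt
  have hcp : DifferentiableAt ℝ (fun z => conj (ph q z)) w := (conjCLE_fderiv hpR).differentiableAt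
  have e : Kf f q = fun z => (1 / 2) * (((1 / 2) * ((ph q z - conj (ph q z)) * conj (f z))) * deriv f z
      - (1 / 2) * ((f z * conj (f z)) * dph q z)) := funext fun z => Kf_eq f q z
  have hderivf : deriv f w ≠ 0 := hf.dne w hw
  rw [e]
  rw [db_const_mul (1/2) (by fun_prop), db_sub (by fun_prop) (by fun_prop),
    db_mul (by fun_prop) hf'R, db_const_mul (1/2) (by fun_prop), db_mul (by fun_prop) hcf,
    db_sub hpR hcp, db_conj hpR, db_conj hfR, db_hol hp, db_hol hf'w, dd_hol hp, dd_hol hfw,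
    db_const_mul (1/2) (by fun_prop), db_mul (by fun_prop) hdpR, db_mul hfR hcf, db_conj hfR,
    db_hol hfw, db_hol hdp, dd_hol hfw, (hasDerivAt_ph q hw0).deriv]
  unfold tau chi
  have ht : ((‖deriv f w‖ ^ 2 : ℝ) : ℂ) = deriv f w * conj (deriv f w) := by
    rw [Complex.mul_conj, Complex.normSq_eq_norm_sq]
  have hre : (((ph q w + f w * dph q w / deriv f w).re : ℝ) : ℂ)
      = ((ph q w + f w * dph q w / deriv f w) + conj (ph q w + f w * dph q w / deriv f w)) / 2 := by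
    rw [Complex.add_conj]; push_cast; ring
  rw [ht, hre]
  have hc : conj (deriv f w) ≠ 0 := by simpa using hderivf
  simp only [map_add, map_mul, map_div₀, map_ofNat]
  field_simp
  ring

end Crest.Agent.HS
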