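import Crest.Agent.HS.Defs
set_option autoImplicit false
noncomputable section
namespace Crest.Agent.HS
open MeasureTheory Complex Metric Set
open scoped ComplexConjugate Topology

namespace Kap

/-- radial integral -/
lemma ball_int0 {R : ℝ} (hR : 0 < R) :
    ∫ p in ball (0 : ℂ) R, (‖p‖ ^ 2 - R ^ 2) = -(Real.pi * R ^ 4 / 2) := by
  have h1 : ∫ p in ball (0 : ℂ) R, (‖p‖ ^ 2 - R ^ 2)
      = ∫ p : ℂ, (Iio R).indicator (fun r : ℝ => r ^ 2 - R ^ 2) ‖p‖ := by
    rw [← integral_indicator measurableSet_ball]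
    congr 1
    ext p
    by_cases h : ‖p‖ < R
    · simp [indicator, h]
    · simp [indicator, h]
  rw [h1, integral_fun_norm_addHaar]
  have h2 : ∫ y in Ioi (0 : ℝ), y ^ (Module.finrank ℝ ℂ - 1) •
      (Iio R).indicator (fun r : ℝ => r ^ 2 - R ^ 2) y = ∫ y in (0 : ℝ)..R, (y ^ 3 - R ^ 2 * y) := by
    rw [intervalIntegral.integral_of_le hR.le, integral_Ioc_eq_integral_Ioo]
    have e : ∀ y : ℝ, y ^ (Module.finrank ℝ ℂ - 1) •
      (Iio R).indicator (fun r : ℝ => r ^ 2 - R ^ 2) y
        = (Iio R).indicator (fun r : ℝ => r ^ 3 - R ^ 2 * r) y := by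
      intro y
      by_cases h : y < R
      · simp [indicator, h, Complex.finrank_real_complex]; ring
      · simp [indicator, h]
    simp_rw [e]
    rw [setIntegral_indicator measurableSet_Iio]
    rfl
  rw [h2]
  rw [intervalIntegral.integral_sub (Continuous.intervalIntegrable (by fun_prop) _ _)
    (Continuous.intervalIntegrable (by fun_prop) _ _), integral_pow,
    intervalIntegral.integral_const_mul, integral_id]
  simp [Complex.finrank_real_complex, Measure.real, Complex.volume_ball]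
  ring

lemma ball_int {R : ℝ} (hR : 0 < R) (m : ℂ) :
    ∫ p in ball m R, (‖p - m‖ ^ 2 - R ^ 2) = -(Real.pi * R ^ 4 / 2) := by
  rw [← ball_int0 hR]
  rw [← integral_indicator measurableSet_ball, ← integral_indicator measurableSet_ball]
  rw [← integral_sub_right_eq_self (μ := volume)
    ((ball (0 : ℂ) R).indicator fun p => ‖p‖ ^ 2 - R ^ 2) m]
  congr 1
  ext p
  by_cases h : dist p m < R
  · have h' : ‖p - m‖ < R := by rwa [← dist_eq_norm]
    simp [indicator, h, h']
  · have h' : ¬ ‖p - m‖ < R := by rwa [← dist_eq_norm]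
    simp [indicator, h, h']

/-- bathtub -/
lemma bathtub {Ω : Set ℂ} (hΩ : MeasurableSet Ω) {A : ℝ} (hA : 0 < A)
    (hvol : volume Ω = ENNReal.ofReal A) (m : ℂ)
    (hint : IntegrableOn (fun p => ‖p - m‖ ^ 2) Ω) :
    A ^ 2 / (2 * Real.pi) ≤ ∫ p in Ω, ‖p - m‖ ^ 2 := by
  have hpi := Real.pi_pos
  set R : ℝ := Real.sqrt (A / Real.pi) with hRdef
  have hR2 : R ^ 2 = A / Real.pi := Real.sq_sqrt (by positivity)
  have hR : 0 < R := Real.sqrt_pos.mpr (by positivity)
  have hfin : volume Ω ≠ ⊤ := by rw [hvol]; exact ENNReal.ofReal_ne_top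
  have hconst : IntegrableOn (fun _ : ℂ => R ^ 2) Ω := integrableOn_const hfin
  have hsplit : ∫ p in Ω, (‖p - m‖ ^ 2 - R ^ 2) = (∫ p in Ω, ‖p - m‖ ^ 2) - R ^ 2 * A := by
    rw [integral_sub hint hconst]
    congr 1
    rw [setIntegral_const, Measure.real, hvol, ENNReal.toReal_ofReal hA.le, smul_eq_mul, mul_comm]
  have hgB : IntegrableOn (fun p => ‖p - m‖ ^ 2 - R ^ 2) (ball m R) := by
    have : IntegrableOn (fun p => ‖p - m‖ ^ 2 - R ^ 2) (closedBall m R) :=
      (Continuous.continuousOn (by fun_prop)).integrableOn_compact (isCompact_closedBall m R)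
    exact this.mono_set ball_subset_closedBall
  have hgΩ : IntegrableOn (fun p => ‖p - m‖ ^ 2 - R ^ 2) Ω := hint.sub hconst
  have hmain : ∫ p in ball m R, (‖p - m‖ ^ 2 - R ^ 2) ≤ ∫ p in Ω, (‖p - m‖ ^ 2 - R ^ 2) := by
    rw [← integral_indicator measurableSet_ball, ← integral_indicator hΩ]
    apply integral_mono
    · exact (integrable_indicator_iff measurableSet_ball).mpr hgB
    · exact (integrable_indicator_iff hΩ).mpr hgΩ
    intro p
    by_cases h1 : dist p m < R
    · have h1' : p ∈ ball m R := h1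
      have h3 : ‖p - m‖ < R := by rwa [← dist_eq_norm]
      have h2 : ‖p - m‖ ^ 2 - R ^ 2 ≤ 0 := by
        have : ‖p - m‖ ^ 2 ≤ R ^ 2 := pow_le_pow_left₀ (norm_nonneg _) h3.le 2
        linarith
      by_cases h4 : p ∈ Ω
      · simp only [indicator, h1', h4, if_true]; exact le_rfl
      · simp only [indicator, h1', h4, if_true, if_false]; exact h2
    · have h1' : p ∉ ball m R := h1
      have h3 : R ≤ ‖p - m‖ := by rw [← dist_eq_norm]; exact not_lt.mp h1
      have h2 : 0 ≤ ‖p - m‖ ^ 2 - R ^ 2 := by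
        have : R ^ 2 ≤ ‖p - m‖ ^ 2 := pow_le_pow_left₀ hR.le h3 2
        linarith
      by_cases h4 : p ∈ Ω
      · simp only [indicator, h1', h4, if_true, if_false]; exact h2
      · simp only [indicator, h1', h4, if_false]; exact le_rfl
  rw [ball_int hR m, hsplit] at hmain
  have hR4 : R ^ 4 = (A / Real.pi) ^ 2 := by rw [← hR2]; ring
  rw [hR4, hR2] at hmain
  have e1 : A / Real.pi * A - Real.pi * (A / Real.pi) ^ 2 / 2 = A ^ 2 / (2 * Real.pi) := by
    field_simp; ring
  linarith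

variable {f : ℂ → ℂ}

lemma hasDerivAt (hf : Conf f) {w : ℂ} (hw : w ∈ D) : HasDerivAt f (deriv f w) w :=
  ((hf.diff w hw).differentiableAt (isOpen_ball.mem_nhds hw)).hasDerivAt

lemma contDiffOn (hf : Conf f) : ContDiffOn ℝ 1 f D := by
  have h : ContDiffOn ℂ 1 f D := hf.diff.contDiffOn isOpen_ball
  exact h.restrict_scalars ℝ

lemma fderiv_re (hf : Conf f) (m : ℝ) {w : ℂ} (hw : w ∈ D) (v : ℂ) :
    fderiv ℝ (fun z => (f z).re - m) w v = (deriv f w * v).re := by
  have h1 : HasFDerivAt f ((deriv f w) • (1 : ℂ →L[ℝ] ℂ)) w :=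
    (hasDerivAt hf hw).complexToReal_fderiv
  have h2 := (Complex.reCLM.hasFDerivAt.comp w h1).sub_const m
  have h3 : HasFDerivAt (fun z => (f z).re - m)
      (Complex.reCLM.comp ((deriv f w) • (1 : ℂ →L[ℝ] ℂ))) w := h2
  rw [h3.fderiv]
  simp

lemma fderiv_im (hf : Conf f) (m : ℝ) {w : ℂ} (hw : w ∈ D) (v : ℂ) :
    fderiv ℝ (fun z => (f z).im - m) w v = (deriv f w * v).im := by
  have h1 : HasFDerivAt f ((deriv f w) • (1 : ℂ →L[ℝ] ℂ)) w :=
    (hasDerivAt hf hw).complexToReal_fderiv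
  have h2 := (Complex.imCLM.hasFDerivAt.comp w h1).sub_const m
  have h3 : HasFDerivAt (fun z => (f z).im - m)
      (Complex.imCLM.comp ((deriv f w) • (1 : ℂ →L[ℝ] ℂ))) w := h2
  rw [h3.fderiv]
  simp

lemma gr_re (hf : Conf f) (m : ℝ) {w : ℂ} (hw : w ∈ D) :
    ‖gr (fun z => (f z).re - m) w‖ ^ 2 = tau f w := by
  unfold gr tau
  rw [fderiv_re hf m hw, fderiv_re hf m hw, ← Complex.normSq_eq_norm_sq,
    ← Complex.normSq_eq_norm_sq, Complex.normSq_apply, Complex.normSq_apply]
  simp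

lemma gr_im (hf : Conf f) (m : ℝ) {w : ℂ} (hw : w ∈ D) :
    ‖gr (fun z => (f z).im - m) w‖ ^ 2 = tau f w := by
  unfold gr tau
  rw [fderiv_im hf m hw, fderiv_im hf m hw, ← Complex.normSq_eq_norm_sq,
    ← Complex.normSq_eq_norm_sq, Complex.normSq_apply, Complex.normSq_apply]
  simp
  ring

/-- `τ * g` integrable for bounded continuous `g` -/
lemma int_tau_mul (hf : Conf f) {g : ℂ → ℝ} (hg : ContinuousOn g D) {C : ℝ}
    (hC : ∀ w ∈ D, |g w| ≤ C) : IntegrableOn (fun w => tau f w * g w) D := by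
  have h1 : IntegrableOn (tau f) D := hf.area
  refine Integrable.mul_bdd (c := C) h1 ?_ ?_
  · exact hg.aestronglyMeasurable measurableSet_ball
  · refine (ae_restrict_iff' measurableSet_ball).mpr (Filter.Eventually.of_forall ?_)
    intro w hw
    rw [Real.norm_eq_abs]
    exact hC w hw

lemma bd_re (hf : Conf f) (m : ℝ) : ∃ C : ℝ, 0 ≤ C ∧ ∀ w ∈ D, |(f w).re - m| ≤ C := by
  obtain ⟨M, hM⟩ := hf.bdd
  refine ⟨|M| + |m|, by positivity, fun w hw => ?_⟩
  have h1 := hM w hw
  have h2 := Complex.abs_re_le_norm (f w)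
  have h3 := abs_sub (f w).re m
  have h4 := le_abs_self M
  linarith

lemma bd_im (hf : Conf f) (m : ℝ) : ∃ C : ℝ, 0 ≤ C ∧ ∀ w ∈ D, |(f w).im - m| ≤ C := by
  obtain ⟨M, hM⟩ := hf.bdd
  refine ⟨|M| + |m|, by positivity, fun w hw => ?_⟩
  have h1 := hM w hw
  have h2 := Complex.abs_im_le_norm (f w)
  have h3 := abs_sub (f w).im m
  have h4 := le_abs_self M
  linarith

lemma test_aux (hf : Conf f) {χ : ℂ → ℝ} (hc : ContDiffOn ℝ 1 χ D)
    (hg : ∀ w ∈ D, ‖gr χ w‖ ^ 2 = tau f w) (hb : ∃ C : ℝ, 0 ≤ C ∧ ∀ w ∈ D, |χ w| ≤ C) :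
    Test f χ := by
  obtain ⟨C, hC0, hC⟩ := hb
  refine ⟨hc, ?_, ?_⟩
  · exact (integrableOn_congr_fun (fun w hw => hg w hw) measurableSet_ball).mpr hf.area
  · refine int_tau_mul hf (g := fun w => χ w ^ 2) (C := C ^ 2) ?_ ?_
    · exact hc.continuousOn.pow 2
    · intro w hw
      rw [abs_pow]
      exact pow_le_pow_left₀ (abs_nonneg _) (hC w hw) 2

lemma test_re (hf : Conf f) (m : ℝ) : Test f (fun z => (f z).re - m) := by
  refine test_aux hf ?_ (fun w hw => gr_re hf m hw) (bd_re hf m)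
  have h := contDiffOn hf
  exact (Complex.reCLM.contDiff.comp_contDiffOn h).sub contDiffOn_const

lemma test_im (hf : Conf f) (m : ℝ) : Test f (fun z => (f z).im - m) := by
  refine test_aux hf ?_ (fun w hw => gr_im hf m hw) (bd_im hf m)
  have h := contDiffOn hf
  exact (Complex.imCLM.contDiff.comp_contDiffOn h).sub contDiffOn_const

lemma det_eq (a : ℂ) : (a • (1 : ℂ →L[ℝ] ℂ)).det = ‖a‖ ^ 2 := by
  have : ((a • (1 : ℂ →L[ℝ] ℂ) : ℂ →L[ℝ] ℂ) : ℂ →ₗ[ℝ] ℂ) = Algebra.lmul ℝ ℂ a := by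
    ext <;> simp
  rw [ContinuousLinearMap.det, this, ← Complex.normSq_eq_norm_sq, ← Algebra.norm_complex_apply]
  rfl

lemma cov (hf : Conf f) (g : ℂ → ℝ) :
    ∫ p in f '' D, g p = ∫ w in D, tau f w * g (f w) := by
  have h := integral_image_eq_integral_abs_det_fderiv_smul (μ := volume) (s := D)
    (f := f) (f' := fun w => (deriv f w) • (1 : ℂ →L[ℝ] ℂ)) measurableSet_ball
    (fun w hw => ((hasDerivAt hf hw).complexToReal_fderiv).hasFDerivWithinAt) hf.inj g
  rw [h]
  refine setIntegral_congr_fun measurableSet_ball (fun w _ => ?_)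
  simp only [det_eq, smul_eq_mul, tau]
  rw [abs_of_nonneg (by positivity)]

lemma cov_int (hf : Conf f) (g : ℂ → ℝ) :
    IntegrableOn g (f '' D) ↔ IntegrableOn (fun w => tau f w * g (f w)) D := by
  have h := integrableOn_image_iff_integrableOn_abs_det_fderiv_smul (μ := volume) (s := D)
    (f := f) (f' := fun w => (deriv f w) • (1 : ℂ →L[ℝ] ℂ)) measurableSet_ball
    (fun w hw => ((hasDerivAt hf hw).complexToReal_fderiv).hasFDerivWithinAt) hf.inj g
  rw [h]
  refine integrableOn_congr_fun (fun w _ => ?_) measurableSet_ball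
  simp only [det_eq, smul_eq_mul, tau]
  rw [abs_of_nonneg (by positivity)]

lemma meas_image (hf : Conf f) : MeasurableSet (f '' D) :=
  measurable_image_of_fderivWithin measurableSet_ball
    (f' := fun w => (deriv f w) • (1 : ℂ →L[ℝ] ℂ))
    (fun w hw => ((hasDerivAt hf hw).complexToReal_fderiv).hasFDerivWithinAt) hf.inj

end Kap

open Kap in
/-- `κ |Ω| ≤ 4π` -/
theorem kappa_le {f : ℂ → ℂ} {κ : ℝ} (hf : Conf f) (hκ : 0 < κ) (hP : Poin f κ) :
    κ * ∫ w in D, tau f w ≤ 4 * Real.pi := by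
  have hpi := Real.pi_pos
  set A : ℝ := ∫ w in D, tau f w with hAdef
  have hA0 : 0 ≤ A := integral_nonneg (fun w => by unfold tau; positivity)
  rcases hA0.eq_or_lt with h0 | hA
  · rw [← h0]; simp; positivity
  have hcont : ContinuousOn f D := hf.diff.continuousOn
  set m1 : ℝ := (∫ w in D, tau f w * (f w).re) / A with hm1
  set m2 : ℝ := (∫ w in D, tau f w * (f w).im) / A with hm2
  -- integrability
  have hi1 : IntegrableOn (fun w => tau f w * (f w).re) D := by
    obtain ⟨C, _, hC⟩ := bd_re hf 0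
    refine int_tau_mul hf (Complex.continuous_re.comp_continuousOn hcont) (C := C) ?_
    intro w hw; simpa using hC w hw
  have hi2 : IntegrableOn (fun w => tau f w * (f w).im) D := by
    obtain ⟨C, _, hC⟩ := bd_im hf 0
    refine int_tau_mul hf (Complex.continuous_im.comp_continuousOn hcont) (C := C) ?_
    intro w hw; simpa using hC w hw
  have hiA : IntegrableOn (tau f) D := hf.area
  have hmean1 : ∫ w in D, tau f w * ((f w).re - m1) = 0 := by
    have e : ∀ w, tau f w * ((f w).re - m1) = tau f w * (f w).re - tau f w * m1 := by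
      intro w; ring
    simp_rw [e]
    rw [integral_sub hi1 (hiA.mul_const m1), integral_mul_const, ← hAdef, hm1]
    field_simp
    ring
  have hmean2 : ∫ w in D, tau f w * ((f w).im - m2) = 0 := by
    have e : ∀ w, tau f w * ((f w).im - m2) = tau f w * (f w).im - tau f w * m2 := by
      intro w; ring
    simp_rw [e]
    rw [integral_sub hi2 (hiA.mul_const m2), integral_mul_const, ← hAdef, hm2]
    field_simp
    ring
  have hp1 := hP _ (test_re hf m1) hmean1
  have hp2 := hP _ (test_im hf m2) hmean2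
  have hg1 : ∫ w in D, ‖gr (fun z => (f z).re - m1) w‖ ^ 2 = A :=
    setIntegral_congr_fun measurableSet_ball (fun w hw => gr_re hf m1 hw)
  have hg2 : ∫ w in D, ‖gr (fun z => (f z).im - m2) w‖ ^ 2 = A :=
    setIntegral_congr_fun measurableSet_ball (fun w hw => gr_im hf m2 hw)
  rw [hg1] at hp1
  rw [hg2] at hp2
  set m : ℂ := ⟨m1, m2⟩ with hm
  have hsum : ∫ w in D, tau f w * ‖f w - m‖ ^ 2
      = (∫ w in D, tau f w * ((f w).re - m1) ^ 2) + ∫ w in D, tau f w * ((f w).im - m2) ^ 2 := by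
    rw [← integral_add (test_re hf m1).l2 (test_im hf m2).l2]
    refine setIntegral_congr_fun measurableSet_ball (fun w _ => ?_)
    change tau f w * ‖f w - m‖ ^ 2 = _
    rw [← Complex.normSq_eq_norm_sq, Complex.normSq_apply]
    simp [hm]
    ring
  have hintsum : IntegrableOn (fun w => tau f w * ‖f w - m‖ ^ 2) D := by
    have h := (test_re hf m1).l2.add (test_im hf m2).l2
    refine (integrableOn_congr_fun (fun w _ => ?_) measurableSet_ball).mp h
    simp only [Pi.add_apply]
    rw [← Complex.normSq_eq_norm_sq, Complex.normSq_apply]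
    simp [hm]
    ring
  have hvol : volume (f '' D) = ENNReal.ofReal A := by
    have h := cov hf (fun _ => 1)
    simp only [mul_one] at h
    rw [← hAdef] at h
    have hfin : IntegrableOn (fun _ : ℂ => (1 : ℝ)) (f '' D) :=
      (cov_int hf (fun _ => 1)).mpr (by simpa using hiA)
    have hlt : volume (f '' D) < ⊤ := by
      have := (integrableOn_const_iff (μ := volume) (s := f '' D) (C := (1 : ℝ))).mp hfin
      rcases this with h | h
      · simp at h
      · exact h
    rw [setIntegral_const, smul_eq_mul, mul_one] at h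
    rw [← h, Measure.real, ENNReal.ofReal_toReal hlt.ne]
  have hb := bathtub (meas_image hf) hA hvol m
    ((cov_int hf (fun p => ‖p - m‖ ^ 2)).mpr hintsum)
  rw [cov hf (fun p => ‖p - m‖ ^ 2), hsum] at hb
  have h1 : κ * (A ^ 2 / (2 * Real.pi)) ≤ 2 * A := by
    have := mul_le_mul_of_nonneg_left hb hκ.le
    rw [mul_add] at this
    linarith
  have h2 : κ * A * A ≤ 4 * Real.pi * A := by
    have h3 : κ * (A ^ 2 / (2 * Real.pi)) * (2 * Real.pi) = κ * A * A := by
      field_simp
    have := mul_le_mul_of_nonneg_right h1 (show (0 : ℝ) ≤ 2 * Real.pi by positivity)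
    rw [h3] at this
    linarith
  exact le_of_mul_le_mul_right h2 hA

end Crest.Agent.HS
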