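import Crest.Agent.HS.Area
import Crest.Agent.HS.Block
set_option autoImplicit false
noncomputable section
namespace Crest.Agent.HS
open MeasureTheory Complex Metric Set
open scoped ComplexConjugate Topology

theorem md_coef {f : ℂ → ℂ} (hf : DifferentiableOn ℂ f D) {a : ℕ → ℂ} (ha : Coef f a) (n : ℕ) :
    iteratedDeriv (n + 1) f 0 = ((n + 1).factorial : ℂ) * a n := by
  set b : ℕ → ℂ := fun n => Nat.casesOn n 0 a with hb
  have h1 : HasFPowerSeriesAt f (FormalMultilinearSeries.ofScalars ℂ b) 0 := by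
    rw [hasFPowerSeriesAt_iff]
    filter_upwards [ball_mem_nhds (0 : ℂ) one_pos] with z hz
    rw [zero_add]
    have h2 := ha z hz
    have h3 : HasSum (fun n => b n * z ^ n) (f z) := by
      rw [← hasSum_nat_add_iff' 1]
      simpa [hb] using h2
    simpa [FormalMultilinearSeries.coeff_ofScalars, mul_comm] using h3
  have h2 : AnalyticAt ℂ f 0 := hf.analyticAt (ball_mem_nhds (0 : ℂ) one_pos)
  have h3 := h2.hasFPowerSeriesAt
  have h4 := h1.eq_formalMultilinearSeries h3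
  have h5 := congrArg (fun p => FormalMultilinearSeries.coeff p (n + 1)) h4
  simp only [FormalMultilinearSeries.coeff_ofScalars] at h5
  have h6 : b (n + 1) = a n := rfl
  rw [h6] at h5
  rw [h5]
  have : ((n + 1).factorial : ℂ) ≠ 0 := by exact_mod_cast (Nat.factorial_pos _).ne'
  field_simp

theorem md_deriv {f : ℂ → ℂ} (hf : DifferentiableOn ℂ f D) {a : ℕ → ℂ} (ha : Coef f a) {w : ℂ}
    (hw : w ∈ D) : HasSum (fun m : ℕ => ((m : ℂ) + 1) * a m * w ^ m) (deriv f w) := by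
  have h1 : DifferentiableOn ℂ (deriv f) D := (hf.analyticOnNhd isOpen_ball).deriv.differentiableOn
  have h2 := Complex.hasSum_taylorSeries_on_ball h1 hw
  have h3 : (fun m : ℕ => ((m : ℂ) + 1) * a m * w ^ m) = fun n : ℕ =>
      ((n.factorial : ℂ))⁻¹ • (w - 0) ^ n • iteratedDeriv n (deriv f) 0 := by
    funext n
    have h4 : iteratedDeriv n (deriv f) 0 = ((n + 1).factorial : ℂ) * a n := by
      rw [← md_coef hf ha n, iteratedDeriv_succ']
    have h5 : (n.factorial : ℂ) ≠ 0 := by exact_mod_cast (Nat.factorial_pos _).ne'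
    rw [h4, sub_zero, smul_eq_mul, smul_eq_mul, Nat.factorial_succ]
    push_cast
    field_simp
  rw [h3]
  exact h2

theorem md_hh {f : ℂ → ℂ} (hf : DifferentiableOn ℂ f D) (h0 : f 0 = 0) {a : ℕ → ℂ} (ha : Coef f a)
    {w : ℂ} (hw : w ∈ D) : HasSum (fun m : ℕ => a m * w ^ m) (hh f w) := by
  by_cases h : w = 0
  · subst h
    have h1 := md_deriv hf ha (w := 0) hw
    have h2 : hh f 0 = deriv f 0 := dslope_same _ _
    rw [h2]
    have h3 : HasSum (fun m : ℕ => ((m : ℂ) + 1) * a m * 0 ^ m) (a 0) := by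
      have := hasSum_single (f := fun m : ℕ => ((m : ℂ) + 1) * a m * 0 ^ m) 0 (by
        intro m hm; simp [hm])
      simpa using this
    have h4 : HasSum (fun m : ℕ => a m * 0 ^ m) (a 0) := by
      have := hasSum_single (f := fun m : ℕ => a m * (0 : ℂ) ^ m) 0 (by
        intro m hm; simp [hm])
      simpa using this
    rwa [h1.unique h3]
  · have h1 : hh f w = f w / w := by
      unfold hh
      rw [dslope_of_ne _ h, slope_def_field, h0, sub_zero, sub_zero]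
    rw [h1]
    have h2 := (ha w hw).div_const w
    have h3 : (fun m : ℕ => a m * w ^ m) = fun m : ℕ => a m * w ^ (m + 1) / w := by
      funext m
      rw [pow_succ, mul_div_assoc, mul_div_assoc, div_self h, mul_one]
    rw [h3]
    exact h2

theorem md_cauchy {b c : ℕ → ℂ} {g h w : ℂ}
    (hg : HasSum (fun m => b m * w ^ m) g) (hh : HasSum (fun m => c m * w ^ m) h) :
    HasSum (fun m => (∑ p ∈ Finset.HasAntidiagonal.antidiagonal m, b p.1 * c p.2) * w ^ m) (g * h) := by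
  have h1 : Summable fun m => ‖b m * w ^ m‖ := hg.summable.norm
  have h2 : Summable fun m => ‖c m * w ^ m‖ := hh.summable.norm
  have h3 := (summable_norm_sum_mul_antidiagonal_of_summable_norm h1 h2).of_norm
  have h4 := tsum_mul_tsum_eq_tsum_sum_antidiagonal_of_summable_norm h1 h2
  rw [hg.tsum_eq, hh.tsum_eq] at h4
  rw [h4]
  have h5 : (fun m => (∑ p ∈ Finset.HasAntidiagonal.antidiagonal m, b p.1 * c p.2) * w ^ m) =
      fun n => ∑ kl ∈ Finset.HasAntidiagonal.antidiagonal n, b kl.1 * w ^ kl.1 * (c kl.2 * w ^ kl.2) := by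
    funext n
    rw [Finset.sum_mul]
    refine Finset.sum_congr rfl (fun p hp => ?_)
    rw [Finset.HasAntidiagonal.mem_antidiagonal] at hp
    rw [← hp, pow_add]
    ring
  rw [h5]
  exact h3.hasSum

theorem md_c2 (a : ℕ → ℂ) (m : ℕ) :
    ∑ p ∈ Finset.HasAntidiagonal.antidiagonal m, a p.1 * (((p.2 : ℂ) + 1) * a p.2) =
      (((m : ℂ) + 2) / 2) * cc a m := by
  have h1 : ∑ p ∈ Finset.HasAntidiagonal.antidiagonal m, a p.1 * (((p.2 : ℂ) + 1) * a p.2) =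
      ∑ p ∈ Finset.HasAntidiagonal.antidiagonal m, a p.2 * (((p.1 : ℂ) + 1) * a p.1) :=
    (Finset.Nat.sum_antidiagonal_swap (f := fun p : ℕ × ℕ => a p.1 * (((p.2 : ℂ) + 1) * a p.2))).symm
  have h2 : ∑ p ∈ Finset.HasAntidiagonal.antidiagonal m, a p.1 * (((p.2 : ℂ) + 1) * a p.2) +
      ∑ p ∈ Finset.HasAntidiagonal.antidiagonal m, a p.1 * (((p.2 : ℂ) + 1) * a p.2) =
      ((m : ℂ) + 2) * cc a m := by
    nth_rw 2 [h1]
    rw [← Finset.sum_add_distrib]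
    unfold cc
    rw [Finset.mul_sum]
    refine Finset.sum_congr rfl (fun p hp => ?_)
    rw [Finset.HasAntidiagonal.mem_antidiagonal] at hp
    rw [← hp]
    push_cast
    ring
  linear_combination (1 / 2 : ℂ) * h2

/-- majorant -/
def mdR (a : ℕ → ℂ) (m : ℕ) : ℝ :=
  ∑ p ∈ Finset.HasAntidiagonal.antidiagonal m,
    (((p.1 : ℝ) + 1) * ‖a p.1‖ ^ 2) * (((p.2 : ℝ) + 1) * ‖a p.2‖ ^ 2)

theorem mdR_nonneg (a : ℕ → ℂ) (m : ℕ) : 0 ≤ mdR a m :=
  Finset.sum_nonneg (fun p _ => by positivity)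

theorem mdR_summable {a : ℕ → ℂ} (h : Summable fun j : ℕ => ((j : ℝ) + 1) * ‖a j‖ ^ 2) :
    Summable (mdR a) := by
  have h1 : Summable fun j : ℕ => ‖((j : ℝ) + 1) * ‖a j‖ ^ 2‖ := h.norm
  exact (summable_norm_sum_mul_antidiagonal_of_summable_norm h1 h1).of_norm

theorem md_cc (a : ℕ → ℂ) (m : ℕ) : ‖cc a m‖ ^ 2 ≤ mdR a m := by
  have h1 : ‖cc a m‖ ≤ ∑ p ∈ Finset.HasAntidiagonal.antidiagonal m, ‖a p.1‖ * ‖a p.2‖ := by
    refine (norm_sum_le _ _).trans (le_of_eq ?_)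
    exact Finset.sum_congr rfl (fun p _ => norm_mul _ _)
  calc ‖cc a m‖ ^ 2 ≤ (∑ p ∈ Finset.HasAntidiagonal.antidiagonal m, ‖a p.1‖ * ‖a p.2‖) ^ 2 := by
        gcongr
    _ ≤ ((Finset.HasAntidiagonal.antidiagonal m).card : ℝ) *
        ∑ p ∈ Finset.HasAntidiagonal.antidiagonal m, (‖a p.1‖ * ‖a p.2‖) ^ 2 :=
        sq_sum_le_card_mul_sum_sq
    _ ≤ mdR a m := by
        rw [Finset.Nat.card_antidiagonal, Finset.mul_sum]
        refine Finset.sum_le_sum (fun p hp => ?_)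
        rw [Finset.HasAntidiagonal.mem_antidiagonal] at hp
        have h2 : ((m + 1 : ℕ) : ℝ) ≤ ((p.1 : ℝ) + 1) * ((p.2 : ℝ) + 1) := by
          rw [← hp]; push_cast; nlinarith [Nat.cast_nonneg (α := ℝ) p.1, Nat.cast_nonneg (α := ℝ) p.2,
            mul_nonneg (Nat.cast_nonneg (α := ℝ) p.1) (Nat.cast_nonneg (α := ℝ) p.2)]
        calc ((m + 1 : ℕ) : ℝ) * (‖a p.1‖ * ‖a p.2‖) ^ 2 ≤
            (((p.1 : ℝ) + 1) * ((p.2 : ℝ) + 1)) * (‖a p.1‖ * ‖a p.2‖) ^ 2 := by gcongr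
          _ = _ := by ring

theorem md_dc (a : ℕ → ℂ) (m : ℕ) : ‖dc a m‖ ^ 2 ≤ ((m : ℝ) + 1) ^ 3 * mdR a m := by
  have h1 : ‖dc a m‖ ≤ ∑ p ∈ Finset.HasAntidiagonal.antidiagonal m,
      ((p.1 : ℝ) + 1) * ((p.2 : ℝ) + 1) * (‖a p.1‖ * ‖a p.2‖) := by
    refine (norm_sum_le _ _).trans (le_of_eq ?_)
    refine Finset.sum_congr rfl (fun p _ => ?_)
    rw [norm_mul, norm_mul, norm_mul]
    have e : ∀ k : ℕ, ‖(k : ℂ) + 1‖ = (k : ℝ) + 1 := by
      intro k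
      have : ((k : ℂ) + 1) = ((k + 1 : ℕ) : ℂ) := by push_cast; ring
      rw [this, Complex.norm_natCast]; push_cast; ring
    rw [e, e]
  calc ‖dc a m‖ ^ 2 ≤ (∑ p ∈ Finset.HasAntidiagonal.antidiagonal m,
        ((p.1 : ℝ) + 1) * ((p.2 : ℝ) + 1) * (‖a p.1‖ * ‖a p.2‖)) ^ 2 := by
        gcongr
    _ ≤ ((Finset.HasAntidiagonal.antidiagonal m).card : ℝ) *
        ∑ p ∈ Finset.HasAntidiagonal.antidiagonal m,
          (((p.1 : ℝ) + 1) * ((p.2 : ℝ) + 1) * (‖a p.1‖ * ‖a p.2‖)) ^ 2 :=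
        sq_sum_le_card_mul_sum_sq
    _ ≤ ((m : ℝ) + 1) ^ 3 * mdR a m := by
        rw [Finset.Nat.card_antidiagonal]
        unfold mdR
        rw [Finset.mul_sum, Finset.mul_sum]
        refine Finset.sum_le_sum (fun p hp => ?_)
        rw [Finset.HasAntidiagonal.mem_antidiagonal] at hp
        have h2 : ((p.1 : ℝ) + 1) * ((p.2 : ℝ) + 1) ≤ ((m : ℝ) + 1) ^ 2 := by
          rw [← hp]; push_cast; nlinarith [Nat.cast_nonneg (α := ℝ) p.1, Nat.cast_nonneg (α := ℝ) p.2,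
            mul_nonneg (Nat.cast_nonneg (α := ℝ) p.1) (Nat.cast_nonneg (α := ℝ) p.2)]
        have h3 : (0 : ℝ) ≤ ((p.1 : ℝ) + 1) * ((p.2 : ℝ) + 1) * (‖a p.1‖ * ‖a p.2‖) ^ 2 := by
          positivity
        push_cast
        calc ((m : ℝ) + 1) * (((p.1 : ℝ) + 1) * ((p.2 : ℝ) + 1) * (‖a p.1‖ * ‖a p.2‖)) ^ 2
            = ((m : ℝ) + 1) * ((((p.1 : ℝ) + 1) * ((p.2 : ℝ) + 1)) *
              (((p.1 : ℝ) + 1) * ((p.2 : ℝ) + 1) * (‖a p.1‖ * ‖a p.2‖) ^ 2)) := by ring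
          _ ≤ ((m : ℝ) + 1) * (((m : ℝ) + 1) ^ 2 *
              (((p.1 : ℝ) + 1) * ((p.2 : ℝ) + 1) * (‖a p.1‖ * ‖a p.2‖) ^ 2)) := by gcongr
          _ = _ := by ring


theorem md_pow (n : ℕ) : ∫ t in (0 : ℝ)..1, t ^ n = 1 / ((n : ℝ) + 1) := by
  rw [integral_pow]
  simp

theorem md_int (k m : ℕ) (hk : k ≤ 2) :
    ∫ t in (0 : ℝ)..1, t ^ m * (1 - t) ^ k ≤ 2 / ((m : ℝ) + 1) ^ (k + 1) := by
  have hi : ∀ n : ℕ, IntervalIntegrable (fun t : ℝ => t ^ n) volume 0 1 := fun n =>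
    (continuous_pow n).intervalIntegrable _ _
  have hm : (0 : ℝ) ≤ m := Nat.cast_nonneg m
  interval_cases k
  · have : (fun t : ℝ => t ^ m * (1 - t) ^ 0) = fun t => t ^ m := by funext t; ring
    rw [this, md_pow]
    rw [zero_add, pow_one]
    gcongr
    norm_num
  · have : (fun t : ℝ => t ^ m * (1 - t) ^ 1) = fun t => t ^ m - t ^ (m + 1) := by funext t; ring
    rw [this, intervalIntegral.integral_sub (hi _) (hi _), md_pow, md_pow]
    push_cast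
    rw [div_sub_div _ _ (by positivity) (by positivity), div_le_div_iff₀ (by positivity) (by positivity)]
    nlinarith [pow_nonneg hm 2, pow_nonneg hm 3]
  · have : (fun t : ℝ => t ^ m * (1 - t) ^ 2) = fun t => (t ^ m - 2 * t ^ (m + 1)) + t ^ (m + 2) := by
      funext t; ring
    rw [this, intervalIntegral.integral_add (((hi _).sub ((hi _).const_mul _))) (hi _),
      intervalIntegral.integral_sub (hi _) ((hi _).const_mul _),
      intervalIntegral.integral_const_mul, md_pow, md_pow, md_pow]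
    push_cast
    have e : 1 / ((m : ℝ) + 1) - 2 * (1 / ((m : ℝ) + 1 + 1)) + 1 / ((m : ℝ) + 2 + 1) =
        2 / (((m : ℝ) + 1) * ((m : ℝ) + 2) * ((m : ℝ) + 3)) := by
      have h1 : (m : ℝ) + 1 ≠ 0 := by positivity
      have h2 : (m : ℝ) + 2 ≠ 0 := by positivity
      have h3 : (m : ℝ) + 3 ≠ 0 := by positivity
      have h4 : (m : ℝ) + 1 + 1 = m + 2 := by ring
      have h5 : (m : ℝ) + 2 + 1 = m + 3 := by ring
      rw [h4, h5]
      field_simp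
      ring
    rw [e]
    refine div_le_div_of_nonneg_left (by norm_num) (by positivity) ?_
    nlinarith [pow_nonneg hm 2, pow_nonneg hm 3]

theorem md_summ (k : ℕ) (hk : k ≤ 2) (q : ℝ → ℝ) (hq : Continuous q) (b : ℕ → ℂ) (R : ℕ → ℝ)
    (hR : Summable R) (hR0 : ∀ m, 0 ≤ R m)
    (hb : ∀ m, ‖b m‖ ^ 2 ≤ ((m : ℝ) + 1) ^ (k + 1) * R m) :
    Summable fun m => ‖b m‖ ^ 2 * ∫ t in (0 : ℝ)..1, t ^ m * |(1 - t) ^ k * q t| := by
  obtain ⟨C, hC⟩ := isCompact_Icc.exists_bound_of_continuousOn (s := Icc (0 : ℝ) 1) hq.continuousOn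
  have hC0 : 0 ≤ C := (norm_nonneg _).trans (hC 0 ⟨le_rfl, zero_le_one⟩)
  have hc1 : ∀ m : ℕ, Continuous fun t : ℝ => t ^ m * |(1 - t) ^ k * q t| := by
    intro m; fun_prop
  have hc2 : ∀ m : ℕ, Continuous fun t : ℝ => t ^ m * (1 - t) ^ k := by
    intro m; fun_prop
  have h0 : ∀ m : ℕ, 0 ≤ ∫ t in (0 : ℝ)..1, t ^ m * |(1 - t) ^ k * q t| := by
    intro m
    refine intervalIntegral.integral_nonneg zero_le_one (fun t ht => ?_)
    exact mul_nonneg (pow_nonneg ht.1 _) (abs_nonneg _)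
  have h1 : ∀ m : ℕ, ∫ t in (0 : ℝ)..1, t ^ m * |(1 - t) ^ k * q t| ≤
      C * (2 / ((m : ℝ) + 1) ^ (k + 1)) := by
    intro m
    refine le_trans ?_ (mul_le_mul_of_nonneg_left (md_int k m hk) hC0)
    rw [← intervalIntegral.integral_const_mul]
    refine intervalIntegral.integral_mono_on zero_le_one ((hc1 m).intervalIntegrable _ _)
      ((continuous_const.mul (hc2 m)).intervalIntegrable _ _) (fun t ht => ?_)
    have h2 : (0 : ℝ) ≤ (1 - t) ^ k := pow_nonneg (by linarith [ht.2]) _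
    rw [abs_mul, abs_of_nonneg h2]
    have h3 : |q t| ≤ C := hC t ht
    have h4 : (0 : ℝ) ≤ t ^ m := pow_nonneg ht.1 _
    calc t ^ m * ((1 - t) ^ k * |q t|) ≤ t ^ m * ((1 - t) ^ k * C) := by gcongr
      _ = _ := by ring
  refine Summable.of_nonneg_of_le (fun m => mul_nonneg (sq_nonneg _) (h0 m)) (fun m => ?_)
    (hR.mul_left (2 * C))
  calc ‖b m‖ ^ 2 * ∫ t in (0 : ℝ)..1, t ^ m * |(1 - t) ^ k * q t|
      ≤ (((m : ℝ) + 1) ^ (k + 1) * R m) * (C * (2 / ((m : ℝ) + 1) ^ (k + 1))) :=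
        mul_le_mul (hb m) (h1 m) (h0 m) (mul_nonneg (by positivity) (hR0 m))
    _ = 2 * C * R m := by
        have : ((m : ℝ) + 1) ^ (k + 1) ≠ 0 := by positivity
        field_simp

theorem md_pars (k : ℕ) (hk : k ≤ 2) (q : ℝ → ℝ) (hq : Continuous q) (R : ℕ → ℝ)
    (hR : Summable R) (hR0 : ∀ m, 0 ≤ R m) (g h : ℂ → ℂ) (b c : ℕ → ℂ)
    (hg : ∀ w ∈ D, HasSum (fun m => b m * w ^ m) (g w))
    (hh : ∀ w ∈ D, HasSum (fun m => c m * w ^ m) (h w))
    (hb : ∀ m, ‖b m‖ ^ 2 ≤ ((m : ℝ) + 1) ^ (k + 1) * R m)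
    (hc : ∀ m, ‖c m‖ ^ 2 ≤ ((m : ℝ) + 1) ^ (k + 1) * R m) :
    IntegrableOn (fun w => ((1 - tt w) ^ k * q (tt w)) * (g w * conj (h w)).re) D ∧
    HasSum (fun m => Real.pi * (b m * conj (c m)).re *
      ∫ t in (0 : ℝ)..1, t ^ m * ((1 - t) ^ k * q t))
      (∫ w in D, ((1 - tt w) ^ k * q (tt w)) * (g w * conj (h w)).re) :=
  pars2 g h b c hg hh (fun t => (1 - t) ^ k * q t) (by fun_prop)
    (md_summ k hk q hq b R hR hR0 hb) (md_summ k hk q hq c R hR hR0 hc)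

theorem md_int6 {A1 A2 A3 A4 A5 A6 : ℂ → ℝ} (I1 : IntegrableOn A1 D) (I2 : IntegrableOn A2 D)
    (I3 : IntegrableOn A3 D) (I4 : IntegrableOn A4 D) (I5 : IntegrableOn A5 D)
    (I6 : IntegrableOn A6 D) :
    ∫ w in D, (A1 w + A2 w + A3 w + A4 w + A5 w + A6 w) =
      (∫ w in D, A1 w) + (∫ w in D, A2 w) + (∫ w in D, A3 w) + (∫ w in D, A4 w) +
        (∫ w in D, A5 w) + ∫ w in D, A6 w := by
  have e1 : ∫ w in D, (A1 w + A2 w) = (∫ w in D, A1 w) + ∫ w in D, A2 w := integral_add I1 I2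
  have e2 : ∫ w in D, (A1 w + A2 w + A3 w) = (∫ w in D, (A1 w + A2 w)) + ∫ w in D, A3 w :=
    integral_add (I1.add I2) I3
  have e3 : ∫ w in D, (A1 w + A2 w + A3 w + A4 w) =
      (∫ w in D, (A1 w + A2 w + A3 w)) + ∫ w in D, A4 w := integral_add ((I1.add I2).add I3) I4
  have e4 : ∫ w in D, (A1 w + A2 w + A3 w + A4 w + A5 w) =
      (∫ w in D, (A1 w + A2 w + A3 w + A4 w)) + ∫ w in D, A5 w :=
    integral_add (((I1.add I2).add I3).add I4) I5
  have e5 : ∫ w in D, (A1 w + A2 w + A3 w + A4 w + A5 w + A6 w) =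
      (∫ w in D, (A1 w + A2 w + A3 w + A4 w + A5 w)) + ∫ w in D, A6 w :=
    integral_add ((((I1.add I2).add I3).add I4).add I5) I6
  rw [e5, e4, e3, e2, e1]

/-- the six basic terms -/
def mdW (f : ℂ → ℂ) (q1 q2 q3 q4 q5 q6 : ℝ → ℝ) (w : ℂ) : ℝ :=
  ((1 - tt w) ^ 0 * q1 (tt w)) * ((hh f w * hh f w) * conj (hh f w * hh f w)).re +
  ((1 - tt w) ^ 1 * q2 (tt w)) * ((hh f w * deriv f w) * conj (hh f w * deriv f w)).re +
  ((1 - tt w) ^ 2 * q3 (tt w)) * ((deriv f w * deriv f w) * conj (deriv f w * deriv f w)).re +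
  ((1 - tt w) ^ 1 * q4 (tt w)) * ((hh f w * deriv f w) * conj (hh f w * hh f w)).re +
  ((1 - tt w) ^ 2 * q5 (tt w)) * ((deriv f w * deriv f w) * conj (hh f w * deriv f w)).re +
  ((1 - tt w) ^ 2 * q6 (tt w)) * ((deriv f w * deriv f w) * conj (hh f w * hh f w)).re

theorem md_six {f : ℂ → ℂ} (hf : Conf f) (a : ℕ → ℂ) (ha : Coef f a)
    (q1 q2 q3 q4 q5 q6 : ℝ → ℝ) (h1 : Continuous q1) (h2 : Continuous q2) (h3 : Continuous q3)
    (h4 : Continuous q4) (h5 : Continuous q5) (h6 : Continuous q6) :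
    IntegrableOn (mdW f q1 q2 q3 q4 q5 q6) D ∧
    HasSum (fun m : ℕ => Real.pi * (
      (∫ t in (0 : ℝ)..1, t ^ m * ((1 - t) ^ 0 * q1 t)) * ‖cc a m‖ ^ 2 +
      (((m : ℝ) + 2) / 2) ^ 2 * (∫ t in (0 : ℝ)..1, t ^ m * ((1 - t) ^ 1 * q2 t)) * ‖cc a m‖ ^ 2 +
      (∫ t in (0 : ℝ)..1, t ^ m * ((1 - t) ^ 2 * q3 t)) * ‖dc a m‖ ^ 2 +
      (((m : ℝ) + 2) / 2) * (∫ t in (0 : ℝ)..1, t ^ m * ((1 - t) ^ 1 * q4 t)) * ‖cc a m‖ ^ 2 +
      (((m : ℝ) + 2) / 2) * (∫ t in (0 : ℝ)..1, t ^ m * ((1 - t) ^ 2 * q5 t)) *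
        (dc a m * conj (cc a m)).re +
      (∫ t in (0 : ℝ)..1, t ^ m * ((1 - t) ^ 2 * q6 t)) * (dc a m * conj (cc a m)).re))
      (∫ w in D, mdW f q1 q2 q3 q4 q5 q6 w) := by
  have hs : Summable fun j : ℕ => ((j : ℝ) + 1) * ‖a j‖ ^ 2 := by
    have := (area_sum hf a ha).summable.mul_left (Real.pi⁻¹)
    refine this.congr (fun j => ?_)
    have hp := Real.pi_pos.ne'
    field_simp
  have hR := mdR_summable hs
  have hR0 := mdR_nonneg a
  have hm : ∀ m : ℕ, (1 : ℝ) ≤ (m : ℝ) + 1 := fun m => by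
    have := Nat.cast_nonneg (α := ℝ) m; linarith
  -- power series
  have P1 : ∀ w ∈ D, HasSum (fun m : ℕ => cc a m * w ^ m) (hh f w * hh f w) := fun w hw =>
    md_cauchy (md_hh hf.diff hf.zero ha hw) (md_hh hf.diff hf.zero ha hw)
  have P2 : ∀ w ∈ D, HasSum (fun m : ℕ => ((((m : ℂ) + 2) / 2) * cc a m) * w ^ m)
      (hh f w * deriv f w) := by
    intro w hw
    have := md_cauchy (md_hh hf.diff hf.zero ha hw) (md_deriv hf.diff ha hw)
    simp only [md_c2] at this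
    exact this
  have P3 : ∀ w ∈ D, HasSum (fun m : ℕ => dc a m * w ^ m) (deriv f w * deriv f w) := by
    intro w hw
    have := md_cauchy (md_deriv hf.diff ha hw) (md_deriv hf.diff ha hw)
    have e : (fun m : ℕ => dc a m * w ^ m) = (fun m : ℕ => (∑ p ∈ Finset.HasAntidiagonal.antidiagonal m,
        (((p.1 : ℂ) + 1) * a p.1) * (((p.2 : ℂ) + 1) * a p.2)) * w ^ m) := by
      funext m
      unfold dc
      congr 1
      exact Finset.sum_congr rfl (fun p _ => by ring)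
    rw [e]
    exact this
  -- coefficient bounds
  have B1 : ∀ k m : ℕ, ‖cc a m‖ ^ 2 ≤ ((m : ℝ) + 1) ^ (k + 1) * mdR a m := by
    intro k m
    refine (md_cc a m).trans ?_
    have := one_le_pow₀ (n := k + 1) (hm m)
    nlinarith [hR0 m]
  have N2 : ∀ m : ℕ, ‖(((m : ℂ) + 2) / 2) * cc a m‖ ^ 2 = (((m : ℝ) + 2) / 2) ^ 2 * ‖cc a m‖ ^ 2 := by
    intro m
    rw [norm_mul, mul_pow]
    congr 2
    have : (((m : ℂ) + 2) / 2) = (((((m : ℝ) + 2) / 2 : ℝ)) : ℂ) := by push_cast; ring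
    rw [this, Complex.norm_real, Real.norm_of_nonneg (by positivity)]
  have B2 : ∀ k m : ℕ, 1 ≤ k → ‖(((m : ℂ) + 2) / 2) * cc a m‖ ^ 2 ≤
      ((m : ℝ) + 1) ^ (k + 1) * mdR a m := by
    intro k m hk
    rw [N2]
    have e1 : (((m : ℝ) + 2) / 2) ^ 2 ≤ ((m : ℝ) + 1) ^ 2 := by
      have := Nat.cast_nonneg (α := ℝ) m
      gcongr
      linarith
    have e2 : ((m : ℝ) + 1) ^ 2 ≤ ((m : ℝ) + 1) ^ (k + 1) := pow_le_pow_right₀ (hm m) (by omega)
    exact mul_le_mul (e1.trans e2) (md_cc a m) (sq_nonneg _) (by positivity)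
  have B3 : ∀ m : ℕ, ‖dc a m‖ ^ 2 ≤ ((m : ℝ) + 1) ^ (2 + 1) * mdR a m := md_dc a
  obtain ⟨I1, S1⟩ := md_pars 0 (by norm_num) q1 h1 _ hR hR0 _ _ _ _ P1 P1 (B1 0) (B1 0)
  obtain ⟨I2, S2⟩ := md_pars 1 (by norm_num) q2 h2 _ hR hR0 _ _ _ _ P2 P2
    (fun m => B2 1 m le_rfl) (fun m => B2 1 m le_rfl)
  obtain ⟨I3, S3⟩ := md_pars 2 (by norm_num) q3 h3 _ hR hR0 _ _ _ _ P3 P3 B3 B3
  obtain ⟨I4, S4⟩ := md_pars 1 (by norm_num) q4 h4 _ hR hR0 _ _ _ _ P2 P1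
    (fun m => B2 1 m le_rfl) (B1 1)
  obtain ⟨I5, S5⟩ := md_pars 2 (by norm_num) q5 h5 _ hR hR0 _ _ _ _ P3 P2 B3
    (fun m => B2 2 m (by norm_num))
  obtain ⟨I6, S6⟩ := md_pars 2 (by norm_num) q6 h6 _ hR hR0 _ _ _ _ P3 P1 B3 (B1 2)
  refine ⟨((((I1.add I2).add I3).add I4).add I5).add I6, ?_⟩
  have hint := md_int6 I1 I2 I3 I4 I5 I6
  have hS := ((((S1.add S2).add S3).add S4).add S5).add S6
  rw [← hint] at hS
  have hterm : (fun m : ℕ => Real.pi * (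
      (∫ t in (0 : ℝ)..1, t ^ m * ((1 - t) ^ 0 * q1 t)) * ‖cc a m‖ ^ 2 +
      (((m : ℝ) + 2) / 2) ^ 2 * (∫ t in (0 : ℝ)..1, t ^ m * ((1 - t) ^ 1 * q2 t)) * ‖cc a m‖ ^ 2 +
      (∫ t in (0 : ℝ)..1, t ^ m * ((1 - t) ^ 2 * q3 t)) * ‖dc a m‖ ^ 2 +
      (((m : ℝ) + 2) / 2) * (∫ t in (0 : ℝ)..1, t ^ m * ((1 - t) ^ 1 * q4 t)) * ‖cc a m‖ ^ 2 +
      (((m : ℝ) + 2) / 2) * (∫ t in (0 : ℝ)..1, t ^ m * ((1 - t) ^ 2 * q5 t)) *
        (dc a m * conj (cc a m)).re +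
      (∫ t in (0 : ℝ)..1, t ^ m * ((1 - t) ^ 2 * q6 t)) * (dc a m * conj (cc a m)).re)) =
      fun m : ℕ =>
        Real.pi * (cc a m * conj (cc a m)).re * (∫ t in (0 : ℝ)..1, t ^ m * ((1 - t) ^ 0 * q1 t)) +
        Real.pi * (((((m : ℂ) + 2) / 2) * cc a m) * conj ((((m : ℂ) + 2) / 2) * cc a m)).re *
          (∫ t in (0 : ℝ)..1, t ^ m * ((1 - t) ^ 1 * q2 t)) +
        Real.pi * (dc a m * conj (dc a m)).re * (∫ t in (0 : ℝ)..1, t ^ m * ((1 - t) ^ 2 * q3 t)) +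
        Real.pi * (((((m : ℂ) + 2) / 2) * cc a m) * conj (cc a m)).re *
          (∫ t in (0 : ℝ)..1, t ^ m * ((1 - t) ^ 1 * q4 t)) +
        Real.pi * (dc a m * conj ((((m : ℂ) + 2) / 2) * cc a m)).re *
          (∫ t in (0 : ℝ)..1, t ^ m * ((1 - t) ^ 2 * q5 t)) +
        Real.pi * (dc a m * conj (cc a m)).re * (∫ t in (0 : ℝ)..1, t ^ m * ((1 - t) ^ 2 * q6 t)) := by
    funext m
    have e0 : (((m : ℂ) + 2) / 2) = (((((m : ℝ) + 2) / 2 : ℝ)) : ℂ) := by push_cast; ring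
    have e1 : ∀ z : ℂ, (z * conj z).re = ‖z‖ ^ 2 := by
      intro z
      rw [Complex.mul_conj, Complex.ofReal_re, Complex.normSq_eq_norm_sq]
    have e2 : (((((m : ℂ) + 2) / 2) * cc a m) * conj (cc a m)).re =
        (((m : ℝ) + 2) / 2) * ‖cc a m‖ ^ 2 := by
      rw [e0, mul_assoc, Complex.re_ofReal_mul, e1]
    have e3 : (dc a m * conj ((((m : ℂ) + 2) / 2) * cc a m)).re =
        (((m : ℝ) + 2) / 2) * (dc a m * conj (cc a m)).re := by
      rw [e0, map_mul, Complex.conj_ofReal, mul_left_comm, Complex.re_ofReal_mul]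
    rw [e1, e1, e1, e2, e3, N2]
    ring
  rw [hterm]
  exact hS


theorem md_conj_self (z : ℂ) : (z * conj z).re = ‖z‖ ^ 2 := by
  rw [Complex.mul_conj, Complex.ofReal_re, Complex.normSq_eq_norm_sq]

theorem md_B0sq (f : ℂ → ℂ) (w : ℂ) (u : ℝ) :
    u * B0 f w ^ 2 =
      u * (1 + tt w ^ 2) ^ 2 * ((hh f w * hh f w) * conj (hh f w * hh f w)).re +
      u * ((1 / 2) * (1 - tt w ^ 2) ^ 2 - 2 * (1 + tt w ^ 2) * (1 - tt w) ^ 2) *
        ((hh f w * deriv f w) * conj (hh f w * deriv f w)).re +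
      u * (1 - tt w) ^ 4 * ((deriv f w * deriv f w) * conj (deriv f w * deriv f w)).re +
      u * (2 * (1 - tt w ^ 2) * (1 + tt w ^ 2)) *
        ((hh f w * deriv f w) * conj (hh f w * hh f w)).re +
      u * (-2 * (1 - tt w ^ 2) * (1 - tt w) ^ 2) *
        ((deriv f w * deriv f w) * conj (hh f w * deriv f w)).re +
      u * ((1 / 2) * (1 - tt w ^ 2) ^ 2) *
        ((deriv f w * deriv f w) * conj (hh f w * hh f w)).re := by
  unfold B0 tau
  generalize hh f w = h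
  generalize deriv f w = g
  generalize tt w = t
  rw [← Complex.normSq_eq_norm_sq, ← Complex.normSq_eq_norm_sq, Complex.normSq_apply,
    Complex.normSq_apply]
  simp only [map_mul, Complex.mul_re, Complex.mul_im, Complex.conj_re, Complex.conj_im]
  ring

theorem md_K2 (f : ℂ → ℂ) (w : ℂ) :
    K2 f w =
      ((1 / 8) * (1 + tt w ^ 2)) * ((hh f w * hh f w) * conj (hh f w * hh f w)).re +
      ((1 / 4) * (1 - tt w) ^ 2) * ((hh f w * deriv f w) * conj (hh f w * deriv f w)).re +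
      ((1 / 4) * (1 - tt w ^ 2)) * ((hh f w * deriv f w) * conj (hh f w * hh f w)).re := by
  unfold K2 tau
  generalize hh f w = h
  generalize deriv f w = g
  generalize tt w = t
  have e : ‖h‖ ^ 4 = (‖h‖ ^ 2) ^ 2 := by ring
  rw [e, ← Complex.normSq_eq_norm_sq, ← Complex.normSq_eq_norm_sq, Complex.normSq_apply,
    Complex.normSq_apply]
  simp only [map_mul, Complex.mul_re, Complex.mul_im, Complex.conj_re, Complex.conj_im]
  ring

theorem mdens_le {f : ℂ → ℂ} (hf : Conf f) (a : ℕ → ℂ) (ha : Coef f a) :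
    IntegrableOn (fun w => B0 f w ^ 2 / (4 * (1 + tt w ^ 2))) D ∧
    IntegrableOn (K2 f) D ∧
    ∫ w in D, (B0 f w ^ 2 / (4 * (1 + tt w ^ 2)) - K2 f w)
      ≤ Real.pi * (21 / 100) * (∑' j, ‖a j‖ ^ 2) ^ 2 := by
  have hpos : ∀ t : ℝ, (4 * (1 + t ^ 2)) ≠ 0 := fun t => by positivity
  have hcont : Continuous fun t : ℝ => 1 / (4 * (1 + t ^ 2)) :=
    Continuous.div continuous_const (by fun_prop) hpos
  -- integrability of the first function
  have hA := (md_six hf a ha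
    (fun t => 1 / (4 * (1 + t ^ 2)) * (1 + t ^ 2) ^ 2)
    (fun t => 1 / (4 * (1 + t ^ 2)) *
      ((1 / 2) * (1 - t) * (1 + t) ^ 2 - 2 * (1 + t ^ 2) * (1 - t)))
    (fun t => 1 / (4 * (1 + t ^ 2)) * (1 - t) ^ 2)
    (fun t => 1 / (4 * (1 + t ^ 2)) * (2 * (1 + t) * (1 + t ^ 2)))
    (fun t => 1 / (4 * (1 + t ^ 2)) * (-2 * (1 - t) * (1 + t)))
    (fun t => 1 / (4 * (1 + t ^ 2)) * ((1 / 2) * (1 + t) ^ 2))
    (hcont.mul (by fun_prop)) (hcont.mul (by fun_prop)) (hcont.mul (by fun_prop))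
    (hcont.mul (by fun_prop)) (hcont.mul (by fun_prop)) (hcont.mul (by fun_prop))).1
  have hA' : IntegrableOn (fun w => B0 f w ^ 2 / (4 * (1 + tt w ^ 2))) D := by
    refine hA.congr_fun (fun w _ => ?_) measurableSet_ball
    show mdW f _ _ _ _ _ _ w = B0 f w ^ 2 / (4 * (1 + tt w ^ 2))
    have e : B0 f w ^ 2 / (4 * (1 + tt w ^ 2)) = 1 / (4 * (1 + tt w ^ 2)) * B0 f w ^ 2 := by
      ring
    rw [e, md_B0sq]
    unfold mdW
    ring
  have hB := (md_six hf a ha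
    (fun t => (1 / 8) * (1 + t ^ 2)) (fun t => (1 / 4) * (1 - t)) (fun _ => 0)
    (fun t => (1 / 4) * (1 + t)) (fun _ => 0) (fun _ => 0)
    (by fun_prop) (by fun_prop) (by fun_prop) (by fun_prop) (by fun_prop) (by fun_prop)).1
  have hB' : IntegrableOn (K2 f) D := by
    refine hB.congr_fun (fun w _ => ?_) measurableSet_ball
    show mdW f _ _ _ _ _ _ w = K2 f w
    rw [md_K2]
    unfold mdW
    ring
  refine ⟨hA', hB', ?_⟩
  obtain ⟨hQ, hQS⟩ := md_six hf a ha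
    (fun t => (1 / 4) * (1 - t ^ 2 / 2) * (1 + t ^ 2) ^ 2 - (1 / 8) * (1 + t ^ 2))
    (fun t => (1 / 4) * (1 - t ^ 2 / 2) *
      ((1 / 2) * (1 - t) * (1 + t) ^ 2 - 2 * (1 + t ^ 2) * (1 - t)) - (1 / 4) * (1 - t))
    (fun t => (1 / 4) * (1 - t ^ 2 / 2) * (1 - t) ^ 2)
    (fun t => (1 / 4) * (1 - t ^ 2 / 2) * (2 * (1 + t) * (1 + t ^ 2)) - (1 / 4) * (1 + t))
    (fun t => (1 / 4) * (1 - t ^ 2 / 2) * (-2 * (1 - t) * (1 + t)))
    (fun t => (1 / 4) * (1 - t ^ 2 / 2) * ((1 / 2) * (1 + t) ^ 2))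
    (by fun_prop) (by fun_prop) (by fun_prop) (by fun_prop) (by fun_prop) (by fun_prop)
  -- pointwise comparison
  have hle : ∀ w ∈ D, B0 f w ^ 2 / (4 * (1 + tt w ^ 2)) - K2 f w ≤
      mdW f
    (fun t => (1 / 4) * (1 - t ^ 2 / 2) * (1 + t ^ 2) ^ 2 - (1 / 8) * (1 + t ^ 2))
    (fun t => (1 / 4) * (1 - t ^ 2 / 2) *
      ((1 / 2) * (1 - t) * (1 + t) ^ 2 - 2 * (1 + t ^ 2) * (1 - t)) - (1 / 4) * (1 - t))
    (fun t => (1 / 4) * (1 - t ^ 2 / 2) * (1 - t) ^ 2)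
    (fun t => (1 / 4) * (1 - t ^ 2 / 2) * (2 * (1 + t) * (1 + t ^ 2)) - (1 / 4) * (1 + t))
    (fun t => (1 / 4) * (1 - t ^ 2 / 2) * (-2 * (1 - t) * (1 + t)))
    (fun t => (1 / 4) * (1 - t ^ 2 / 2) * ((1 / 2) * (1 + t) ^ 2)) w := by
    intro w hw
    have h1 : mdW f
        (fun t => (1 / 4) * (1 - t ^ 2 / 2) * (1 + t ^ 2) ^ 2 - (1 / 8) * (1 + t ^ 2))
        (fun t => (1 / 4) * (1 - t ^ 2 / 2) *
          ((1 / 2) * (1 - t) * (1 + t) ^ 2 - 2 * (1 + t ^ 2) * (1 - t)) - (1 / 4) * (1 - t))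
        (fun t => (1 / 4) * (1 - t ^ 2 / 2) * (1 - t) ^ 2)
        (fun t => (1 / 4) * (1 - t ^ 2 / 2) * (2 * (1 + t) * (1 + t ^ 2)) - (1 / 4) * (1 + t))
        (fun t => (1 / 4) * (1 - t ^ 2 / 2) * (-2 * (1 - t) * (1 + t)))
        (fun t => (1 / 4) * (1 - t ^ 2 / 2) * ((1 / 2) * (1 + t) ^ 2)) w =
        (1 / 4) * (1 - tt w ^ 2 / 2) * B0 f w ^ 2 - K2 f w := by
      rw [md_B0sq, md_K2]
      unfold mdW
      ring
    rw [h1]
    have ht0 : 0 ≤ tt w := by unfold tt; positivity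
    have ht1 : tt w ≤ 1 := by
      have : ‖w‖ < 1 := by simpa using hw
      unfold tt
      nlinarith [norm_nonneg w]
    have h2 : 1 / (4 * (1 + tt w ^ 2)) ≤ (1 / 4) * (1 - tt w ^ 2 / 2) := by
      rw [div_le_iff₀ (by positivity)]
      nlinarith [mul_nonneg ht0 ht0, mul_le_mul ht1 ht1 ht0 zero_le_one,
        mul_nonneg (mul_nonneg ht0 ht0) (sub_nonneg.2 (mul_le_mul ht1 ht1 ht0 zero_le_one))]
    have h3 : B0 f w ^ 2 / (4 * (1 + tt w ^ 2)) = 1 / (4 * (1 + tt w ^ 2)) * B0 f w ^ 2 := by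
      ring
    rw [h3]
    have := mul_le_mul_of_nonneg_right h2 (sq_nonneg (B0 f w))
    linarith
  refine (setIntegral_mono_on (hA'.sub hB') hQ measurableSet_ball hle).trans ?_
  -- the sum
  have hs : Summable fun j : ℕ => ((j : ℝ) + 1) * ‖a j‖ ^ 2 := by
    have := (area_sum hf a ha).summable.mul_left (Real.pi⁻¹)
    refine this.congr (fun j => ?_)
    have hp := Real.pi_pos.ne'
    field_simp
  have hs2 : Summable fun j : ℕ => ‖a j‖ ^ 2 := by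
    refine Summable.of_nonneg_of_le (fun j => sq_nonneg _) (fun j => ?_) hs
    have := Nat.cast_nonneg (α := ℝ) j
    nlinarith [sq_nonneg ‖a j‖]
  have hs3 : Summable fun j : ℕ => ‖‖a j‖ ^ 2‖ := hs2.norm
  have hP1 := (summable_norm_sum_mul_antidiagonal_of_summable_norm hs3 hs3).of_norm
  have hP2 := tsum_mul_tsum_eq_tsum_sum_antidiagonal_of_summable_norm hs3 hs3
  have hP : HasSum (fun m : ℕ => Real.pi * (21 / 100) *
      ∑ p ∈ Finset.HasAntidiagonal.antidiagonal m, ‖a p.1‖ ^ 2 * ‖a p.2‖ ^ 2)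
      (Real.pi * (21 / 100) * (∑' j, ‖a j‖ ^ 2) ^ 2) := by
    rw [sq, hP2]
    exact hP1.hasSum.mul_left _
  refine hasSum_le (fun m => ?_) hQS hP
  have hb := block_ineq a m
  have hi : ∀ q : ℝ → ℝ, Continuous q → IntervalIntegrable q volume 0 1 := fun q hq =>
    hq.intervalIntegrable _ _
  have hal : alC m = (∫ t in (0 : ℝ)..1, t ^ m * ((1 - t) ^ 0 *
        ((1 / 4) * (1 - t ^ 2 / 2) * (1 + t ^ 2) ^ 2 - (1 / 8) * (1 + t ^ 2)))) +
      (((m : ℝ) + 2) / 2) ^ 2 * (∫ t in (0 : ℝ)..1, t ^ m * ((1 - t) ^ 1 *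
        ((1 / 4) * (1 - t ^ 2 / 2) *
          ((1 / 2) * (1 - t) * (1 + t) ^ 2 - 2 * (1 + t ^ 2) * (1 - t)) - (1 / 4) * (1 - t)))) +
      (((m : ℝ) + 2) / 2) * (∫ t in (0 : ℝ)..1, t ^ m * ((1 - t) ^ 1 *
        ((1 / 4) * (1 - t ^ 2 / 2) * (2 * (1 + t) * (1 + t ^ 2)) - (1 / 4) * (1 + t)))) := by
    unfold alC
    rw [← intervalIntegral.integral_const_mul, ← intervalIntegral.integral_const_mul,
      ← intervalIntegral.integral_add (hi _ (by fun_prop)) (hi _ (by fun_prop)),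
      ← intervalIntegral.integral_add (hi _ (by fun_prop)) (hi _ (by fun_prop))]
    congr 1
    funext t
    unfold alP
    ring
  have hbe : - beC m = (((m : ℝ) + 2) / 2) * (∫ t in (0 : ℝ)..1, t ^ m * ((1 - t) ^ 2 *
        ((1 / 4) * (1 - t ^ 2 / 2) * (-2 * (1 - t) * (1 + t))))) +
      (∫ t in (0 : ℝ)..1, t ^ m * ((1 - t) ^ 2 *
        ((1 / 4) * (1 - t ^ 2 / 2) * ((1 / 2) * (1 + t) ^ 2)))) := by
    unfold beC
    rw [← intervalIntegral.integral_neg, ← intervalIntegral.integral_const_mul,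
      ← intervalIntegral.integral_add (hi _ (by fun_prop)) (hi _ (by fun_prop))]
    congr 1
    funext t
    unfold beP
    ring
  have hga : gaC m = (∫ t in (0 : ℝ)..1, t ^ m * ((1 - t) ^ 2 *
        ((1 / 4) * (1 - t ^ 2 / 2) * (1 - t) ^ 2))) := by
    unfold gaC
    congr 1
    funext t
    unfold gaP
    ring
  rw [mul_assoc Real.pi]
  refine mul_le_mul_of_nonneg_left ?_ Real.pi_pos.le
  refine le_trans (le_of_eq ?_) hb
  rw [hal, hga, sub_eq_add_neg, ← neg_mul, hbe]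
  ring

end Crest.Agent.HS
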