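import Crest.Agent.HS.Main1
import Crest.Agent.HS.IdA
import Crest.Agent.HS.IdB
import Crest.Agent.HS.Kap
import Crest.Agent.HS.GLow
import Crest.Agent.HS.Mdens
set_option autoImplicit false
noncomputable section
namespace Crest.Agent.HS.Mn
open Crest.Agent.HS.Al
open MeasureTheory Complex Metric Set
open scoped ComplexConjugate Topology

lemma isa {μ : Measure ℂ} {a b c : ℂ → ℝ} (ha : Integrable a μ) (hb : Integrable b μ)
    (hc : Integrable c μ) :
    ∫ w, (a w - b w + c w) ∂μ = (∫ w, a w ∂μ) - (∫ w, b w ∂μ) + ∫ w, c w ∂μ := by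
  have h1 : ∫ w, ((a w - b w) + c w) ∂μ = ∫ w, (a w - b w) ∂μ + ∫ w, c w ∂μ :=
    integral_add (ha.sub hb) hc
  rw [h1, integral_sub ha hb]

lemma iaa {μ : Measure ℂ} {a b c : ℂ → ℝ} (ha : Integrable a μ) (hb : Integrable b μ)
    (hc : Integrable c μ) :
    ∫ w, (a w + b w + c w) ∂μ = (∫ w, a w ∂μ) + (∫ w, b w ∂μ) + ∫ w, c w ∂μ := by
  have h1 : ∫ w, ((a w + b w) + c w) ∂μ = ∫ w, (a w + b w) ∂μ + ∫ w, c w ∂μ :=
    integral_add (ha.add hb) hc
  rw [h1, integral_add ha hb]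

/-- the expanded field inequality for one `q` -/
theorem field_q {f : ℂ → ℂ} {κ c : ℝ} {θ : ℂ → ℝ} (hS : Sol f κ c θ) (q : ℂ) (hq : ‖q‖ = 1) :
    κ * ((∫ w in D, ‖ph q w * gr θ w‖ ^ 2)
        - 2 * (κ * c) * (∫ w in D, (ph q w * gr θ w * conj (Kf f q w)).re)
        + (κ * c) ^ 2 * ∫ w in D, ‖Kf f q w‖ ^ 2)
      ≤ κ ^ 2 * (∫ w in D, tau f w * (θ w ^ 2 * ‖ph q w‖ ^ 2))
        - 2 * (κ ^ 2 * c) * (∫ w in D, tau f w * (θ w * ((ph q w).re * chi f q w)))
        + (κ * c) ^ 2 * ∫ w in D, tau f w * chi f q w ^ 2 := by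
  have hP := memLp_grad hS q hq
  have hK := memLp_Kf hS.conf q hq
  have hv : MemLp (vf f κ c θ q) 2 (volume.restrict D) := by
    have : vf f κ c θ q = (fun w => ph q w * gr θ w) - fun w => ((κ * c : ℝ) : ℂ) * Kf f q w := rfl
    rw [this]
    exact hP.sub (hK.const_mul _)
  have mchi := (int_chi hS.conf q hq).1
  have hσm : AEStronglyMeasurable (sg f κ c θ q) (volume.restrict D) := by
    have h1 : AEStronglyMeasurable (fun w => ((-κ * θ w : ℝ) : ℂ)) (volume.restrict D) :=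
      Complex.continuous_ofReal.comp_aestronglyMeasurable ((meas_th hS).const_mul _)
    have h2 : AEStronglyMeasurable (fun w => ((κ * c * chi f q w : ℝ) : ℂ)) (volume.restrict D) :=
      Complex.continuous_ofReal.comp_aestronglyMeasurable (mchi.const_mul _)
    exact (h1.mul (meas_ph q)).add h2
  have mτ := meas_tau hS.conf
  have iT := int_th hS q hq
  have iC := (int_chi hS.conf q hq).2
  have iX : IntegrableOn (fun w => tau f w * (θ w * ((ph q w).re * chi f q w))) D := by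
    have h1 : IntegrableOn (fun w => (1 / 2 : ℝ) * (tau f w * (θ w ^ 2 * ‖ph q w‖ ^ 2)
        + tau f w * chi f q w ^ 2)) D := (iT.add iC).const_mul _
    refine h1.mono' ?_ ?_
    · exact mτ.mul ((meas_th hS).mul
        ((Complex.continuous_re.comp_aestronglyMeasurable (meas_ph q)).mul mchi))
    · filter_upwards with w
      have ht : 0 ≤ tau f w := by unfold tau; positivity
      rw [Real.norm_eq_abs, abs_mul, abs_of_nonneg ht]
      have h2 : |θ w * ((ph q w).re * chi f q w)|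
          ≤ (1 / 2) * (θ w ^ 2 * ‖ph q w‖ ^ 2 + chi f q w ^ 2) := by
        have h3 : (θ w * (ph q w).re) ^ 2 ≤ θ w ^ 2 * ‖ph q w‖ ^ 2 := by
          rw [mul_pow, nsq]
          have := sq_nonneg (θ w * (ph q w).im)
          nlinarith
        rw [abs_le]
        constructor
        · nlinarith [sq_nonneg (θ w * (ph q w).re + chi f q w)]
        · nlinarith [sq_nonneg (θ w * (ph q w).re - chi f q w)]
      nlinarith [mul_le_mul_of_nonneg_left h2 ht]
  have eσ : ∀ w, tau f w * ‖sg f κ c θ q w‖ ^ 2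
      = κ ^ 2 * (tau f w * (θ w ^ 2 * ‖ph q w‖ ^ 2))
        - 2 * (κ ^ 2 * c) * (tau f w * (θ w * ((ph q w).re * chi f q w)))
        + (κ * c) ^ 2 * (tau f w * chi f q w ^ 2) := by
    intro w
    rw [nsq, nsq, sg]
    simp only [Complex.add_re, Complex.add_im, Complex.re_ofReal_mul, Complex.im_ofReal_mul,
      Complex.ofReal_re, Complex.ofReal_im]
    ring
  have hσ : IntegrableOn (fun w => tau f w * ‖sg f κ c θ q w‖ ^ 2) D := by
    simp_rw [eσ]
    exact ((iT.const_mul _).sub (iX.const_mul _)).add (iC.const_mul _)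
  have key := field_ineq hS.conf hS.κpos hS.poin (vf f κ c θ q) (sg f κ c θ q) hv hσm hσ
    (fun g hg => weak_vf hS q hq g hg)
  have ev : ∀ w, ‖vf f κ c θ q w‖ ^ 2 = ‖ph q w * gr θ w‖ ^ 2
      - 2 * (κ * c) * (ph q w * gr θ w * conj (Kf f q w)).re
      + (κ * c) ^ 2 * ‖Kf f q w‖ ^ 2 := by
    intro w
    rw [vf]
    generalize ph q w * gr θ w = P
    generalize Kf f q w = K
    rw [nsq, nsq, nsq]
    simp only [Complex.sub_re, Complex.sub_im,
      Complex.mul_re, Complex.mul_im, Complex.conj_re, Complex.conj_im, Complex.ofReal_re,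
      Complex.ofReal_im]
    ring
  have e1 : ∫ w in D, ‖vf f κ c θ q w‖ ^ 2 = (∫ w in D, ‖ph q w * gr θ w‖ ^ 2)
        - 2 * (κ * c) * (∫ w in D, (ph q w * gr θ w * conj (Kf f q w)).re)
        + (κ * c) ^ 2 * ∫ w in D, ‖Kf f q w‖ ^ 2 := by
    simp_rw [ev]
    have a1 := memLp_sq hP
    have a2 := (int_re_mul hP hK).const_mul (2 * (κ * c))
    have a3 := (memLp_sq hK).const_mul ((κ * c) ^ 2)
    rw [isa a1 a2 a3, integral_const_mul, integral_const_mul]
  have e2 : ∫ w in D, tau f w * ‖sg f κ c θ q w‖ ^ 2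
      = κ ^ 2 * (∫ w in D, tau f w * (θ w ^ 2 * ‖ph q w‖ ^ 2))
        - 2 * (κ ^ 2 * c) * (∫ w in D, tau f w * (θ w * ((ph q w).re * chi f q w)))
        + (κ * c) ^ 2 * ∫ w in D, tau f w * chi f q w ^ 2 := by
    simp_rw [eσ]
    have a1 := iT.const_mul (κ ^ 2)
    have a2 := iX.const_mul (2 * (κ ^ 2 * c))
    have a3 := iC.const_mul ((κ * c) ^ 2)
    rw [isa a1 a2 a3, integral_const_mul, integral_const_mul, integral_const_mul]
  rw [e1, e2] at key
  exact key

lemma int_X {f : ℂ → ℂ} {κ c : ℝ} {θ : ℂ → ℝ} (hS : Sol f κ c θ) (q : ℂ) (hq : ‖q‖ = 1) :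
    IntegrableOn (fun w => tau f w * (θ w * ((ph q w).re * chi f q w))) D := by
  have mchi := (int_chi hS.conf q hq).1
  have mτ := meas_tau hS.conf
  have iT := int_th hS q hq
  have iC := (int_chi hS.conf q hq).2
  have h1 : IntegrableOn (fun w => (1 / 2 : ℝ) * (tau f w * (θ w ^ 2 * ‖ph q w‖ ^ 2)
      + tau f w * chi f q w ^ 2)) D := (iT.add iC).const_mul _
  refine h1.mono' ?_ ?_
  · exact mτ.mul ((meas_th hS).mul
      ((Complex.continuous_re.comp_aestronglyMeasurable (meas_ph q)).mul mchi))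
  · filter_upwards with w
    have ht : 0 ≤ tau f w := by unfold tau; positivity
    rw [Real.norm_eq_abs, abs_mul, abs_of_nonneg ht]
    have h2 : |θ w * ((ph q w).re * chi f q w)|
        ≤ (1 / 2) * (θ w ^ 2 * ‖ph q w‖ ^ 2 + chi f q w ^ 2) := by
      have h3 : (θ w * (ph q w).re) ^ 2 ≤ θ w ^ 2 * ‖ph q w‖ ^ 2 := by
        rw [mul_pow, nsq]
        have := sq_nonneg (θ w * (ph q w).im)
        nlinarith
      rw [abs_le]
      constructor
      · nlinarith [sq_nonneg (θ w * (ph q w).re + chi f q w)]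
      · nlinarith [sq_nonneg (θ w * (ph q w).re - chi f q w)]
    nlinarith [mul_le_mul_of_nonneg_left h2 ht]

lemma int_tauth {f : ℂ → ℂ} {κ c : ℝ} {θ : ℂ → ℝ} (hS : Sol f κ c θ) :
    IntegrableOn (fun w => tau f w * θ w) D := by
  have h1 : IntegrableOn (fun w => (1 / 2 : ℝ) * (tau f w + tau f w * θ w ^ 2)) D :=
    (hS.conf.area.add hS.test.l2).const_mul _
  refine h1.mono' ((meas_tau hS.conf).mul (meas_th hS)) ?_
  filter_upwards with w
  have ht : 0 ≤ tau f w := by unfold tau; positivity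
  rw [Real.norm_eq_abs, abs_mul, abs_of_nonneg ht]
  have : |θ w| ≤ (1 / 2) * (1 + θ w ^ 2) := by
    have := sq_nonneg (|θ w| - 1)
    have h3 := sq_abs (θ w)
    nlinarith
  nlinarith [mul_le_mul_of_nonneg_left this ht]

/-- the linear term is integrable, with its integral -/
theorem lin_term {f : ℂ → ℂ} {κ c : ℝ} {θ : ℂ → ℝ} (hS : Sol f κ c θ) :
    IntegrableOn (fun w => θ w * (-(2 / tt w) * B0 f w)) D := by
  have q1 : ‖(1 : ℂ)‖ = 1 := norm_one
  have qI : ‖I‖ = 1 := Complex.norm_I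
  have iX := (int_X hS 1 q1).add (int_X hS I qI)
  have i1 := (((int_thPh hS).neg.add ((int_B hS).const_mul 2)).add (iX.const_mul 2)).sub
    ((int_tauth hS).const_mul 4)
  refine i1.congr ?_
  filter_upwards [ae_D] with w hw
  have h := final_pt hS.conf.zero hw.2 (hS.conf.dne w hw.1)
  have h2 : -(2 / tt w) * B0 f w = -(tau f w * Ph w)
      + 2 * (Yf w * tau f w - ‖f w‖ ^ 2 * (1 + (tt w ^ 2)⁻¹))
      + 2 * (tau f w * ((ph 1 w).re * chi f 1 w + (ph I w).re * chi f I w))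
      - 4 * tau f w := by
    rw [h]; ring
  rw [h2]
  simp only [Pi.add_apply, Pi.sub_apply, Pi.neg_apply]
  ring

theorem lin_int {f : ℂ → ℂ} {κ c : ℝ} {θ : ℂ → ℝ} (hS : Sol f κ c θ) (a : ℕ → ℂ)
    (ha : Coef f a) :
    IntegrableOn (fun w => 4 * ((1 + (tt w ^ 2)⁻¹) * θ w ^ 2)
        + κ * c * (θ w * (-(2 / tt w) * B0 f w)) + (κ * c) ^ 2 * K2 f w) D :=
  (((int_wt hS).const_mul 4).add ((lin_term hS).const_mul (κ * c))).add
    ((mdens_le hS.conf a ha).2.1.const_mul ((κ * c) ^ 2))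

/-- the main quadratic inequality -/
theorem main_Q {f : ℂ → ℂ} {κ c : ℝ} {θ : ℂ → ℝ} (hS : Sol f κ c θ) (a : ℕ → ℂ)
    (ha : Coef f a) :
    (∫ w in D, (4 * ((1 + (tt w ^ 2)⁻¹) * θ w ^ 2)
        + κ * c * (θ w * (-(2 / tt w) * B0 f w)) + (κ * c) ^ 2 * K2 f w))
      + κ * c ^ 2 * (4 * (∫ w in D, tau f w)
        - ∫ w in D, tau f w * (chi f 1 w ^ 2 + chi f I w ^ 2)) ≤ 0 := by
  have hκ := hS.κpos
  have q1 : ‖(1 : ℂ)‖ = 1 := norm_one
  have qI : ‖I‖ = 1 := Complex.norm_I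
  have hf0 := hS.conf.zero
  have F1 := field_q hS 1 q1
  have FI := field_q hS I qI
  have A := idA hS
  have B := idB hS
  have iB := int_B hS
  have iT1 := int_thPh hS
  have iW := int_wt hS
  have iK2 : IntegrableOn (K2 f) D := (mdens_le hS.conf a ha).2.1
  -- names
  set P1 := ∫ w in D, ‖ph 1 w * gr θ w‖ ^ 2 with hP1
  set PI := ∫ w in D, ‖ph I w * gr θ w‖ ^ 2 with hPI
  set R1 := ∫ w in D, (ph 1 w * gr θ w * conj (Kf f 1 w)).re with hR1
  set RI := ∫ w in D, (ph I w * gr θ w * conj (Kf f I w)).re with hRI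
  set N1 := ∫ w in D, ‖Kf f 1 w‖ ^ 2 with hN1
  set NI := ∫ w in D, ‖Kf f I w‖ ^ 2 with hNI
  set T1 := ∫ w in D, tau f w * (θ w ^ 2 * ‖ph 1 w‖ ^ 2) with hT1
  set TI := ∫ w in D, tau f w * (θ w ^ 2 * ‖ph I w‖ ^ 2) with hTI
  set X1 := ∫ w in D, tau f w * (θ w * ((ph 1 w).re * chi f 1 w)) with hX1
  set XI := ∫ w in D, tau f w * (θ w * ((ph I w).re * chi f I w)) with hXI
  set C1 := ∫ w in D, tau f w * chi f 1 w ^ 2 with hC1
  set CI := ∫ w in D, tau f w * chi f I w ^ 2 with hCI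
  set W := ∫ w in D, (1 + (tt w ^ 2)⁻¹) * θ w ^ 2 with hW
  set AA := ∫ w in D, tau f w with hAA
  set TP := ∫ w in D, tau f w * (Ph w * θ w) with hTP
  set BB := ∫ w in D, θ w * (Yf w * tau f w - ‖f w‖ ^ 2 * (1 + (tt w ^ 2)⁻¹)) with hBB
  -- sums
  have s1 : ∫ w in D, Ph w * ‖gr θ w‖ ^ 2 = P1 + PI := by
    rw [hP1, hPI, ← integral_add (memLp_sq (memLp_grad hS 1 q1)) (memLp_sq (memLp_grad hS I qI))]
    refine integral_congr_ae ?_
    filter_upwards [ae_D] with w hw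
    rw [← sum_ph_sq hw.2, norm_mul, norm_mul]
    ring
  have s2 : ∫ w in D, ((ph 1 w * gr θ w * conj (Kf f 1 w)).re
      + (ph I w * gr θ w * conj (Kf f I w)).re) = R1 + RI := by
    rw [hR1, hRI, ← integral_add (int_re_mul (memLp_grad hS 1 q1) (memLp_Kf hS.conf 1 q1))
      (int_re_mul (memLp_grad hS I qI) (memLp_Kf hS.conf I qI))]
  have s3 : ∫ w in D, K2 f w = N1 + NI := by
    rw [hN1, hNI, ← integral_add (memLp_sq (memLp_Kf hS.conf 1 q1))
      (memLp_sq (memLp_Kf hS.conf I qI))]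
    refine integral_congr_ae ?_
    filter_upwards [ae_D] with w hw
    rw [← sum_Kf_sq hf0 hw.2]
  have s4 : ∫ w in D, tau f w * ((c - θ w) * (Ph w * θ w)) = c * TP - (T1 + TI) := by
    have h1 := isa (iT1.const_mul c) (int_th hS 1 q1) ((int_th hS I qI).const_mul (-1))
    rw [integral_const_mul, integral_const_mul] at h1
    have h2 : ∫ w in D, tau f w * ((c - θ w) * (Ph w * θ w))
        = ∫ w in D, (c * (tau f w * (Ph w * θ w)) - tau f w * (θ w ^ 2 * ‖ph 1 w‖ ^ 2)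
          + (-1) * (tau f w * (θ w ^ 2 * ‖ph I w‖ ^ 2))) := by
      refine integral_congr_ae ?_
      filter_upwards [ae_D] with w hw
      rw [← sum_ph_sq hw.2]
      ring
    rw [h2, h1]
    ring
  have s5 : ∫ w in D, tau f w * (chi f 1 w ^ 2 + chi f I w ^ 2) = C1 + CI := by
    rw [hC1, hCI, ← integral_add (int_chi hS.conf 1 q1).2 (int_chi hS.conf I qI).2]
    refine integral_congr_ae ?_
    filter_upwards with w
    ring
  -- ∫ τ θ = c A
  have hint1 : Test f (fun _ => (1 : ℝ)) := by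
    refine ⟨contDiffOn_const, ?_, ?_⟩
    · have : (fun w : ℂ => ‖gr (fun _ => (1 : ℝ)) w‖ ^ 2) = fun _ => 0 := by
        funext w
        have : gr (fun _ : ℂ => (1 : ℝ)) w = 0 := by
          apply Complex.ext <;> simp [gr]
        simp [this]
      rw [this]
      exact integrableOn_zero
    · simpa using hS.conf.area
  have hτθ := int_tauth hS
  have s6 : ∫ w in D, tau f w * θ w = c * AA := by
    have h := hS.weak _ hint1
    have h0 : ∀ w : ℂ, gr (fun _ : ℂ => (1 : ℝ)) w = 0 := by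
      intro w
      apply Complex.ext <;> simp [gr]
    simp only [h0, map_zero, mul_zero, Complex.zero_re, integral_zero, mul_one] at h
    have h2 : ∫ w in D, tau f w * (c - θ w) = 0 := by
      have : κ ≠ 0 := hκ.ne'
      have h' := h.symm
      rcases mul_eq_zero.mp h' with h3 | h3
      · exact absurd (neg_eq_zero.mp h3) this
      · exact h3
    have h3 : ∫ w in D, tau f w * (c - θ w) = c * AA - ∫ w in D, tau f w * θ w := by
      rw [hAA, ← integral_const_mul, ← integral_sub (hS.conf.area.const_mul c) hτθ]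
      refine integral_congr_ae ?_
      filter_upwards with w
      ring
    linarith only [h2, h3]
  -- the linear term
  have s7 : IntegrableOn (fun w => θ w * (-(2 / tt w) * B0 f w)) D ∧
      ∫ w in D, θ w * (-(2 / tt w) * B0 f w) = -TP + 2 * BB + 2 * (X1 + XI) - 4 * (c * AA) := by
    have iX := (int_X hS 1 q1).add (int_X hS I qI)
    have i1 := ((iT1.neg.add (iB.const_mul 2)).add (iX.const_mul 2)).sub (hτθ.const_mul 4)
    have e : (fun w => θ w * (-(2 / tt w) * B0 f w)) =ᵐ[volume.restrict D]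
        (fun w => ((-(tau f w * (Ph w * θ w)) + 2 * (θ w * (Yf w * tau f w
          - ‖f w‖ ^ 2 * (1 + (tt w ^ 2)⁻¹)))) + 2 * (tau f w * (θ w * ((ph 1 w).re * chi f 1 w))
          + tau f w * (θ w * ((ph I w).re * chi f I w)))) - 4 * (tau f w * θ w)) := by
      filter_upwards [ae_D] with w hw
      have h := final_pt hf0 hw.2 (hS.conf.dne w hw.1)
      have h2 : -(2 / tt w) * B0 f w = -(tau f w * Ph w)
          + 2 * (Yf w * tau f w - ‖f w‖ ^ 2 * (1 + (tt w ^ 2)⁻¹))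
          + 2 * (tau f w * ((ph 1 w).re * chi f 1 w + (ph I w).re * chi f I w))
          - 4 * tau f w := by
        rw [h]; ring
      rw [h2]
      ring
    constructor
    · exact (i1.congr (by
        filter_upwards [e] with w hw
        rw [hw]
        rfl))
    · rw [integral_congr_ae e]
      have b1 : IntegrableOn (fun w => -(tau f w * (Ph w * θ w)) + 2 * (θ w * (Yf w * tau f w
          - ‖f w‖ ^ 2 * (1 + (tt w ^ 2)⁻¹)))) D := iT1.neg.add (iB.const_mul 2)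
      have b2 : IntegrableOn (fun w => 2 * (tau f w * (θ w * ((ph 1 w).re * chi f 1 w))
          + tau f w * (θ w * ((ph I w).re * chi f I w)))) D := iX.const_mul 2
      have b3 : IntegrableOn (fun w => 4 * (tau f w * θ w)) D := hτθ.const_mul 4
      have c1 : ∫ w in D, (-(tau f w * (Ph w * θ w)) + 2 * (θ w * (Yf w * tau f w
          - ‖f w‖ ^ 2 * (1 + (tt w ^ 2)⁻¹)))) = -TP + 2 * BB := by
        have h1 : ∫ w in D, (-(tau f w * (Ph w * θ w)) + 2 * (θ w * (Yf w * tau f w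
          - ‖f w‖ ^ 2 * (1 + (tt w ^ 2)⁻¹)))) = (∫ w in D, -(tau f w * (Ph w * θ w)))
            + ∫ w in D, 2 * (θ w * (Yf w * tau f w - ‖f w‖ ^ 2 * (1 + (tt w ^ 2)⁻¹))) :=
          integral_add iT1.neg (iB.const_mul 2)
        rw [h1, integral_neg, integral_const_mul]
      have c2 : ∫ w in D, 2 * (tau f w * (θ w * ((ph 1 w).re * chi f 1 w))
          + tau f w * (θ w * ((ph I w).re * chi f I w))) = 2 * (X1 + XI) := by
        rw [integral_const_mul, integral_add (int_X hS 1 q1) (int_X hS I qI)]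
      have c3 : ∫ w in D, 4 * (tau f w * θ w) = 4 * (c * AA) := by
        rw [integral_const_mul, s6]
      have c4 := isa b1 (b2.const_mul (-1)) (b3.const_mul (-1))
      rw [integral_const_mul (-1 : ℝ), integral_const_mul (-1 : ℝ), c1, c2, c3] at c4
      have c5 : ∫ w in D, (((-(tau f w * (Ph w * θ w)) + 2 * (θ w * (Yf w * tau f w
          - ‖f w‖ ^ 2 * (1 + (tt w ^ 2)⁻¹)))) + 2 * (tau f w * (θ w * ((ph 1 w).re * chi f 1 w))
          + tau f w * (θ w * ((ph I w).re * chi f I w)))) - 4 * (tau f w * θ w))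
          = ∫ w in D, ((-(tau f w * (Ph w * θ w)) + 2 * (θ w * (Yf w * tau f w
          - ‖f w‖ ^ 2 * (1 + (tt w ^ 2)⁻¹)))) - (-1) * (2 * (tau f w * (θ w * ((ph 1 w).re * chi f 1 w))
          + tau f w * (θ w * ((ph I w).re * chi f I w)))) + (-1) * (4 * (tau f w * θ w))) := by
        refine integral_congr_ae ?_
        filter_upwards with w
        ring
      rw [c5, c4]
      ring
  rw [s1, s4] at A
  rw [s2] at B
  have s8 : (∫ w in D, (4 * ((1 + (tt w ^ 2)⁻¹) * θ w ^ 2)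
        + κ * c * (θ w * (-(2 / tt w) * B0 f w)) + (κ * c) ^ 2 * K2 f w))
      = 4 * W + κ * c * (-TP + 2 * BB + 2 * (X1 + XI) - 4 * (c * AA)) + (κ * c) ^ 2 * (N1 + NI) := by
    have b1 := iW.const_mul 4
    have b2 := s7.1.const_mul (κ * c)
    have b3 := iK2.const_mul ((κ * c) ^ 2)
    rw [iaa b1 b2 b3, integral_const_mul, integral_const_mul, integral_const_mul, s7.2, s3]
  rw [s8, s5]
  -- algebra
  have F : κ * ((P1 + PI) - 2 * (κ * c) * (R1 + RI) + (κ * c) ^ 2 * (N1 + NI))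
      ≤ κ ^ 2 * (T1 + TI) - 2 * (κ ^ 2 * c) * (X1 + XI) + (κ * c) ^ 2 * (C1 + CI) := by
    calc κ * ((P1 + PI) - 2 * (κ * c) * (R1 + RI) + (κ * c) ^ 2 * (N1 + NI))
        = κ * (P1 - 2 * (κ * c) * R1 + (κ * c) ^ 2 * N1)
          + κ * (PI - 2 * (κ * c) * RI + (κ * c) ^ 2 * NI) := by ring
      _ ≤ (κ ^ 2 * T1 - 2 * (κ ^ 2 * c) * X1 + (κ * c) ^ 2 * C1)
          + (κ ^ 2 * TI - 2 * (κ ^ 2 * c) * XI + (κ * c) ^ 2 * CI) := add_le_add F1 FI
      _ = _ := by ring
  rw [A, B] at F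
  have G : κ * (4 * W + κ * c * (-TP + 2 * BB + 2 * (X1 + XI) - 4 * (c * AA))
      + (κ * c) ^ 2 * (N1 + NI) + κ * c ^ 2 * (4 * AA - (C1 + CI))) ≤ 0 := by
    have e : κ * (4 * W + κ * c * (-TP + 2 * BB + 2 * (X1 + XI) - 4 * (c * AA))
      + (κ * c) ^ 2 * (N1 + NI) + κ * c ^ 2 * (4 * AA - (C1 + CI)))
      = κ * ((-κ * (c * TP - (T1 + TI)) + 4 * W) - 2 * (κ * c) * (-BB) + (κ * c) ^ 2 * (N1 + NI))
        - (κ ^ 2 * (T1 + TI) - 2 * (κ ^ 2 * c) * (X1 + XI) + (κ * c) ^ 2 * (C1 + CI)) := by ring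
    rw [e]
    linarith only [F]
  exact nonpos_of_mul_nonpos_right G hκ

/-- pointwise minimisation in `θ` -/
lemma pt_min {t x b k : ℝ} (ht : 0 < t) :
    -(k ^ 2 * (b ^ 2 / (4 * (1 + t ^ 2)))) ≤ 4 * ((1 + (t ^ 2)⁻¹) * x ^ 2)
      + k * (x * (-(2 / t) * b)) := by
  have h1 : (1 + t ^ 2) ≠ 0 := by positivity
  have e : 4 * ((1 + (t ^ 2)⁻¹) * x ^ 2) + k * (x * (-(2 / t) * b))
      + k ^ 2 * (b ^ 2 / (4 * (1 + t ^ 2)))
      = (4 * (1 + t ^ 2) * x - k * t * b) ^ 2 / (4 * (1 + t ^ 2) * t ^ 2) := by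
    field_simp
    ring
  have h2 : 0 ≤ (4 * (1 + t ^ 2) * x - k * t * b) ^ 2 / (4 * (1 + t ^ 2) * t ^ 2) := by
    positivity
  linarith

end Crest.Agent.HS.Mn

namespace Crest.Agent.HS
open MeasureTheory Complex Metric Set
open scoped ComplexConjugate Topology
open Crest.Agent.HS.Al Crest.Agent.HS.Mn

theorem disc_main {f : ℂ → ℂ} {κ c : ℝ} {θ : ℂ → ℝ} (hS : Sol f κ c θ) :
    c = 0 ∧ ∀ w ∈ D, θ w = 0 := by
  obtain ⟨a, ha⟩ := exists_coef hS.conf
  have hκ := hS.κpos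
  obtain ⟨iB2, iK2, hM⟩ := mdens_le hS.conf a ha
  obtain ⟨hs, hspos, hG⟩ := G_lower hS.conf a ha
  have hK := kappa_le hS.conf hκ hS.poin
  have hQ := main_Q hS a ha
  have iW := int_wt hS
  set S := ∑' j, ‖a j‖ ^ 2 with hSdef
  set A := ∫ w in D, tau f w with hA
  set G := 4 * A - ∫ w in D, tau f w * (chi f 1 w ^ 2 + chi f I w ^ 2) with hGdef
  have hA0 : 0 ≤ A := integral_nonneg (fun w => by unfold tau; positivity)
  have hc : c = 0 := by
    by_contra hc
    have hI : -((κ * c) ^ 2 * ∫ w in D, (B0 f w ^ 2 / (4 * (1 + tt w ^ 2)) - K2 f w))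
        ≤ ∫ w in D, (4 * ((1 + (tt w ^ 2)⁻¹) * θ w ^ 2)
        + κ * c * (θ w * (-(2 / tt w) * B0 f w)) + (κ * c) ^ 2 * K2 f w) := by
      rw [← integral_const_mul, ← integral_neg]
      by_cases hint : IntegrableOn (fun w => 4 * ((1 + (tt w ^ 2)⁻¹) * θ w ^ 2)
        + κ * c * (θ w * (-(2 / tt w) * B0 f w)) + (κ * c) ^ 2 * K2 f w) D
      · refine integral_mono_ae ((iB2.sub iK2).const_mul _).neg hint ?_
        filter_upwards [ae_D] with w hw
        have := pt_min (x := θ w) (b := B0 f w) (k := κ * c) (tt_pos hw.2)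
        have e : -((κ * c) ^ 2 * (B0 f w ^ 2 / (4 * (1 + tt w ^ 2)) - K2 f w))
          = -((κ * c) ^ 2 * (B0 f w ^ 2 / (4 * (1 + tt w ^ 2)))) + (κ * c) ^ 2 * K2 f w := by ring
        linarith
      · exact absurd (lin_int hS a ha) hint
    have h1 : κ * c ^ 2 * G ≤ (κ * c) ^ 2 * ∫ w in D,
        (B0 f w ^ 2 / (4 * (1 + tt w ^ 2)) - K2 f w) := by linarith
    have hc2 : 0 < κ * c ^ 2 := by positivity
    have h2 : G ≤ κ * ∫ w in D, (B0 f w ^ 2 / (4 * (1 + tt w ^ 2)) - K2 f w) := by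
      have e : (κ * c) ^ 2 * ∫ w in D, (B0 f w ^ 2 / (4 * (1 + tt w ^ 2)) - K2 f w)
        = κ * c ^ 2 * (κ * ∫ w in D, (B0 f w ^ 2 / (4 * (1 + tt w ^ 2)) - K2 f w)) := by ring
      rw [e] at h1
      exact le_of_mul_le_mul_left h1 hc2
    have h3 : G ≤ κ * (Real.pi * (21 / 100) * S ^ 2) :=
      h2.trans (mul_le_mul_of_nonneg_left hM hκ.le)
    have h4 : (Real.pi * S) ^ 2 ≤ A * (κ * (Real.pi * (21 / 100) * S ^ 2)) :=
      hG.trans (mul_le_mul_of_nonneg_left h3 hA0)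
    have h5 : A * (κ * (Real.pi * (21 / 100) * S ^ 2))
        = (κ * A) * (Real.pi * (21 / 100) * S ^ 2) := by ring
    have h6 : (κ * A) * (Real.pi * (21 / 100) * S ^ 2)
        ≤ (4 * Real.pi) * (Real.pi * (21 / 100) * S ^ 2) := by
      refine mul_le_mul_of_nonneg_right hK ?_
      have := Real.pi_pos
      positivity
    have h7 : 0 < (Real.pi * S) ^ 2 := by
      have := Real.pi_pos
      positivity
    nlinarith
  refine ⟨hc, ?_⟩
  subst hc
  have e1 : (∫ w in D, (4 * ((1 + (tt w ^ 2)⁻¹) * θ w ^ 2)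
        + κ * 0 * (θ w * (-(2 / tt w) * B0 f w)) + (κ * 0) ^ 2 * K2 f w))
      = 4 * ∫ w in D, (1 + (tt w ^ 2)⁻¹) * θ w ^ 2 := by
    rw [← integral_const_mul]
    refine integral_congr_ae ?_
    filter_upwards with w
    ring
  rw [e1] at hQ
  have hW0 : ∫ w in D, (1 + (tt w ^ 2)⁻¹) * θ w ^ 2 ≤ 0 := by linarith
  have hnn : 0 ≤ᵐ[volume.restrict D] fun w => (1 + (tt w ^ 2)⁻¹) * θ w ^ 2 := by
    filter_upwards with w
    have : 0 ≤ (tt w ^ 2)⁻¹ := by positivity
    simp only [Pi.zero_apply]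
    positivity
  have hz := (integral_eq_zero_iff_of_nonneg_ae hnn iW).mp
    (le_antisymm hW0 (integral_nonneg_of_ae hnn))
  have hz2 : θ =ᵐ[volume.restrict D] fun _ => 0 := by
    filter_upwards [hz] with w hw
    have h1 : 0 < 1 + (tt w ^ 2)⁻¹ := by
      have : 0 ≤ (tt w ^ 2)⁻¹ := by positivity
      linarith
    have h2 : θ w ^ 2 = 0 := by
      rcases mul_eq_zero.mp hw with h | h
      · exact absurd h h1.ne'
      · exact h
    exact pow_eq_zero_iff (by norm_num) |>.mp h2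
  have hcont : ContinuousOn θ D := hS.test.c1.continuousOn
  have := MeasureTheory.Measure.eqOn_open_of_ae_eq hz2 isOpen_ball hcont continuousOn_const
  exact this

end Crest.Agent.HS
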