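import Crest.Agent.HS.Defs
set_option autoImplicit false
noncomputable section
namespace Crest.Agent.HS
open MeasureTheory Complex Metric Set
open scoped ComplexConjugate Topology

private theorem Poinc_gr_eq (g : ℂ → ℝ) (z : ℂ) :
    gr g z = ((fderiv ℝ g z 1 : ℝ) : ℂ) - ((fderiv ℝ g z I : ℝ) : ℂ) * I := by
  apply Complex.ext <;> simp [gr]

private theorem Poinc_fderiv_eq (g : ℂ → ℝ) (z w : ℂ) : fderiv ℝ g z w = (gr g z * w).re := by
  have h2 : w = w.re • (1 : ℂ) + w.im • I := by
    apply Complex.ext <;> simp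
  conv_lhs => rw [h2]
  rw [map_add, map_smul, map_smul]
  simp only [gr, smul_eq_mul, Complex.mul_re]
  ring

private theorem Poinc_fderiv_abs (g : ℂ → ℝ) (z w : ℂ) :
    |fderiv ℝ g z w| ≤ ‖gr g z‖ * ‖w‖ := by
  rw [Poinc_fderiv_eq]
  exact (Complex.abs_re_le_norm _).trans (norm_mul_le _ _)

private theorem Poinc_pt (g : ℂ → ℝ) (hg : ContDiffOn ℝ 1 g D) {w : ℂ} (hw : w ∈ D) :
    (g w) ^ 2 ≤ 2 * (g ((1 / 2 : ℝ) • w)) ^ 2 + ∫ s in (1 / 2 : ℝ)..1, ‖gr g (s • w)‖ ^ 2 := by
  have hw1 : ‖w‖ < 1 := by simpa using hw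
  have hmap : MapsTo (fun s : ℝ => s • w) (Icc (1 / 2) 1) D := by
    intro s hs
    have h0 : 0 ≤ s := by have := hs.1; linarith
    have : ‖s • w‖ < 1 := by
      rw [norm_smul, Real.norm_of_nonneg h0]
      nlinarith [hs.2, norm_nonneg w]
    simpa using this
  have hfd : ContinuousOn (fderiv ℝ g) D := hg.continuousOn_fderiv_of_isOpen isOpen_ball le_rfl
  have hcs : ContinuousOn (fun s : ℝ => s • w) (Icc (1 / 2) 1) := by fun_prop
  have hc1 : ContinuousOn (fun s : ℝ => fderiv ℝ g (s • w)) (Icc (1 / 2) 1) :=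
    hfd.comp hcs hmap
  have hφ : ContinuousOn (fun s : ℝ => fderiv ℝ g (s • w) w) (Icc (1 / 2) 1) :=
    hc1.clm_apply continuousOn_const
  have hgr : ContinuousOn (fun s : ℝ => gr g (s • w)) (Icc (1 / 2) 1) := by
    have h1 : ContinuousOn (fun s : ℝ => fderiv ℝ g (s • w) 1) (Icc (1 / 2) 1) :=
      hc1.clm_apply continuousOn_const
    have h2 : ContinuousOn (fun s : ℝ => fderiv ℝ g (s • w) I) (Icc (1 / 2) 1) :=
      hc1.clm_apply continuousOn_const
    simp_rw [Poinc_gr_eq]
    exact (Complex.continuous_ofReal.comp_continuousOn h1).sub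
      ((Complex.continuous_ofReal.comp_continuousOn h2).mul continuousOn_const)
  have hu : uIcc (1 / 2 : ℝ) 1 = Icc (1 / 2) 1 := uIcc_of_le (by norm_num)
  have iφ : IntervalIntegrable (fun s : ℝ => fderiv ℝ g (s • w) w) volume (1 / 2) 1 :=
    ContinuousOn.intervalIntegrable (by rw [hu]; exact hφ)
  have iφ2 : IntervalIntegrable (fun s : ℝ => (fderiv ℝ g (s • w) w) ^ 2) volume (1 / 2) 1 :=
    ContinuousOn.intervalIntegrable (by rw [hu]; exact hφ.pow 2)
  have igr : IntervalIntegrable (fun s : ℝ => ‖gr g (s • w)‖ ^ 2) volume (1 / 2) 1 :=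
    ContinuousOn.intervalIntegrable (by rw [hu]; exact hgr.norm.pow 2)
  have hA : ∫ s in (1 / 2 : ℝ)..1, fderiv ℝ g (s • w) w = g w - g ((1 / 2 : ℝ) • w) := by
    have h := intervalIntegral.integral_eq_sub_of_hasDerivAt (f := fun s : ℝ => g (s • w))
      (f' := fun s : ℝ => fderiv ℝ g (s • w) w) (a := 1 / 2) (b := 1) (by
        intro s hs
        rw [hu] at hs
        have hd : DifferentiableAt ℝ g (s • w) :=
          (hg.differentiableOn one_ne_zero).differentiableAt (isOpen_ball.mem_nhds (hmap hs))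
        have h1 : HasDerivAt (fun s : ℝ => s • w) w s := by
          simpa using (hasDerivAt_id s).smul_const w
        exact hd.hasFDerivAt.comp_hasDerivAt s h1) iφ
    simpa using h
  set A := ∫ s in (1 / 2 : ℝ)..1, fderiv ℝ g (s • w) w with hAdef
  have hsq : 2 * A ^ 2 ≤ ∫ s in (1 / 2 : ℝ)..1, (fderiv ℝ g (s • w) w) ^ 2 := by
    have h0 : 0 ≤ ∫ s in (1 / 2 : ℝ)..1, (fderiv ℝ g (s • w) w - 2 * A) ^ 2 :=
      intervalIntegral.integral_nonneg (by norm_num) fun s _ => sq_nonneg _
    have h1 : ∫ s in (1 / 2 : ℝ)..1, (fderiv ℝ g (s • w) w - 2 * A) ^ 2 =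
        (∫ s in (1 / 2 : ℝ)..1, (fderiv ℝ g (s • w) w) ^ 2) - 4 * A * A + 4 * A ^ 2 * (1 / 2) := by
      have e : ∀ s : ℝ, (fderiv ℝ g (s • w) w - 2 * A) ^ 2 =
          (fderiv ℝ g (s • w) w) ^ 2 - 4 * A * fderiv ℝ g (s • w) w + 4 * A ^ 2 := by
        intro s; ring
      simp_rw [e]
      rw [intervalIntegral.integral_add (iφ2.sub (iφ.const_mul _)) intervalIntegrable_const,
        intervalIntegral.integral_sub iφ2 (iφ.const_mul _),
        intervalIntegral.integral_const_mul, intervalIntegral.integral_const, ← hAdef]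
      simp only [smul_eq_mul]
      ring
    rw [h1] at h0
    nlinarith
  have hle : ∫ s in (1 / 2 : ℝ)..1, (fderiv ℝ g (s • w) w) ^ 2 ≤
      ∫ s in (1 / 2 : ℝ)..1, ‖gr g (s • w)‖ ^ 2 := by
    refine intervalIntegral.integral_mono_on (by norm_num) iφ2 igr fun s _ => ?_
    have h1 := Poinc_fderiv_abs g (s • w) w
    have h2 : |fderiv ℝ g (s • w) w| ≤ ‖gr g (s • w)‖ :=
      h1.trans (by nlinarith [norm_nonneg (gr g (s • w))])
    rw [← sq_abs]
    exact pow_le_pow_left₀ (abs_nonneg _) h2 2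
  have hgw : g w = g ((1 / 2 : ℝ) • w) + A := by rw [hA]; ring
  rw [hgw]
  nlinarith [sq_nonneg (g ((1 / 2 : ℝ) • w) - A)]

private theorem Poinc_meas (g : ℂ → ℝ) : Measurable (fun z => ENNReal.ofReal (‖gr g z‖ ^ 2)) := by
  have h1 : Measurable (fun z => fderiv ℝ g z (1 : ℂ)) := measurable_fderiv_apply_const ℝ g 1
  have h2 : Measurable (fun z => fderiv ℝ g z I) := measurable_fderiv_apply_const ℝ g I
  have h3 : Measurable (fun z => gr g z) := by
    simp_rw [Poinc_gr_eq]
    exact (Complex.measurable_ofReal.comp h1).sub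
      ((Complex.measurable_ofReal.comp h2).mul measurable_const)
  exact (h3.norm.pow_const 2).ennreal_ofReal

private theorem Poinc_scale (G : ℂ → ENNReal) (hG : Measurable G) {s : ℝ} (hs : 1 / 2 < s)
    (hs1 : s ≤ 1) : ∫⁻ w in D, G (s • w) ≤ 4 * ∫⁻ w in D, G w := by
  have hs0 : s ≠ 0 := by linarith
  have h1 : ∫⁻ w in D, G (s • w) ≤ ∫⁻ w, (D.indicator G) (s • w) := by
    rw [← lintegral_indicator measurableSet_ball]
    refine lintegral_mono fun w => ?_
    by_cases hw : w ∈ D
    · have hsw : s • w ∈ D := by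
        have hw1 : ‖w‖ < 1 := by simpa using hw
        have : ‖s • w‖ < 1 := by
          rw [norm_smul, Real.norm_of_nonneg (by linarith)]
          nlinarith [norm_nonneg w]
        simpa using this
      rw [indicator_of_mem hw, indicator_of_mem hsw]
    · rw [indicator_of_notMem hw]
      exact zero_le
  refine h1.trans ?_
  have h2 : ∫⁻ w, (D.indicator G) (s • w) =
      ENNReal.ofReal (abs (s ^ Module.finrank ℝ ℂ)⁻¹) * ∫⁻ w in D, G w := by
    rw [← lintegral_map (hG.indicator measurableSet_ball) (measurable_const_smul s),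
      Measure.map_addHaar_smul volume hs0, lintegral_smul_measure, smul_eq_mul,
      lintegral_indicator measurableSet_ball]
  rw [h2]
  gcongr
  rw [Complex.finrank_real_complex, abs_of_pos (by positivity)]
  rw [show (4 : ENNReal) = ENNReal.ofReal 4 by simp]
  apply ENNReal.ofReal_le_ofReal
  rw [inv_le_comm₀ (by positivity) (by norm_num)]
  nlinarith

/-- A `C¹` function in the disc with finite energy is square integrable. -/
theorem sq_int (g : ℂ → ℝ) (hg : ContDiffOn ℝ 1 g D)
    (he : IntegrableOn (fun w => ‖gr g w‖ ^ 2) D) : IntegrableOn (fun w => g w ^ 2) D := by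
  set G : ℂ → ENNReal := fun z => ENNReal.ofReal (‖gr g z‖ ^ 2) with hGdef
  have hG : Measurable G := Poinc_meas g
  have hJ : ∫⁻ w in D, G w < ⊤ := by
    have := he.2
    rwa [hasFiniteIntegral_iff_ofReal (Filter.Eventually.of_forall fun w => by positivity)] at this
  -- bound on the half disc
  have hsub : closedBall (0 : ℂ) (1 / 2) ⊆ D := closedBall_subset_ball (by norm_num)
  obtain ⟨M, hM⟩ := (isCompact_closedBall (0 : ℂ) (1 / 2)).exists_bound_of_continuousOn
    (hg.continuousOn.mono hsub)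
  have hpt : ∀ w ∈ D, ENNReal.ofReal (g w ^ 2) ≤
      ENNReal.ofReal (2 * M ^ 2) + ∫⁻ s in Ioc (1 / 2 : ℝ) 1, G (s • w) := by
    intro w hw
    have hw1 : ‖w‖ < 1 := by simpa using hw
    have h1 := Poinc_pt g hg hw
    have h2 : g ((1 / 2 : ℝ) • w) ^ 2 ≤ M ^ 2 := by
      have h3 : (1 / 2 : ℝ) • w ∈ closedBall (0 : ℂ) (1 / 2) := by
        have : ‖(1 / 2 : ℝ) • w‖ ≤ 1 / 2 := by
          rw [norm_smul, Real.norm_of_nonneg (by norm_num)]
          linarith
        simpa using this
      have h4 := hM _ h3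
      rw [Real.norm_eq_abs] at h4
      rw [← sq_abs]
      exact pow_le_pow_left₀ (abs_nonneg _) h4 2
    have hint : IntegrableOn (fun s : ℝ => ‖gr g (s • w)‖ ^ 2) (Ioc (1 / 2) 1) := by
      have hmap : MapsTo (fun s : ℝ => s • w) (Icc (1 / 2) 1) D := by
        intro s hs
        have h0 : 0 ≤ s := by have := hs.1; linarith
        have : ‖s • w‖ < 1 := by
          rw [norm_smul, Real.norm_of_nonneg h0]
          nlinarith [hs.2, norm_nonneg w]
        simpa using this
      have hfd : ContinuousOn (fderiv ℝ g) D :=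
        hg.continuousOn_fderiv_of_isOpen isOpen_ball le_rfl
      have hc1 : ContinuousOn (fun s : ℝ => fderiv ℝ g (s • w)) (Icc (1 / 2) 1) :=
        hfd.comp (by fun_prop) hmap
      have hgr : ContinuousOn (fun s : ℝ => gr g (s • w)) (Icc (1 / 2) 1) := by
        have h1 : ContinuousOn (fun s : ℝ => fderiv ℝ g (s • w) 1) (Icc (1 / 2) 1) :=
          hc1.clm_apply continuousOn_const
        have h2 : ContinuousOn (fun s : ℝ => fderiv ℝ g (s • w) I) (Icc (1 / 2) 1) :=
          hc1.clm_apply continuousOn_const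
        simp_rw [Poinc_gr_eq]
        exact (Complex.continuous_ofReal.comp_continuousOn h1).sub
          ((Complex.continuous_ofReal.comp_continuousOn h2).mul continuousOn_const)
      exact ((hgr.norm.pow 2).integrableOn_compact isCompact_Icc).mono_set Ioc_subset_Icc_self
    have h5 : ∫⁻ s in Ioc (1 / 2 : ℝ) 1, G (s • w) =
        ENNReal.ofReal (∫ s in (1 / 2 : ℝ)..1, ‖gr g (s • w)‖ ^ 2) := by
      rw [intervalIntegral.integral_of_le (by norm_num),
        ofReal_integral_eq_lintegral_ofReal hint (Filter.Eventually.of_forall fun s => by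
          positivity)]
    rw [h5, ← ENNReal.ofReal_add (by positivity)
      (intervalIntegral.integral_nonneg (by norm_num) fun s _ => by positivity)]
    exact ENNReal.ofReal_le_ofReal (by linarith)
  refine ⟨(hg.continuousOn.pow 2).aestronglyMeasurable measurableSet_ball, ?_⟩
  rw [hasFiniteIntegral_iff_ofReal (Filter.Eventually.of_forall fun w => sq_nonneg _)]
  calc ∫⁻ w in D, ENNReal.ofReal (g w ^ 2)
      ≤ ∫⁻ w in D, (ENNReal.ofReal (2 * M ^ 2) + ∫⁻ s in Ioc (1 / 2 : ℝ) 1, G (s • w)) :=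
        setLIntegral_mono' measurableSet_ball hpt
    _ = ENNReal.ofReal (2 * M ^ 2) * volume D +
        ∫⁻ w in D, ∫⁻ s in Ioc (1 / 2 : ℝ) 1, G (s • w) := by
        rw [lintegral_add_left measurable_const, setLIntegral_const]
    _ = ENNReal.ofReal (2 * M ^ 2) * volume D +
        ∫⁻ s in Ioc (1 / 2 : ℝ) 1, ∫⁻ w in D, G (s • w) := by
        congr 1
        refine lintegral_lintegral_swap ?_
        have hm : Measurable (fun p : ℂ × ℝ => p.2 • p.1) := by fun_prop
        exact (hG.comp hm).aemeasurable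
    _ ≤ ENNReal.ofReal (2 * M ^ 2) * volume D +
        ∫⁻ _ in Ioc (1 / 2 : ℝ) 1, 4 * ∫⁻ w in D, G w := by
        refine add_le_add le_rfl ?_
        refine setLIntegral_mono' measurableSet_Ioc fun s hs => ?_
        exact Poinc_scale G hG hs.1 hs.2
    _ < ⊤ := by
        rw [setLIntegral_const]
        refine ENNReal.add_lt_top.2 ⟨ENNReal.mul_lt_top ENNReal.ofReal_lt_top measure_ball_lt_top,
          ENNReal.mul_lt_top (ENNReal.mul_lt_top (by norm_num) hJ) ?_⟩
        rw [Real.volume_Ioc]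
        exact ENNReal.ofReal_lt_top

end Crest.Agent.HS
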