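import Crest.Agent.HS.Cut
set_option autoImplicit false
noncomputable section
namespace Crest.Agent.HS
open MeasureTheory Complex Metric Set Filter
open scoped ComplexConjugate Topology

theorem gr_mul {a b : ℂ → ℝ} {w : ℂ} (ha : DifferentiableAt ℝ a w) (hb : DifferentiableAt ℝ b w) :
    gr (fun z => a z * b z) w = (a w : ℂ) * gr b w + (b w : ℂ) * gr a w := by
  have h := ha.hasFDerivAt.mul hb.hasFDerivAt
  have h' : fderiv ℝ (fun z => a z * b z) w = _ := h.fderiv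
  unfold gr
  rw [h']
  apply Complex.ext
  · simp
  · simp; ring

theorem gr_cin (n : ℝ) (w : ℂ) :
    gr (cin n) w = ((2 * (deriv Real.smoothTransition (n * ‖w‖ ^ 2 - 1) * n) : ℝ) : ℂ) * conj w := by
  unfold gr
  rw [(hasFDerivAt_cin n w).fderiv]
  apply Complex.ext
  · simp; ring
  · simp; ring

theorem gr_congr {a b : ℂ → ℝ} {w : ℂ} (h : a =ᶠ[𝓝 w] b) : gr a w = gr b w := by
  unfold gr; rw [h.fderiv_eq]

theorem norm_gr_le {a : ℂ → ℝ} {w : ℂ} : ‖gr a w‖ ≤ 2 * ‖fderiv ℝ a w‖ := by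
  have h1 : ‖gr a w‖ ≤ |fderiv ℝ a w 1| + |fderiv ℝ a w I| := by
    have := Complex.norm_le_abs_re_add_abs_im (gr a w)
    simpa [gr] using this
  have h2 : |fderiv ℝ a w 1| ≤ ‖fderiv ℝ a w‖ := by
    simpa using (fderiv ℝ a w).le_opNorm 1
  have h3 : |fderiv ℝ a w I| ≤ ‖fderiv ℝ a w‖ := by
    simpa using (fderiv ℝ a w).le_opNorm I
  linarith

theorem gr_continuousOn {a : ℂ → ℝ} {U : Set ℂ} (hU : IsOpen U) (ha : ContDiffOn ℝ 1 a U) :
    ContinuousOn (gr a) U := by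
  have h := ha.continuousOn_fderiv_of_isOpen hU (by norm_num)
  have h1 : ContinuousOn (fun w => fderiv ℝ a w 1) U := h.clm_apply continuousOn_const
  have h2 : ContinuousOn (fun w => fderiv ℝ a w I) U := h.clm_apply continuousOn_const
  have : gr a = fun w => ((fderiv ℝ a w 1 : ℝ) : ℂ) - ((fderiv ℝ a w I : ℝ) : ℂ) * I := by
    funext w
    apply Complex.ext <;> simp [gr]
  rw [this]
  exact (continuous_ofReal.comp_continuousOn h1).sub
    ((continuous_ofReal.comp_continuousOn h2).mul continuousOn_const)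

theorem tau_continuousOn {f : ℂ → ℂ} (hf : DifferentiableOn ℂ f D) : ContinuousOn (tau f) D := by
  have h := (hf.deriv isOpen_ball).continuousOn
  exact h.norm.pow 2

theorem ae_ne_zero_D : ∀ᵐ w ∂(volume.restrict D), w ≠ (0 : ℂ) := by
  have : ∀ᵐ w : ℂ, w ≠ 0 :=
    compl_mem_ae_iff.2 (measure_singleton (μ := (volume : Measure ℂ)) (0 : ℂ))
  exact ae_restrict_of_ae this

theorem closedBall_half_subset : closedBall (0 : ℂ) (1 / 2) ⊆ D := by
  apply closedBall_subset_ball; norm_num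

/-- the weak equation for test functions with a pole at `0` -/
theorem weak_pole {f : ℂ → ℂ} {κ c : ℝ} {θ : ℂ → ℝ} (hS : Sol f κ c θ) (χ : ℂ → ℝ)
    (hχ : ContDiffOn ℝ 1 χ (D \ {0})) (K : ℝ)
    (h1 : ∀ w ∈ D, w ≠ 0 → ‖w‖ < 1 / 2 → |χ w| ≤ K * ‖w‖⁻¹ ∧ ‖gr χ w‖ ≤ K * ‖w‖⁻¹ ^ 2)
    (h2 : IntegrableOn (fun w => ‖gr χ w‖ ^ 2) (D \ ball 0 (1 / 2)))
    (h3 : IntegrableOn (fun w => tau f w * χ w ^ 2) (D \ ball 0 (1 / 2))) :
    IntegrableOn (fun w => (gr θ w * conj (gr χ w)).re) D ∧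
    IntegrableOn (fun w => tau f w * ((c - θ w) * χ w)) D ∧
    ∫ w in D, (gr θ w * conj (gr χ w)).re = -κ * ∫ w in D, tau f w * ((c - θ w) * χ w) := by
  obtain ⟨L, hL0, hL⟩ := exists_st_bound
  obtain ⟨C0, hC0⟩ := hS.near
  have hopen : IsOpen (D \ {0}) := isOpen_ball.sdiff isClosed_singleton
  have hDm : MeasurableSet D := measurableSet_ball
  have hAm : MeasurableSet (D \ ball (0 : ℂ) (1 / 2)) := hDm.diff measurableSet_ball
  have hballD : ball (0 : ℂ) (1 / 2) ⊆ D := ball_subset_ball (by norm_num)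
  have hsplit : D = ball (0 : ℂ) (1 / 2) ∪ (D \ ball (0 : ℂ) (1 / 2)) := by
    rw [union_diff_cancel hballD]
  set N : ℕ → ℝ := fun n => (n : ℝ) + 9 with hN
  have hN9 : ∀ n, 9 ≤ N n := fun n => by simp [hN]
  set X : ℕ → ℂ → ℝ := fun n z => cin (N n) z * χ z with hX
  have hdiff : ∀ w ∈ D, w ≠ 0 → DifferentiableAt ℝ χ w := fun w hw hw0 =>
    (hχ.differentiableOn (by norm_num)).differentiableAt (hopen.mem_nhds ⟨hw, hw0⟩)
  have hgrX : ∀ n, ∀ w ∈ D, w ≠ 0 → gr (X n) w = (cin (N n) w : ℂ) * gr χ w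
      + (χ w : ℂ) * gr (cin (N n)) w := by
    intro n w hw hw0
    exact gr_mul ((cin_contDiff (N n) (k := 1)).differentiable (by norm_num) w) (hdiff w hw hw0)
  have hXc1 : ∀ n, ContDiffOn ℝ 1 (X n) D := by
    intro n w hw
    by_cases hw0 : w = 0
    · have : X n =ᶠ[𝓝 w] fun _ => 0 := by
        have hc : ContinuousAt (fun z : ℂ => N n * ‖z‖ ^ 2) w := by fun_prop
        have : ∀ᶠ z in 𝓝 w, N n * ‖z‖ ^ 2 < 1 := by
          apply hc.eventually_lt continuousAt_const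
          simp [hw0]
        filter_upwards [this] with z hz
        simp [hX, cin_zero hz.le]
      exact (contDiffAt_const.congr_of_eventuallyEq this).contDiffWithinAt
    · exact ((cin_contDiff (N n) (k := 1)).contDiffAt.mul
        (hχ.contDiffAt (hopen.mem_nhds ⟨hw, hw0⟩))).contDiffWithinAt
  -- `cin = 1` away from `0`
  have hcin1 : ∀ n, ∀ w : ℂ, 1 / 2 ≤ ‖w‖ → cin (N n) w = 1 ∧ gr (cin (N n)) w = 0 := by
    intro n w hw
    have := hN9 n
    have hh : 2 < N n * ‖w‖ ^ 2 := by nlinarith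
    refine ⟨cin_one hh.le, ?_⟩
    rw [gr_cin, (hL _).2.2 (by linarith)]; simp
  have hXeq : ∀ n, ∀ w ∈ D, 1 / 2 ≤ ‖w‖ → X n w = χ w ∧ gr (X n) w = gr χ w := by
    intro n w hw hw2
    obtain ⟨e1, e2⟩ := hcin1 n w hw2
    have hw0 : w ≠ 0 := by
      rintro rfl; norm_num at hw2
    refine ⟨by simp [hX, e1], ?_⟩
    rw [hgrX n w hw hw0, e1, e2]; simp
  have hgrcin : ∀ n, ∀ w : ℂ, w ≠ 0 → ‖gr (cin (N n)) w‖ ≤ 4 * L * ‖w‖⁻¹ := by
    intro n w hw0
    have hwn : 0 < ‖w‖ := norm_pos_iff.2 hw0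
    have hNn := hN9 n
    rw [gr_cin, norm_mul, RCLike.norm_conj, Complex.norm_real, Real.norm_eq_abs, abs_mul, abs_mul,
      abs_of_pos (by norm_num : (0 : ℝ) < 2), abs_of_nonneg (by linarith : (0 : ℝ) ≤ N n)]
    by_cases hc : 1 < N n * ‖w‖ ^ 2 - 1
    · rw [(hL _).2.2 hc]; simp; positivity
    · push Not at hc
      have h8 := (hL (N n * ‖w‖ ^ 2 - 1)).1
      calc 2 * (|deriv Real.smoothTransition (N n * ‖w‖ ^ 2 - 1)| * N n) * ‖w‖
          ≤ 2 * (L * N n) * ‖w‖ := by gcongr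
        _ = 2 * L * (N n * ‖w‖ ^ 2) * ‖w‖⁻¹ := by field_simp
        _ ≤ 2 * L * 2 * ‖w‖⁻¹ := by gcongr; linarith
        _ = 4 * L * ‖w‖⁻¹ := by ring
  have hTest : ∀ n, Test f (X n) := by
    intro n
    refine ⟨hXc1 n, ?_, ?_⟩
    · rw [hsplit, integrableOn_union]
      constructor
      · have hc : ContinuousOn (fun w => ‖gr (X n) w‖ ^ 2) (closedBall (0 : ℂ) (1 / 2)) :=
          ((gr_continuousOn isOpen_ball (hXc1 n)).norm.pow 2).mono closedBall_half_subset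
        exact (hc.integrableOn_compact (isCompact_closedBall _ _)).mono_set ball_subset_closedBall
      · refine h2.congr_fun ?_ hAm
        intro w hw
        have hw2 : 1 / 2 ≤ ‖w‖ := by simpa using hw.2
        simp only [(hXeq n w hw.1 hw2).2]
    · rw [hsplit, integrableOn_union]
      constructor
      · have hc : ContinuousOn (fun w => tau f w * X n w ^ 2) (closedBall (0 : ℂ) (1 / 2)) :=
          ((tau_continuousOn hS.conf.diff).mul ((hXc1 n).continuousOn.pow 2)).mono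
            closedBall_half_subset
        exact (hc.integrableOn_compact (isCompact_closedBall _ _)).mono_set ball_subset_closedBall
      · refine h3.congr_fun ?_ hAm
        intro w hw
        have hw2 : 1 / 2 ≤ ‖w‖ := by simpa using hw.2
        simp only [(hXeq n w hw.1 hw2).1]
  have hwk : ∀ n, ∫ w in D, (gr θ w * conj (gr (X n) w)).re
      = -κ * ∫ w in D, tau f w * ((c - θ w) * X n w) := fun n => hS.weak (X n) (hTest n)
  -- bounds
  obtain ⟨M, hM⟩ := (isCompact_closedBall (0 : ℂ) (1 / 2)).exists_bound_of_continuousOn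
    ((tau_continuousOn hS.conf.diff).mono closedBall_half_subset)
  have hb1 : IntegrableOn (fun w => ‖gr θ w‖ ^ 2
      + (D \ ball (0 : ℂ) (1 / 2)).indicator (fun w => ‖gr χ w‖ ^ 2) w
      + |C0| * (|K| * (1 + 4 * L)) * ‖w‖⁻¹) D := by
    refine (hS.test.en.add ?_).add (int_inv_norm.const_mul _)
    exact ((integrable_indicator_iff hAm).2 h2).integrableOn
  have hb2 : IntegrableOn (fun w => tau f w * θ w ^ 2 + c ^ 2 * tau f w
      + (D \ ball (0 : ℂ) (1 / 2)).indicator (fun w => tau f w * χ w ^ 2) w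
      + |M| * (|c| + |C0|) * |K| * ‖w‖⁻¹) D := by
    refine ((hS.test.l2.add (hS.conf.area.const_mul _)).add ?_).add (int_inv_norm.const_mul _)
    exact ((integrable_indicator_iff hAm).2 h3).integrableOn
  have hgrθc := gr_continuousOn isOpen_ball hS.test.c1
  have hgrχc := gr_continuousOn hopen hχ
  have hτc := tau_continuousOn hS.conf.diff
  have hτ0 : ∀ w, 0 ≤ tau f w := fun w => by unfold tau; positivity
  have hnear : ∀ w ∈ D, w ≠ 0 → ‖w‖ < 1 / 2 → |θ w| ≤ |C0| ∧ ‖gr θ w‖ ≤ |C0| * ‖w‖ := by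
    intro w hw hw0 hw2
    obtain ⟨a1, a2⟩ := hC0 w (by simpa using hw2)
    have hwn : 0 < ‖w‖ := norm_pos_iff.2 hw0
    constructor
    · calc |θ w| ≤ C0 * ‖w‖ ^ 2 := a1
        _ ≤ |C0| * ‖w‖ ^ 2 := by gcongr; exact le_abs_self _
        _ ≤ |C0| * 1 := by gcongr; nlinarith
        _ = |C0| := mul_one _
    · calc ‖gr θ w‖ ≤ C0 * ‖w‖ := a2
        _ ≤ |C0| * ‖w‖ := by gcongr; exact le_abs_self _
  -- pointwise bounds valid for `χ` and for `X n`
  have bd1 : ∀ (A : ℂ → ℝ) (w : ℂ), w ∈ D → w ≠ 0 →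
      (‖w‖ < 1 / 2 → ‖gr A w‖ ≤ |K| * (1 + 4 * L) * ‖w‖⁻¹ ^ 2) →
      (1 / 2 ≤ ‖w‖ → gr A w = gr χ w) →
      ‖(gr θ w * conj (gr A w)).re‖ ≤ ‖gr θ w‖ ^ 2
      + (D \ ball (0 : ℂ) (1 / 2)).indicator (fun w => ‖gr χ w‖ ^ 2) w
      + |C0| * (|K| * (1 + 4 * L)) * ‖w‖⁻¹ := by
    intro A w hw hw0 hA1 hA2
    have hwn : 0 < ‖w‖ := norm_pos_iff.2 hw0
    have hle : ‖(gr θ w * conj (gr A w)).re‖ ≤ ‖gr θ w‖ * ‖gr A w‖ := by
      calc ‖(gr θ w * conj (gr A w)).re‖ ≤ ‖gr θ w * conj (gr A w)‖ := by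
            rw [Real.norm_eq_abs]; exact abs_re_le_norm _
        _ = ‖gr θ w‖ * ‖gr A w‖ := by rw [norm_mul, RCLike.norm_conj]
    rcases lt_or_ge ‖w‖ (1 / 2) with hw2 | hw2
    · have hi : (D \ ball (0 : ℂ) (1 / 2)).indicator (fun w => ‖gr χ w‖ ^ 2) w = 0 := by
        apply indicator_of_notMem
        intro h
        exact h.2 (by simpa using hw2)
      rw [hi]
      have a := hA1 hw2
      have b := (hnear w hw hw0 hw2).2
      have : ‖gr θ w‖ * ‖gr A w‖ ≤ |C0| * (|K| * (1 + 4 * L)) * ‖w‖⁻¹ := by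
        calc ‖gr θ w‖ * ‖gr A w‖ ≤ (|C0| * ‖w‖) * (|K| * (1 + 4 * L) * ‖w‖⁻¹ ^ 2) := by gcongr
          _ = |C0| * (|K| * (1 + 4 * L)) * ‖w‖⁻¹ := by field_simp
      nlinarith [sq_nonneg ‖gr θ w‖]
    · have hi : (D \ ball (0 : ℂ) (1 / 2)).indicator (fun w => ‖gr χ w‖ ^ 2) w = ‖gr χ w‖ ^ 2 := by
        apply indicator_of_mem
        exact ⟨hw, by simpa using hw2⟩
      rw [hi]
      rw [hA2 hw2] at hle ⊢
      have : 0 ≤ |C0| * (|K| * (1 + 4 * L)) * ‖w‖⁻¹ := by positivity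
      nlinarith [sq_nonneg (‖gr θ w‖ - ‖gr χ w‖), sq_nonneg ‖gr θ w‖, sq_nonneg ‖gr χ w‖]
  have bd2 : ∀ (A : ℂ → ℝ) (w : ℂ), w ∈ D → w ≠ 0 →
      (‖w‖ < 1 / 2 → |A w| ≤ |K| * ‖w‖⁻¹) →
      (1 / 2 ≤ ‖w‖ → A w = χ w) →
      ‖tau f w * ((c - θ w) * A w)‖ ≤ tau f w * θ w ^ 2 + c ^ 2 * tau f w
      + (D \ ball (0 : ℂ) (1 / 2)).indicator (fun w => tau f w * χ w ^ 2) w
      + |M| * (|c| + |C0|) * |K| * ‖w‖⁻¹ := by
    intro A w hw hw0 hA1 hA2
    have hwn : 0 < ‖w‖ := norm_pos_iff.2 hw0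
    have ht := hτ0 w
    rw [Real.norm_eq_abs, abs_mul, abs_mul, abs_of_nonneg ht]
    rcases lt_or_ge ‖w‖ (1 / 2) with hw2 | hw2
    · have hi : (D \ ball (0 : ℂ) (1 / 2)).indicator (fun w => tau f w * χ w ^ 2) w = 0 := by
        apply indicator_of_notMem
        intro h
        exact h.2 (by simpa using hw2)
      rw [hi]
      have a := hA1 hw2
      have b := (hnear w hw hw0 hw2).1
      have hMw : tau f w ≤ |M| := by
        have := hM w (by simpa using hw2.le)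
        rw [Real.norm_eq_abs, abs_of_nonneg ht] at this
        exact this.trans (le_abs_self _)
      have hcθ : |c - θ w| ≤ |c| + |C0| := (abs_sub _ _).trans (by linarith)
      have : tau f w * (|c - θ w| * |A w|) ≤ |M| * (|c| + |C0|) * |K| * ‖w‖⁻¹ := by
        calc tau f w * (|c - θ w| * |A w|) ≤ |M| * ((|c| + |C0|) * (|K| * ‖w‖⁻¹)) := by gcongr
          _ = |M| * (|c| + |C0|) * |K| * ‖w‖⁻¹ := by ring
      have : 0 ≤ tau f w * θ w ^ 2 := by positivity
      have : 0 ≤ c ^ 2 * tau f w := by positivity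
      linarith
    · have hi : (D \ ball (0 : ℂ) (1 / 2)).indicator (fun w => tau f w * χ w ^ 2) w
          = tau f w * χ w ^ 2 := by
        apply indicator_of_mem
        exact ⟨hw, by simpa using hw2⟩
      rw [hi, hA2 hw2]
      have h0 : 0 ≤ |M| * (|c| + |C0|) * |K| * ‖w‖⁻¹ := by positivity
      have h4 : |c - θ w| * |χ w| ≤ θ w ^ 2 + c ^ 2 + χ w ^ 2 := by
        rw [← abs_mul, abs_le]
        constructor <;> nlinarith [sq_nonneg (c - θ w + χ w), sq_nonneg (c - θ w - χ w),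
          sq_nonneg (c + θ w), sq_nonneg (χ w), sq_nonneg (c - θ w)]
      nlinarith
  have hXb1 : ∀ n, ∀ w ∈ D, w ≠ 0 → ‖w‖ < 1 / 2 → |X n w| ≤ |K| * ‖w‖⁻¹ := by
    intro n w hw hw0 hw2
    have hwn : 0 < ‖w‖ := norm_pos_iff.2 hw0
    simp only [hX, abs_mul, abs_of_nonneg (cin_nonneg (N n) w)]
    calc cin (N n) w * |χ w| ≤ 1 * (K * ‖w‖⁻¹) := by
          gcongr
          · exact cin_le_one _ _
          · exact (h1 w hw hw0 hw2).1
      _ ≤ |K| * ‖w‖⁻¹ := by rw [one_mul]; gcongr; exact le_abs_self _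
  have hXb2 : ∀ n, ∀ w ∈ D, w ≠ 0 → ‖w‖ < 1 / 2 → ‖gr (X n) w‖ ≤ |K| * (1 + 4 * L) * ‖w‖⁻¹ ^ 2 := by
    intro n w hw hw0 hw2
    have hwn : 0 < ‖w‖ := norm_pos_iff.2 hw0
    rw [hgrX n w hw hw0]
    obtain ⟨a1, a2⟩ := h1 w hw hw0 hw2
    have a1' : |χ w| ≤ |K| * ‖w‖⁻¹ := a1.trans (by gcongr; exact le_abs_self _)
    have a2' : ‖gr χ w‖ ≤ |K| * ‖w‖⁻¹ ^ 2 := a2.trans (by gcongr; exact le_abs_self _)
    have a3 := hgrcin n w hw0
    calc ‖(cin (N n) w : ℂ) * gr χ w + (χ w : ℂ) * gr (cin (N n)) w‖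
        ≤ ‖(cin (N n) w : ℂ) * gr χ w‖ + ‖(χ w : ℂ) * gr (cin (N n)) w‖ := norm_add_le _ _
      _ = cin (N n) w * ‖gr χ w‖ + |χ w| * ‖gr (cin (N n)) w‖ := by
          rw [norm_mul, norm_mul, Complex.norm_real, Complex.norm_real, Real.norm_eq_abs,
            Real.norm_eq_abs, abs_of_nonneg (cin_nonneg (N n) w)]
      _ ≤ 1 * (|K| * ‖w‖⁻¹ ^ 2) + (|K| * ‖w‖⁻¹) * (4 * L * ‖w‖⁻¹) := by
          gcongr
          exact cin_le_one _ _
      _ = |K| * (1 + 4 * L) * ‖w‖⁻¹ ^ 2 := by ring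
  have hχb1 : ∀ w ∈ D, w ≠ 0 → ‖w‖ < 1 / 2 → |χ w| ≤ |K| * ‖w‖⁻¹ := by
    intro w hw hw0 hw2
    exact (h1 w hw hw0 hw2).1.trans (by gcongr; exact le_abs_self _)
  have hχb2 : ∀ w ∈ D, w ≠ 0 → ‖w‖ < 1 / 2 → ‖gr χ w‖ ≤ |K| * (1 + 4 * L) * ‖w‖⁻¹ ^ 2 := by
    intro w hw hw0 hw2
    refine (h1 w hw hw0 hw2).2.trans ?_
    have : K ≤ |K| * (1 + 4 * L) := by
      nlinarith [le_abs_self K, abs_nonneg K, mul_nonneg (abs_nonneg K) hL0.le]
    gcongr
  -- measurability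
  have hmeasχ1 : AEStronglyMeasurable (fun w => (gr θ w * conj (gr χ w)).re)
      (volume.restrict D) := by
    have hc : ContinuousOn (fun w => (gr θ w * conj (gr χ w)).re) (D \ {0}) :=
      continuous_re.comp_continuousOn
        ((hgrθc.mono diff_subset).mul (continuous_conj.comp_continuousOn hgrχc))
    have := hc.aestronglyMeasurable (μ := volume) hopen.measurableSet
    rwa [Measure.restrict_congr_set (diff_null_ae_eq_self (measure_singleton (0 : ℂ)))] at this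
  have hmeasχ2 : AEStronglyMeasurable (fun w => tau f w * ((c - θ w) * χ w))
      (volume.restrict D) := by
    have hc : ContinuousOn (fun w => tau f w * ((c - θ w) * χ w)) (D \ {0}) :=
      (hτc.mono diff_subset).mul
        ((continuousOn_const.sub (hS.test.c1.continuousOn.mono diff_subset)).mul hχ.continuousOn)
    have := hc.aestronglyMeasurable (μ := volume) hopen.measurableSet
    rwa [Measure.restrict_congr_set (diff_null_ae_eq_self (measure_singleton (0 : ℂ)))] at this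
  have hint1 : IntegrableOn (fun w => (gr θ w * conj (gr χ w)).re) D := by
    refine Integrable.mono' hb1 hmeasχ1 ?_
    filter_upwards [ae_ne_zero_D, ae_restrict_mem hDm] with w hw0 hw
    exact bd1 χ w hw hw0 (hχb2 w hw hw0) (fun _ => rfl)
  have hint2 : IntegrableOn (fun w => tau f w * ((c - θ w) * χ w)) D := by
    refine Integrable.mono' hb2 hmeasχ2 ?_
    filter_upwards [ae_ne_zero_D, ae_restrict_mem hDm] with w hw0 hw
    exact bd2 χ w hw hw0 (hχb1 w hw hw0) (fun _ => rfl)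
  refine ⟨hint1, hint2, ?_⟩
  have hNt : Tendsto N atTop atTop :=
    tendsto_atTop_add_const_right _ _ tendsto_natCast_atTop_atTop
  have hl1 : Tendsto (fun n => ∫ w in D, (gr θ w * conj (gr (X n) w)).re) atTop
      (𝓝 (∫ w in D, (gr θ w * conj (gr χ w)).re)) := by
    refine tendsto_integral_of_dominated_convergence _ ?_ hb1 ?_ ?_
    · intro n
      have hc : ContinuousOn (fun w => (gr θ w * conj (gr (X n) w)).re) D :=
        continuous_re.comp_continuousOn (hgrθc.mul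
          (continuous_conj.comp_continuousOn (gr_continuousOn isOpen_ball (hXc1 n))))
      exact hc.aestronglyMeasurable hDm
    · intro n
      filter_upwards [ae_ne_zero_D, ae_restrict_mem hDm] with w hw0 hw
      exact bd1 (X n) w hw hw0 (hXb2 n w hw hw0) (fun h => (hXeq n w hw h).2)
    · filter_upwards [ae_ne_zero_D, ae_restrict_mem hDm] with w hw0 hw
      have hwn : 0 < ‖w‖ := norm_pos_iff.2 hw0
      have ev2 : ∀ᶠ n in atTop, 2 < N n * ‖w‖ ^ 2 :=
        (hNt.atTop_mul_const (by positivity)).eventually_gt_atTop 2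
      refine tendsto_const_nhds.congr' ?_
      filter_upwards [ev2] with n hn
      have e1 : gr (X n) w = gr χ w := by
        rw [hgrX n w hw hw0, gr_cin, (hL _).2.2 (by linarith), cin_one hn.le]; simp
      rw [e1]
  have hl2 : Tendsto (fun n => ∫ w in D, tau f w * ((c - θ w) * X n w)) atTop
      (𝓝 (∫ w in D, tau f w * ((c - θ w) * χ w))) := by
    refine tendsto_integral_of_dominated_convergence _ ?_ hb2 ?_ ?_
    · intro n
      have hc : ContinuousOn (fun w => tau f w * ((c - θ w) * X n w)) D :=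
        hτc.mul ((continuousOn_const.sub hS.test.c1.continuousOn).mul (hXc1 n).continuousOn)
      exact hc.aestronglyMeasurable hDm
    · intro n
      filter_upwards [ae_ne_zero_D, ae_restrict_mem hDm] with w hw0 hw
      exact bd2 (X n) w hw hw0 (hXb1 n w hw hw0) (fun h => (hXeq n w hw h).1)
    · filter_upwards [ae_ne_zero_D, ae_restrict_mem hDm] with w hw0 hw
      have hwn : 0 < ‖w‖ := norm_pos_iff.2 hw0
      have ev2 : ∀ᶠ n in atTop, 2 < N n * ‖w‖ ^ 2 :=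
        (hNt.atTop_mul_const (by positivity)).eventually_gt_atTop 2
      refine tendsto_const_nhds.congr' ?_
      filter_upwards [ev2] with n hn
      have e1 : X n w = χ w := by simp [hX, cin_one hn.le]
      rw [e1]
  simp only [hwk] at hl1
  exact tendsto_nhds_unique hl1 (hl2.const_mul (-κ))

end Crest.Agent.HS
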