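import Crest.Agent.HS.Cut
import Crest.Agent.HS.Poinc
import Crest.Agent.HS.WeakPole
import Crest.Agent.HS.KCalc
import Crest.Agent.HS.AdmB
import Crest.Agent.HS.DdSq
set_option autoImplicit false
noncomputable section
namespace Crest.Agent.HS
open MeasureTheory Complex Metric Set
open scoped ComplexConjugate Topology

/-- the tangential derivative of a function vanishing on the circle is `O(1 - |w|)` -/
theorem tang_bound {b : ℂ → ℝ} (hb : ContDiff ℝ 2 b) (h0 : ∀ w : ℂ, ‖w‖ = 1 → b w = 0) :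
    ∃ L : ℝ, 0 ≤ L ∧ ∀ w ∈ D, 1 / 2 ≤ ‖w‖ →
      |w.re * fderiv ℝ b w I - w.im * fderiv ℝ b w 1| ≤ L * (1 - ‖w‖) := by
  set T : ℂ → ℝ := fun w => w.re * fderiv ℝ b w I - w.im * fderiv ℝ b w 1 with hT
  have cT1 : ContDiff ℝ 1 T :=
    (Complex.reCLM.contDiff.mul (ddsq_fderiv_dir hb I)).sub
      (Complex.imCLM.contDiff.mul (ddsq_fderiv_dir hb 1))
  have hT0 : ∀ w : ℂ, ‖w‖ = 1 → T w = 0 := by
    intro w hw
    have := ddsq_tangent hb h0 w hw
    have e : I * w = w.re • I - w.im • (1:ℂ) := by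
      apply Complex.ext <;> simp
    rw [e, map_sub, map_smul, map_smul, smul_eq_mul, smul_eq_mul] at this
    exact this
  obtain ⟨L, hL⟩ : ∃ L : ℝ, ∀ w ∈ closedBall (0:ℂ) 1, ‖fderiv ℝ T w‖ ≤ L := by
    have hc : ContinuousOn (fun w => fderiv ℝ T w) (closedBall (0:ℂ) 1) :=
      (cT1.continuous_fderiv (by norm_num)).continuousOn
    exact (isCompact_closedBall (0:ℂ) 1).exists_bound_of_continuousOn hc
  have hL0 : 0 ≤ L := (norm_nonneg _).trans (hL 0 (by simp))
  refine ⟨L, hL0, ?_⟩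
  intro w hw hw2
  have hwn : ‖w‖ < 1 := by simpa using hw
  have hpos : 0 < ‖w‖ := by linarith
  set w' : ℂ := w / (‖w‖ : ℂ) with hw'
  have hw'n : ‖w'‖ = 1 := by
    rw [hw', norm_div, Complex.norm_real, norm_norm, div_self hpos.ne']
  have hd : ‖w - w'‖ = 1 - ‖w‖ := by
    have : w' - w = ((1 - ‖w‖ : ℝ) : ℂ) * w' := by
      rw [hw']
      have : (‖w‖ : ℂ) ≠ 0 := by exact_mod_cast hpos.ne'
      push_cast
      field_simp
    rw [norm_sub_rev, this, norm_mul, hw'n, mul_one, Complex.norm_real, Real.norm_eq_abs,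
      abs_of_nonneg (by linarith)]
  have hTl : ‖T w - T w'‖ ≤ L * ‖w - w'‖ := by
    apply Convex.norm_image_sub_le_of_norm_fderiv_le (𝕜 := ℝ) (s := closedBall (0:ℂ) 1)
    · intro z _
      exact (cT1.differentiable (by norm_num)).differentiableAt
    · exact hL
    · exact convex_closedBall _ _
    · simp [hw'n]
    · exact ball_subset_closedBall hw
  rw [hT0 w' hw'n, sub_zero, hd, Real.norm_eq_abs] at hTl
  exact hTl

/-- weak identity for `ph q * gr θ`. -/
theorem weak_grad {f : ℂ → ℂ} {κ c : ℝ} {θ : ℂ → ℝ} (hS : Sol f κ c θ) (q : ℂ) (hq : ‖q‖ = 1)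
    (g : ℂ → ℂ) (hg : Adm g) :
    ∫ w in D, (ph q w * gr θ w * conj (dd g w)).re
      = -κ * ∫ w in D, tau f w * ((c - θ w) * (ph q w * conj (g w)).re) := by
  obtain ⟨C0, hC0⟩ := hS.near
  have hDm : MeasurableSet D := measurableSet_ball
  have hAm : MeasurableSet (D \ ball (0 : ℂ) (1 / 2)) := hDm.diff measurableSet_ball
  set X : ℂ → ℂ := fun w => ph q w * conj (g w) with hX
  set X1 : ℂ → ℝ := fun w => (X w).re with hX1
  set X2 : ℂ → ℝ := fun w => (X w).im with hX2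
  have hgc : ContDiff ℝ 2 (fun w => conj (g w)) :=
    (Complex.conjCLE : ℂ →L[ℝ] ℂ).contDiff.comp hg.smooth
  have hXs : ContDiffOn ℝ 2 X (D \ {0}) := by
    have := contDiffOn_ph q 2
    exact ContDiffOn.mul (by exact_mod_cast this) hgc.contDiffOn
  have hX1s : ContDiffOn ℝ 2 X1 (D \ {0}) := Complex.reCLM.contDiff.comp_contDiffOn hXs
  have hX2s : ContDiffOn ℝ 2 X2 (D \ {0}) := Complex.imCLM.contDiff.comp_contDiffOn hXs
  have hXd : ∀ w ∈ D, w ≠ 0 → DifferentiableAt ℝ X w := fun w hw hw0 =>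
    (hXs.differentiableOn (by norm_num)).differentiableAt (isOpen_D0.mem_nhds ⟨hw, hw0⟩)
  -- bounds
  have hK : IsCompact (closedBall (0 : ℂ) 1) := isCompact_closedBall 0 1
  obtain ⟨C1, h1⟩ := hK.exists_bound_of_continuousOn (hg.smooth.continuous.continuousOn)
  obtain ⟨C3, h3⟩ := hK.exists_bound_of_continuousOn (hg.cont_fderiv.continuousOn)
  set C : ℝ := |C1| + |C3| with hC
  have hCn : 0 ≤ C := by positivity
  have hgC : ∀ w ∈ D, ‖g w‖ ≤ C := fun w hw =>
    (h1 w (ball_subset_closedBall hw)).trans (by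
      have := le_abs_self C1; have := abs_nonneg C3; linarith)
  have hgC' : ∀ w ∈ D, ‖fderiv ℝ g w‖ ≤ C := fun w hw =>
    (h3 w (ball_subset_closedBall hw)).trans (by
      have := le_abs_self C3; have := abs_nonneg C1; linarith)
  have hXn : ∀ w ∈ D, w ≠ 0 → ‖X w‖ ≤ 2 * C * ‖w‖⁻¹ := by
    intro w hw hw0
    simp only [hX, norm_mul, RCLike.norm_conj]
    calc ‖ph q w‖ * ‖g w‖ ≤ 2 / ‖w‖ * C := by
          gcongr
          · exact norm_ph_le q hq hw hw0
          · exact hgC w hw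
      _ = 2 * C * ‖w‖⁻¹ := by ring
  have hXf : ∀ w ∈ D, w ≠ 0 → ∀ v : ℂ, ‖v‖ = 1 → ‖fderiv ℝ X w v‖ ≤ 4 * C * ‖w‖⁻¹ ^ 2 := by
    intro w hw hw0 v hv
    have hpos : 0 < ‖w‖ := norm_pos_iff.2 hw0
    have hw1 : ‖w‖ < 1 := by simpa using hw
    have ha' : fderiv ℝ (ph q) w v = v * dph q w := by
      rw [((hasDerivAt_ph q hw0).hasFDerivAt.restrictScalars ℝ).fderiv]
      simp
    have hgd : DifferentiableAt ℝ g w := hg.dif w
    have hb : HasFDerivAt (fun z => conj (g z))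
        ((Complex.conjCLE : ℂ →L[ℝ] ℂ).comp (fderiv ℝ g w)) w := conjCLE_fderiv hgd
    have hphd : DifferentiableAt ℝ (ph q) w :=
      ((hasDerivAt_ph q hw0).hasFDerivAt.restrictScalars ℝ).differentiableAt
    have hm := hphd.hasFDerivAt.mul hb
    have e : fderiv ℝ X w v = ph q w * conj (fderiv ℝ g w v) + conj (g w) * (v * dph q w) := by
      have : fderiv ℝ X w = _ := hm.fderiv
      rw [this]
      simp [ha']
    rw [e]
    have hv' : ‖fderiv ℝ g w v‖ ≤ C := by
      calc ‖fderiv ℝ g w v‖ ≤ ‖fderiv ℝ g w‖ * ‖v‖ := (fderiv ℝ g w).le_opNorm v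
        _ ≤ C := by rw [hv, mul_one]; exact hgC' w hw
    calc ‖ph q w * conj (fderiv ℝ g w v) + conj (g w) * (v * dph q w)‖
        ≤ ‖ph q w * conj (fderiv ℝ g w v)‖ + ‖conj (g w) * (v * dph q w)‖ := norm_add_le _ _
      _ = ‖ph q w‖ * ‖fderiv ℝ g w v‖ + ‖g w‖ * ‖dph q w‖ := by
          rw [norm_mul, norm_mul, norm_mul, RCLike.norm_conj, RCLike.norm_conj, hv, one_mul]
      _ ≤ (2 / ‖w‖) * C + C * (2 / ‖w‖ ^ 2) := by
          gcongr
          · exact norm_ph_le q hq hw hw0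
          · exact hgC w hw
          · exact norm_dph_le q hq hw hw0
      _ ≤ (2 / ‖w‖ ^ 2) * C + C * (2 / ‖w‖ ^ 2) := by
          gcongr
          nlinarith
      _ = 4 * C * ‖w‖⁻¹ ^ 2 := by rw [inv_pow]; ring
  have hf1 : ∀ w ∈ D, w ≠ 0 → ∀ v, fderiv ℝ X1 w v = (fderiv ℝ X w v).re := by
    intro w hw hw0 v
    have : HasFDerivAt X1 (Complex.reCLM.comp (fderiv ℝ X w)) w :=
      Complex.reCLM.hasFDerivAt.comp w (hXd w hw hw0).hasFDerivAt
    rw [this.fderiv]; simp
  have hf2 : ∀ w ∈ D, w ≠ 0 → ∀ v, fderiv ℝ X2 w v = (fderiv ℝ X w v).im := by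
    intro w hw hw0 v
    have : HasFDerivAt X2 (Complex.imCLM.comp (fderiv ℝ X w)) w :=
      Complex.imCLM.hasFDerivAt.comp w (hXd w hw hw0).hasFDerivAt
    rw [this.fderiv]; simp
  have hgr1 : ∀ w ∈ D, w ≠ 0 → ‖gr X1 w‖ ≤ 8 * C * ‖w‖⁻¹ ^ 2 := by
    intro w hw hw0
    have h := Complex.norm_le_abs_re_add_abs_im (gr X1 w)
    simp only [gr, abs_neg, hf1 w hw hw0] at h
    have a := (abs_re_le_norm (fderiv ℝ X w 1)).trans (hXf w hw hw0 1 (by simp))
    have b := (abs_re_le_norm (fderiv ℝ X w I)).trans (hXf w hw hw0 I (by simp))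
    simp only [gr, hf1 w hw hw0]
    linarith
  have hgr2 : ∀ w ∈ D, w ≠ 0 → ‖gr X2 w‖ ≤ 8 * C * ‖w‖⁻¹ ^ 2 := by
    intro w hw hw0
    have h := Complex.norm_le_abs_re_add_abs_im (gr X2 w)
    simp only [gr, abs_neg, hf2 w hw hw0] at h
    have a := (abs_im_le_norm (fderiv ℝ X w 1)).trans (hXf w hw hw0 1 (by simp))
    have b := (abs_im_le_norm (fderiv ℝ X w I)).trans (hXf w hw hw0 I (by simp))
    simp only [gr, hf2 w hw hw0]
    linarith
  have hinv : ∀ w : ℂ, 1 / 2 ≤ ‖w‖ → ‖w‖⁻¹ ≤ 2 := by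
    intro w hw
    rw [inv_le_comm₀ (by linarith) (by norm_num)]
    norm_num at hw ⊢; linarith
  have hne0 : ∀ w : ℂ, 1 / 2 ≤ ‖w‖ → w ≠ 0 := by
    rintro w hw rfl; norm_num at hw
  have hfin : volume (D \ ball (0 : ℂ) (1 / 2)) ≠ ⊤ :=
    ((measure_mono sdiff_subset).trans_lt measure_ball_lt_top).ne
  -- part (i)
  have hX1c : ContDiffOn ℝ 1 X1 (D \ {0}) := hX1s.of_le (by norm_num)
  have hX2c : ContDiffOn ℝ 1 X2 (D \ {0}) := hX2s.of_le (by norm_num)
  have hAsub : D \ ball (0 : ℂ) (1 / 2) ⊆ D \ {0} := by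
    intro w hw
    exact ⟨hw.1, fun h => hw.2 (by rw [mem_singleton_iff.1 h]; simp)⟩
  have hi2 : IntegrableOn (fun w => ‖gr X1 w‖ ^ 2) (D \ ball 0 (1 / 2)) := by
    have hconst : IntegrableOn (fun _ : ℂ => (8 * C * 2 ^ 2) ^ 2) (D \ ball 0 (1 / 2)) := by
      rw [integrableOn_const_iff]; right; exact hfin.lt_top
    refine Integrable.mono' hconst ?_ ?_
    · have hc : ContinuousOn (fun w => ‖gr X1 w‖ ^ 2) (D \ ball 0 (1 / 2)) :=
        ((gr_continuousOn isOpen_D0 hX1c).norm.pow 2).mono hAsub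
      exact hc.aestronglyMeasurable hAm
    · filter_upwards [ae_restrict_mem hAm] with w hw
      have hw2 : 1 / 2 ≤ ‖w‖ := by simpa using hw.2
      have a := hgr1 w hw.1 (hne0 w hw2)
      have b : ‖gr X1 w‖ ≤ 8 * C * 2 ^ 2 := a.trans (by
        have := hinv w hw2
        gcongr)
      rw [Real.norm_eq_abs, abs_of_nonneg (by positivity)]
      gcongr
  have hi3 : IntegrableOn (fun w => tau f w * X1 w ^ 2) (D \ ball 0 (1 / 2)) := by
    have hb' : IntegrableOn (fun w => tau f w * (2 * C * 2) ^ 2) D := hS.conf.area.mul_const _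
    have hb : IntegrableOn (fun w => tau f w * (2 * C * 2) ^ 2) (D \ ball 0 (1 / 2)) :=
      hb'.mono_set sdiff_subset
    refine Integrable.mono' hb ?_ ?_
    · have hc : ContinuousOn (fun w => tau f w * X1 w ^ 2) (D \ ball 0 (1 / 2)) :=
        (((tau_continuousOn hS.conf.diff).mono sdiff_subset).mul
          (hX1c.continuousOn.pow 2)).mono hAsub
      exact hc.aestronglyMeasurable hAm
    · filter_upwards [ae_restrict_mem hAm] with w hw
      have hw2 : 1 / 2 ≤ ‖w‖ := by simpa using hw.2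
      have hτ : 0 ≤ tau f w := by unfold tau; positivity
      rw [Real.norm_eq_abs, abs_of_nonneg (by positivity)]
      have a : |X1 w| ≤ 2 * C * 2 := by
        calc |X1 w| ≤ ‖X w‖ := abs_re_le_norm _
          _ ≤ 2 * C * ‖w‖⁻¹ := hXn w hw.1 (hne0 w hw2)
          _ ≤ 2 * C * 2 := by
            have := hinv w hw2
            gcongr
      have : X1 w ^ 2 ≤ (2 * C * 2) ^ 2 := by
        rw [← sq_abs]; gcongr
      gcongr
  obtain ⟨J1, J2, J3⟩ := weak_pole hS X1 hX1c (8 * C) (by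
    intro w hw hw0 hw2
    have hpos : 0 < ‖w‖ := norm_pos_iff.2 hw0
    refine ⟨?_, hgr1 w hw hw0⟩
    calc |X1 w| ≤ ‖X w‖ := abs_re_le_norm _
      _ ≤ 2 * C * ‖w‖⁻¹ := hXn w hw hw0
      _ ≤ 8 * C * ‖w‖⁻¹ := by gcongr; norm_num) hi2 hi3
  -- part (ii)
  have hIm : ∀ w : ℂ, ‖w‖ = 1 → X2 w = 0 := by
    intro w hw
    have hw0 : w ≠ 0 := by rintro rfl; norm_num at hw
    have e1 : (ph q w).im = 0 := by
      rw [im_ph q hw0]; simp [tt, hw]
    have e2 := hg.bdry w hw
    simp [hX2, hX, Complex.mul_im, e1, e2]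
  set b : ℂ → ℝ := fun w => cin 9 w * X2 w with hb
  have hXout : ContDiffOn ℝ 2 X2 {0}ᶜ := by
    have hph : ContDiffOn ℝ 2 (ph q) {0}ᶜ := by
      have : DifferentiableOn ℂ (ph q) {0}ᶜ := fun w hw =>
        (dif_ph q hw).differentiableWithinAt
      exact (this.contDiffOn isOpen_compl_singleton).restrict_scalars ℝ
    exact Complex.imCLM.contDiff.comp_contDiffOn (hph.mul hgc.contDiffOn)
  have hbs : ContDiff ℝ 2 b := by
    rw [contDiff_iff_contDiffAt]
    intro w
    by_cases hw0 : w = 0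
    · have : b =ᶠ[𝓝 w] fun _ => 0 := by
        have hc : ContinuousAt (fun z : ℂ => 9 * ‖z‖ ^ 2) w := by fun_prop
        have : ∀ᶠ z in 𝓝 w, 9 * ‖z‖ ^ 2 < 1 := by
          apply hc.eventually_lt continuousAt_const
          simp [hw0]
        filter_upwards [this] with z hz
        simp [hb, cin_zero hz.le]
      exact contDiffAt_const.congr_of_eventuallyEq this
    · exact ((cin_contDiff 9 (k := 2)).contDiffAt).mul
        (hXout.contDiffAt (isOpen_compl_singleton.mem_nhds hw0))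
  have hb0 : ∀ w : ℂ, ‖w‖ = 1 → b w = 0 := by
    intro w hw; simp [hb, hIm w hw]
  obtain ⟨L, hL0, hL⟩ := tang_bound hbs hb0
  have hbX : ∀ w : ℂ, 1 / 2 ≤ ‖w‖ → fderiv ℝ b w = fderiv ℝ X2 w := by
    intro w hw
    have : b =ᶠ[𝓝 w] X2 := by
      have hc : ContinuousAt (fun z : ℂ => 9 * ‖z‖ ^ 2) w := by fun_prop
      have : ∀ᶠ z in 𝓝 w, 2 < 9 * ‖z‖ ^ 2 := by
        apply continuousAt_const.eventually_lt hc
        nlinarith
      filter_upwards [this] with z hz
      simp [hb, cin_one hz.le]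
    exact this.fderiv_eq
  -- the field
  set P : ℂ → ℝ := fun w => θ w * fderiv ℝ X2 w I with hP
  set Q : ℂ → ℝ := fun w => θ w * fderiv ℝ X2 w 1 with hQ
  have hdX : ∀ v : ℂ, ContDiffOn ℝ 1 (fun w => fderiv ℝ X2 w v) (D \ {0}) := by
    intro v
    have : ContDiffOn ℝ 1 (fderiv ℝ X2) (D \ {0}) :=
      hX2s.fderiv_of_isOpen isOpen_D0 (by norm_num)
    exact this.clm_apply contDiffOn_const
  have hθ1 : ContDiffOn ℝ 1 θ (D \ {0}) := hS.test.c1.mono sdiff_subset
  have cP : ContDiffOn ℝ 1 P (D \ {0}) := hθ1.mul (hdX I)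
  have cQ : ContDiffOn ℝ 1 Q (D \ {0}) := hθ1.mul (hdX 1)
  set Z : ℂ → ℂ := fun w => ((P w : ℝ) : ℂ) + ((Q w : ℝ) : ℂ) * I with hZ
  have cZ : ContDiffOn ℝ 1 Z (D \ {0}) :=
    (Complex.ofRealCLM.contDiff.comp_contDiffOn cP).add
      ((Complex.ofRealCLM.contDiff.comp_contDiffOn cQ).mul contDiffOn_const)
  have dd1 : ∀ w ∈ D, w ≠ 0 → ∀ v z : ℂ, fderiv ℝ (fun w => fderiv ℝ X2 w v) w z
      = fderiv ℝ (fderiv ℝ X2) w z v := by
    intro w hw hw0 v z
    have h : DifferentiableAt ℝ (fderiv ℝ X2) w := by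
      have : ContDiffOn ℝ 1 (fderiv ℝ X2) (D \ {0}) :=
        hX2s.fderiv_of_isOpen isOpen_D0 (by norm_num)
      exact (this.differentiableOn (by norm_num)).differentiableAt
        (isOpen_D0.mem_nhds ⟨hw, hw0⟩)
    have h2 := fderiv_clm_apply (𝕜 := ℝ) (c := fderiv ℝ X2) (u := fun _ => v) h
      (differentiableAt_const v)
    rw [h2]
    simp
  have hsymm : ∀ w ∈ D, w ≠ 0 → ∀ v z : ℂ, fderiv ℝ (fderiv ℝ X2) w z v
      = fderiv ℝ (fderiv ℝ X2) w v z := by
    intro w hw hw0 v z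
    have h : IsSymmSndFDerivAt ℝ X2 w :=
      (hX2s.contDiffAt (isOpen_D0.mem_nhds ⟨hw, hw0⟩)).isSymmSndFDerivAt (by simp)
    exact h z v
  have dθ : ∀ w ∈ D, DifferentiableAt ℝ θ w := fun w hw =>
    (hS.test.c1.differentiableOn (by norm_num)).differentiableAt (isOpen_ball.mem_nhds hw)
  have dbZ : ∀ w ∈ D, w ≠ 0 → (db Z w).re = (gr θ w * conj (gr X2 w)).im := by
    intro w hw hw0
    have hD0 : D \ {0} ∈ 𝓝 w := isOpen_D0.mem_nhds ⟨hw, hw0⟩
    have hPd : DifferentiableAt ℝ P w := (cP.differentiableOn (by norm_num)).differentiableAt hD0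
    have hQd : DifferentiableAt ℝ Q w := (cQ.differentiableOn (by norm_num)).differentiableAt hD0
    have e0 : db Z w = conj (gr P w) + conj (gr Q w) * I := by
      have a1 : DifferentiableAt ℝ (fun z => ((P z : ℝ) : ℂ)) w :=
        Complex.ofRealCLM.differentiableAt.comp w hPd
      have a2 : DifferentiableAt ℝ (fun z => ((Q z : ℝ) : ℂ)) w :=
        Complex.ofRealCLM.differentiableAt.comp w hQd
      have a3 : DifferentiableAt ℝ (fun _ : ℂ => I) w := differentiableAt_const _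
      have hc0 : db (fun _ : ℂ => I) w = 0 := by simp [db]
      have a23 : DifferentiableAt ℝ (fun z => ((Q z : ℝ) : ℂ) * I) w := a2.mul a3
      rw [hZ, db_add a1 a23, db_mul a2 a3, db_ofReal hPd, db_ofReal hQd, hc0]
      ring
    have vI : DifferentiableAt ℝ (fun w => fderiv ℝ X2 w I) w :=
      ((hdX I).differentiableOn (by norm_num)).differentiableAt hD0
    have v1 : DifferentiableAt ℝ (fun w => fderiv ℝ X2 w 1) w :=
      ((hdX 1).differentiableOn (by norm_num)).differentiableAt hD0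
    have fP : fderiv ℝ P w 1 = θ w * fderiv ℝ (fderiv ℝ X2) w 1 I
        + fderiv ℝ X2 w I * fderiv ℝ θ w 1 := by
      rw [hP, fderiv_fun_mul (dθ w hw) vI]
      simp only [add_apply, smul_apply, smul_eq_mul]
      rw [dd1 w hw hw0]
    have fQ : fderiv ℝ Q w I = θ w * fderiv ℝ (fderiv ℝ X2) w I 1
        + fderiv ℝ X2 w 1 * fderiv ℝ θ w I := by
      rw [hQ, fderiv_fun_mul (dθ w hw) v1]
      simp only [add_apply, smul_apply, smul_eq_mul]
      rw [dd1 w hw hw0]
    rw [e0]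
    have hs := hsymm w hw hw0 1 I
    simp only [gr, Complex.add_re, Complex.mul_re, Complex.mul_im, Complex.conj_re,
      Complex.conj_im, Complex.I_re, Complex.I_im]
    rw [fP, fQ, hs]
    ring
  have hgrX2c := gr_continuousOn isOpen_D0 hX2c
  have hgrθc := gr_continuousOn isOpen_ball hS.test.c1
  have hsq := sq_int θ hS.test.c1 hS.test.en
  have hone : IntegrableOn (fun _ : ℂ => (1 : ℝ)) D := by
    rw [integrableOn_const_iff]; right; exact measure_ball_lt_top
  have hint2 : IntegrableOn (fun w => (gr θ w * conj (gr X2 w)).im) D := by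
    have hB : IntegrableOn (fun w => |C0| * (8 * C) * ‖w‖⁻¹ + (8 * C * 2 ^ 2) *
        (1 + ‖gr θ w‖ ^ 2)) D :=
      (int_inv_norm.const_mul _).add ((hone.add hS.test.en).const_mul _)
    refine Integrable.mono' hB ?_ ?_
    · have hc : ContinuousOn (fun w => (gr θ w * conj (gr X2 w)).im) (D \ {0}) :=
        continuous_im.comp_continuousOn
          ((hgrθc.mono sdiff_subset).mul (continuous_conj.comp_continuousOn hgrX2c))
      have := hc.aestronglyMeasurable (μ := volume) isOpen_D0.measurableSet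
      rwa [Measure.restrict_congr_set (sdiff_null_ae_eq_self (measure_singleton (0 : ℂ)))] at this
    · filter_upwards [ae_ne_zero_D, ae_restrict_mem hDm] with w hw0 hw
      have hpos : 0 < ‖w‖ := norm_pos_iff.2 hw0
      have hle : ‖(gr θ w * conj (gr X2 w)).im‖ ≤ ‖gr θ w‖ * ‖gr X2 w‖ := by
        calc ‖(gr θ w * conj (gr X2 w)).im‖ ≤ ‖gr θ w * conj (gr X2 w)‖ := by
              rw [Real.norm_eq_abs]; exact abs_im_le_norm _
          _ = _ := by rw [norm_mul, RCLike.norm_conj]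
      have h2 := hgr2 w hw hw0
      rcases lt_or_ge ‖w‖ (1 / 2) with hw2 | hw2
      · have a := (hC0 w (by simpa using hw2)).2
        have a' : ‖gr θ w‖ ≤ |C0| * ‖w‖ := a.trans (by gcongr; exact le_abs_self _)
        have : ‖gr θ w‖ * ‖gr X2 w‖ ≤ |C0| * (8 * C) * ‖w‖⁻¹ := by
          calc ‖gr θ w‖ * ‖gr X2 w‖ ≤ (|C0| * ‖w‖) * (8 * C * ‖w‖⁻¹ ^ 2) := by gcongr
            _ = |C0| * (8 * C) * ‖w‖⁻¹ := by field_simp
        have : 0 ≤ (8 * C * 2 ^ 2) * (1 + ‖gr θ w‖ ^ 2) := by positivity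
        linarith
      · have a : ‖gr X2 w‖ ≤ 8 * C * 2 ^ 2 := h2.trans (by
          have := hinv w hw2
          gcongr)
        have b1 : ‖gr θ w‖ ≤ 1 + ‖gr θ w‖ ^ 2 := by nlinarith [sq_nonneg (‖gr θ w‖ - 1)]
        have : ‖gr θ w‖ * ‖gr X2 w‖ ≤ (8 * C * 2 ^ 2) * (1 + ‖gr θ w‖ ^ 2) := by
          rw [mul_comm]; gcongr
        have : 0 ≤ |C0| * (8 * C) * ‖w‖⁻¹ := by positivity
        linarith
  have hzero : ∫ w in D, (gr θ w * conj (gr X2 w)).im = 0 := by
    have hae : (fun w => (db Z w).re) =ᵐ[volume.restrict D]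
        fun w => (gr θ w * conj (gr X2 w)).im := by
      filter_upwards [ae_ne_zero_D, ae_restrict_mem hDm] with w hw0 hw
      exact dbZ w hw hw0
    rw [← integral_congr_ae hae]
    have hHi0 : IntegrableOn (fun w => 1 + θ w ^ 2) D := hone.add hsq
    have hHi : IntegrableOn (fun w => L * (1 + θ w ^ 2)) D := hHi0.const_mul L
    refine cut Z cZ (hint2.congr hae.symm) (fun w => L * (1 + θ w ^ 2))
      hHi ?_ (|C0| * (8 * C) * 2) ?_
    · intro w hw hw2
      have hw1 : ‖w‖ < 1 := by simpa using hw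
      have e1 : (w * Z w).re = θ w * (w.re * fderiv ℝ X2 w I - w.im * fderiv ℝ X2 w 1) := by
        simp only [hZ, hP, hQ]
        simp
        ring
      rw [e1, abs_mul, ← hbX w hw2]
      have a := hL w hw hw2
      have b1 : |θ w| ≤ 1 + θ w ^ 2 := by
        rw [← sq_abs]; nlinarith [sq_nonneg (|θ w| - 1), abs_nonneg (θ w)]
      calc |θ w| * |w.re * fderiv ℝ b w I - w.im * fderiv ℝ b w 1|
          ≤ (1 + θ w ^ 2) * (L * (1 - ‖w‖)) := by
            gcongr
        _ = L * (1 + θ w ^ 2) * (1 - ‖w‖) := by ring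
    · intro w hw hw0 hw2
      have hpos : 0 < ‖w‖ := norm_pos_iff.2 hw0
      have a := (hC0 w (by simpa using hw2)).1
      have a' : |θ w| ≤ |C0| * ‖w‖ ^ 2 := a.trans (by gcongr; exact le_abs_self _)
      have hZn : ‖Z w‖ ≤ |P w| + |Q w| := by
        have := Complex.norm_le_abs_re_add_abs_im (Z w)
        simpa [hZ] using this
      have p1 : |P w| ≤ |C0| * (8 * C) := by
        rw [hP]; simp only [abs_mul, hf2 w hw hw0]
        calc |θ w| * |(fderiv ℝ X w I).im| ≤ (|C0| * ‖w‖ ^ 2) * (4 * C * ‖w‖⁻¹ ^ 2) := by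
              gcongr
              exact (abs_im_le_norm _).trans (hXf w hw hw0 I (by simp))
          _ = |C0| * (4 * C) := by field_simp
          _ ≤ |C0| * (8 * C) := by gcongr; norm_num
      have p2 : |Q w| ≤ |C0| * (8 * C) := by
        rw [hQ]; simp only [abs_mul, hf2 w hw hw0]
        calc |θ w| * |(fderiv ℝ X w 1).im| ≤ (|C0| * ‖w‖ ^ 2) * (4 * C * ‖w‖⁻¹ ^ 2) := by
              gcongr
              exact (abs_im_le_norm _).trans (hXf w hw hw0 1 (by simp))
          _ = |C0| * (4 * C) := by field_simp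
          _ ≤ |C0| * (8 * C) := by gcongr; norm_num
      linarith
  -- conclusion
  have hpt : (fun w => (ph q w * gr θ w * conj (dd g w)).re) =ᵐ[volume.restrict D]
      fun w => (gr θ w * conj (gr X1 w)).re - (gr θ w * conj (gr X2 w)).im := by
    filter_upwards [ae_ne_zero_D, ae_restrict_mem hDm] with w hw0 hw
    have hD0 : D \ {0} ∈ 𝓝 w := isOpen_D0.mem_nhds ⟨hw, hw0⟩
    have hphd : DifferentiableAt ℝ (ph q) w :=
      ((hasDerivAt_ph q hw0).hasFDerivAt.restrictScalars ℝ).differentiableAt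
    have hgd : DifferentiableAt ℝ g w := hg.dif w
    have e1 : db X w = ph q w * conj (dd g w) := by
      rw [hX, db_mul hphd (conjCLE_fderiv hgd).differentiableAt, db_hol (dif_ph q hw0),
        db_conj hgd]
      ring
    have d1 : DifferentiableAt ℝ X1 w := (hX1c.differentiableOn (by norm_num)).differentiableAt hD0
    have d2 : DifferentiableAt ℝ X2 w := (hX2c.differentiableOn (by norm_num)).differentiableAt hD0
    have e2 : db X w = conj (gr X1 w) + conj (gr X2 w) * I := by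
      have a1 : DifferentiableAt ℝ (fun z => ((X1 z : ℝ) : ℂ)) w :=
        Complex.ofRealCLM.differentiableAt.comp w d1
      have a2 : DifferentiableAt ℝ (fun z => ((X2 z : ℝ) : ℂ)) w :=
        Complex.ofRealCLM.differentiableAt.comp w d2
      have a3 : DifferentiableAt ℝ (fun _ : ℂ => I) w := differentiableAt_const _
      have hc0 : db (fun _ : ℂ => I) w = 0 := by simp [db]
      have hXe : X = fun z => ((X1 z : ℝ) : ℂ) + ((X2 z : ℝ) : ℂ) * I := by
        funext z; exact (Complex.re_add_im (X z)).symm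
      have a23 : DifferentiableAt ℝ (fun z => ((X2 z : ℝ) : ℂ) * I) w := a2.mul a3
      have e0 : db X w = db (fun z => ((X1 z : ℝ) : ℂ) + ((X2 z : ℝ) : ℂ) * I) w :=
        congrArg (fun Y => db Y w) hXe
      rw [e0, db_add a1 a23, db_mul a2 a3, db_ofReal d1, db_ofReal d2, hc0]
      ring
    have e3 : ph q w * gr θ w * conj (dd g w) = gr θ w * db X w := by rw [e1]; ring
    show (ph q w * gr θ w * conj (dd g w)).re = _
    rw [e3, e2, mul_add, Complex.add_re, ← mul_assoc, Complex.mul_I_re]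
    ring
  rw [integral_congr_ae hpt, integral_sub J1 hint2, hzero, sub_zero, J3]

end Crest.Agent.HS
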