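import Crest.Agent.HS.Cut
import Crest.Agent.HS.Ints
import Crest.Agent.HS.Ints2
import Crest.Agent.HS.KCalc
import Crest.Agent.HS.AdmB
set_option autoImplicit false
noncomputable section
namespace Crest.Agent.HS
open MeasureTheory Complex Metric Set
open scoped ComplexConjugate Topology

theorem Kf_bound_im {f : ℂ → ℂ} (q : ℂ) (hq : ‖q‖ = 1) {M : ℝ}
    (hM : ∀ w ∈ D, ‖f w‖ ≤ M) {w : ℂ} (hw : w ∈ D) (h : 1 / 2 ≤ ‖w‖) :
    |(w * Kf f q w).re| ≤ (4 * M * ‖deriv f w‖ + 2 * M ^ 2) * (1 - ‖w‖) := by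
  have h1 : ‖w‖ < 1 := by simpa using hw
  have hM0 : 0 ≤ M := (norm_nonneg _).trans (hM w hw)
  have e : w * Kf f q w = (1 / 2 : ℝ) * (((ph q w).im : ℂ) * (I * w * conj (f w) * deriv f w))
      - ((1 / 4 : ℝ) * ‖f w‖ ^ 2 : ℝ) * (w * dph q w) := by
    unfold Kf; push_cast; ring
  rw [e, Complex.sub_re, Complex.re_ofReal_mul, Complex.re_ofReal_mul, Complex.re_ofReal_mul]
  have a1 : |(I * w * conj (f w) * deriv f w).re| ≤ M * ‖deriv f w‖ := by
    refine (Complex.abs_re_le_norm _).trans ?_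
    rw [norm_mul, norm_mul, norm_mul, Complex.norm_I, one_mul, RCLike.norm_conj]
    have := hM w hw
    have : ‖w‖ * ‖f w‖ ≤ 1 * M := mul_le_mul h1.le this (norm_nonneg _) (by norm_num)
    calc _ ≤ (1 * M) * ‖deriv f w‖ := mul_le_mul_of_nonneg_right this (norm_nonneg _)
      _ = _ := by ring
  have a2 := im_ph_bound q hq hw h
  have a3 := re_wdph_bound q hq hw h
  have a4 : ‖f w‖ ^ 2 ≤ M ^ 2 := pow_le_pow_left₀ (norm_nonneg _) (hM w hw) 2
  calc |1 / 2 * ((ph q w).im * (I * w * conj (f w) * deriv f w).re)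
        - 1 / 4 * ‖f w‖ ^ 2 * (w * dph q w).re|
      ≤ |1 / 2 * ((ph q w).im * (I * w * conj (f w) * deriv f w).re)|
        + |1 / 4 * ‖f w‖ ^ 2 * (w * dph q w).re| := abs_sub _ _
    _ = 1 / 2 * (|(ph q w).im| * |(I * w * conj (f w) * deriv f w).re|)
        + 1 / 4 * ‖f w‖ ^ 2 * |(w * dph q w).re| := by
        rw [abs_mul, abs_mul, abs_mul (1 / 4 * ‖f w‖ ^ 2), abs_of_pos (by norm_num : (0:ℝ) < 1 / 2),
          abs_of_nonneg (by positivity : 0 ≤ 1 / 4 * ‖f w‖ ^ 2)]
    _ ≤ 1 / 2 * ((8 * (1 - ‖w‖)) * (M * ‖deriv f w‖)) + 1 / 4 * M ^ 2 * (8 * (1 - ‖w‖)) := by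
        gcongr
    _ = (4 * M * ‖deriv f w‖ + 2 * M ^ 2) * (1 - ‖w‖) := by ring

/-- local bounds near `0` -/
theorem Conf.near {f : ℂ → ℂ} (hf : Conf f) : ∃ C : ℝ, 0 ≤ C ∧ ∀ w ∈ D, ‖w‖ < 1 / 2 →
    ‖f w‖ ≤ C * ‖w‖ ∧ ‖deriv f w‖ ≤ C := by
  have hK : IsCompact (closedBall (0 : ℂ) (1 / 2)) := isCompact_closedBall 0 _
  have hsub : closedBall (0 : ℂ) (1 / 2) ⊆ D := closedBall_subset_ball (by norm_num)
  obtain ⟨C, hC⟩ := hK.exists_bound_of_continuousOn ((hf.dderiv.continuousOn).mono hsub)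
  refine ⟨|C|, abs_nonneg _, fun w hw h => ?_⟩
  have hwc : w ∈ closedBall (0 : ℂ) (1 / 2) := by simp; linarith
  have h0c : (0 : ℂ) ∈ closedBall (0 : ℂ) (1 / 2) := by simp
  refine ⟨?_, (hC w hwc).trans (le_abs_self _)⟩
  have := (convex_closedBall (0 : ℂ) (1 / 2)).norm_image_sub_le_of_norm_deriv_le
    (fun x hx => hf.dif (hsub hx)) (fun x hx => (hC x hx).trans (le_abs_self _)) h0c hwc
  simpa [hf.zero] using this

theorem Kf_near {f : ℂ → ℂ} (hf : Conf f) (q : ℂ) (hq : ‖q‖ = 1) : ∃ C : ℝ, 0 ≤ C ∧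
    ∀ w ∈ D, w ≠ 0 → ‖w‖ < 1 / 2 → ‖Kf f q w‖ ≤ C := by
  obtain ⟨C, hC0, hC⟩ := hf.near
  refine ⟨2 * C ^ 2, by positivity, fun w hw hw0 h => ?_⟩
  obtain ⟨h1, h2⟩ := hC w hw h
  have hpos : 0 < ‖w‖ := norm_pos_iff.2 hw0
  have a1 : |(ph q w).im| ≤ 2 / ‖w‖ := (Complex.abs_im_le_norm _).trans (norm_ph_le q hq hw hw0)
  have a2 := norm_dph_le q hq hw hw0
  unfold Kf
  calc ‖(1 / 2 : ℂ) * (I * ((ph q w).im : ℂ) * conj (f w) * deriv f w
        - (1 / 2) * ((‖f w‖ ^ 2 : ℝ) : ℂ) * dph q w)‖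
      = 1 / 2 * ‖I * ((ph q w).im : ℂ) * conj (f w) * deriv f w
        - (1 / 2) * ((‖f w‖ ^ 2 : ℝ) : ℂ) * dph q w‖ := by
        rw [norm_mul]; norm_num
    _ ≤ 1 / 2 * (‖I * ((ph q w).im : ℂ) * conj (f w) * deriv f w‖
        + ‖(1 / 2) * ((‖f w‖ ^ 2 : ℝ) : ℂ) * dph q w‖) := by
        gcongr; exact norm_sub_le _ _
    _ = 1 / 2 * (|(ph q w).im| * ‖f w‖ * ‖deriv f w‖ + 1 / 2 * ‖f w‖ ^ 2 * ‖dph q w‖) := by
        simp only [norm_mul, Complex.norm_I, one_mul, Complex.norm_real, RCLike.norm_conj,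
          Real.norm_eq_abs, norm_div, norm_one, norm_ofNat, abs_pow, abs_norm]
    _ ≤ 1 / 2 * ((2 / ‖w‖) * (C * ‖w‖) * C + 1 / 2 * (C * ‖w‖) ^ 2 * (2 / ‖w‖ ^ 2)) := by
        gcongr
    _ = 3 / 2 * C ^ 2 := by field_simp; ring
    _ ≤ 2 * C ^ 2 := by nlinarith [sq_nonneg C]

theorem contDiffOn_Kf {f : ℂ → ℂ} (hf : Conf f) (q : ℂ) : ContDiffOn ℝ 1 (Kf f q) (D \ {0}) := by
  have e : Kf f q = fun z => (1 / 2) * (((1 / 2) * ((ph q z - conj (ph q z)) * conj (f z))) * deriv f z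
      - (1 / 2) * ((f z * conj (f z)) * dph q z)) := funext fun z => Kf_eq f q z
  rw [e]
  have h1 : ContDiffOn ℝ 1 f (D \ {0}) := (hf.contDiffR 1).mono diff_subset
  have h2 : ContDiffOn ℝ 1 (deriv f) (D \ {0}) := (hf.contDiffR' 1).mono diff_subset
  have h3 : ContDiffOn ℝ 1 (ph q) (D \ {0}) := contDiffOn_ph q 1
  have h4 : ContDiffOn ℝ 1 (dph q) (D \ {0}) := contDiffOn_dph q 1
  have h5 : ContDiffOn ℝ 1 (fun z => conj (f z)) (D \ {0}) :=
    (Complex.conjCLE : ℂ →L[ℝ] ℂ).contDiff.comp_contDiffOn h1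
  have h6 : ContDiffOn ℝ 1 (fun z => conj (ph q z)) (D \ {0}) :=
    (Complex.conjCLE : ℂ →L[ℝ] ℂ).contDiff.comp_contDiffOn h3
  exact contDiffOn_const.mul (((contDiffOn_const.mul ((h3.sub h6).mul h5)).mul h2).sub
    (contDiffOn_const.mul ((h1.mul h5).mul h4)))

/-- weak identity for the explicit field `Kf`. -/
theorem weak_K {f : ℂ → ℂ} (hf : Conf f) (q : ℂ) (hq : ‖q‖ = 1)
    (g : ℂ → ℂ) (hg : Adm g) :
    ∫ w in D, (Kf f q w * conj (dd g w)).re
      = -∫ w in D, tau f w * ((ph q w - (chi f q w : ℂ)) * conj (g w)).re := by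
  obtain ⟨M, hM⟩ := hf.bdd
  obtain ⟨C, hC0, hC⟩ := adm_bounds hg
  obtain ⟨K, hK0, hK⟩ := Kf_near hf q hq
  have hM0 : 0 ≤ M := (norm_nonneg _).trans (hM 0 (by simp))
  have hKf2 := memLp_Kf hf q hq
  have hfin : IsFiniteMeasure (volume.restrict D) := ⟨by
    rw [Measure.restrict_apply_univ]; exact measure_ball_lt_top⟩
  have hKf1 : IntegrableOn (Kf f q) D := (hKf2.mono_exponent (by norm_num)).integrable le_rfl
  -- integrability of the two terms
  have iB : IntegrableOn (fun w => (Kf f q w * conj (dd g w)).re) D := by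
    have : IntegrableOn (fun w => Kf f q w * conj (dd g w)) D := by
      refine (hKf1.bdd_mul (c := C) ?_ ?_).congr ?_ (f := fun w => conj (dd g w) * Kf f q w)
      · exact (Complex.continuous_conj.comp hg.cont_dd).aestronglyMeasurable
      · filter_upwards [ae_restrict_mem measurableSet_ball] with w hw
        simpa using (hC w hw).2.1
      · exact Filter.Eventually.of_forall fun w => mul_comm _ _
    exact this.re
  have hchi := int_chi hf q hq
  have mtau : AEStronglyMeasurable (tau f) (volume.restrict D) := hf.area.aestronglyMeasurable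
  have mg : AEStronglyMeasurable (fun w => conj (g w)) (volume.restrict D) :=
    (Complex.continuous_conj.comp hg.smooth.continuous).aestronglyMeasurable
  have iA : IntegrableOn (fun w => tau f w * ((ph q w - (chi f q w : ℂ)) * conj (g w)).re) D := by
    have b : IntegrableOn (fun w => C * (tau f w * ‖ph q w‖) + C * (tau f w + tau f w * chi f q w ^ 2)) D :=
      ((int_phn hf q hq).const_mul C).add ((hf.area.add hchi.2).const_mul C)
    refine b.mono' ?_ ?_
    · refine mtau.mul ?_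
      exact (Complex.continuous_re.comp_aestronglyMeasurable
        (((meas_ph q).sub (Complex.continuous_ofReal.comp_aestronglyMeasurable hchi.1)).mul mg))
    · filter_upwards [ae_restrict_mem measurableSet_ball] with w hw
      have ht : 0 ≤ tau f w := by unfold tau; positivity
      rw [norm_mul, Real.norm_eq_abs, Real.norm_eq_abs, abs_of_nonneg ht]
      have h1 : |((ph q w - (chi f q w : ℂ)) * conj (g w)).re|
          ≤ (‖ph q w‖ + |chi f q w|) * C := by
        refine (Complex.abs_re_le_norm _).trans ?_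
        rw [norm_mul, RCLike.norm_conj]
        refine mul_le_mul ?_ (hC w hw).1 (norm_nonneg _) (by positivity)
        refine (norm_sub_le _ _).trans ?_
        rw [Complex.norm_real, Real.norm_eq_abs]
      have h2 : |chi f q w| ≤ 1 + chi f q w ^ 2 := by
        nlinarith [sq_nonneg (|chi f q w| - 1), sq_abs (chi f q w), abs_nonneg (chi f q w)]
      calc _ ≤ tau f w * ((‖ph q w‖ + |chi f q w|) * C) := mul_le_mul_of_nonneg_left h1 ht
        _ ≤ tau f w * ((‖ph q w‖ + (1 + chi f q w ^ 2)) * C) := by gcongr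
        _ = _ := by ring
  -- the divergence theorem
  have hdb : ∀ w ∈ D, w ≠ 0 → (db (fun z => Kf f q z * conj (g z)) w).re
      = tau f w * ((ph q w - (chi f q w : ℂ)) * conj (g w)).re
        + (Kf f q w * conj (dd g w)).re := by
    intro w hw hw0
    have hK1 : DifferentiableAt ℝ (Kf f q) w :=
      ((contDiffOn_Kf hf q).contDiffAt (isOpen_D0.mem_nhds ⟨hw, hw0⟩)).differentiableAt (by norm_num)
    have hg1 : DifferentiableAt ℝ (fun z => conj (g z)) w := (conjCLE_fderiv (hg.dif w)).differentiableAt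
    rw [db_mul hK1 hg1, db_Kf hf q hw hw0, db_conj (hg.dif w), Complex.add_re, mul_assoc,
      Complex.re_ofReal_mul]
  have hae : (fun w => (db (fun z => Kf f q z * conj (g z)) w).re) =ᵐ[volume.restrict D]
      fun w => tau f w * ((ph q w - (chi f q w : ℂ)) * conj (g w)).re
        + (Kf f q w * conj (dd g w)).re := by
    have h0 : ∀ᵐ w ∂(volume.restrict D), w ≠ (0 : ℂ) := by
      refine ae_restrict_of_ae ?_
      exact (measure_eq_zero_iff_ae_notMem.1 (measure_singleton (0 : ℂ)))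
    filter_upwards [ae_restrict_mem measurableSet_ball, h0] with w hw hw0
    exact hdb w hw hw0
  have key := cut (fun z => Kf f q z * conj (g z))
    ((contDiffOn_Kf hf q).mul ((Complex.conjCLE : ℂ →L[ℝ] ℂ).contDiff.comp_contDiffOn
      ((hg.smooth.of_le (by norm_num)).contDiffOn)))
    ((iA.add iB).congr hae.symm)
    (fun w => C * (4 * M * (1 + tau f w) + 2 * M ^ 2) + C * ‖Kf f q w‖)
    (by
      have hone : IntegrableOn (fun _ : ℂ => (1 : ℝ)) D := integrable_const _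
      exact (((((hone.add hf.area).const_mul (4 * M)).add (hone.const_mul (2 * M ^ 2))).const_mul C).congr
        (Filter.Eventually.of_forall fun w => by simp)).add (hKf1.norm.const_mul C))
    (by
      intro w hw h
      have h1 : ‖w‖ < 1 := by simpa using hw
      obtain ⟨g1, -, g3⟩ := hC w hw
      have e : (w * (Kf f q w * conj (g w))).re
          = (w * Kf f q w).re * (g w).re + (w * Kf f q w).im * (g w).im := by
        rw [← mul_assoc, Complex.mul_re, Complex.conj_re, Complex.conj_im]; ring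
      rw [e]
      have b1 := Kf_bound_im q hq hM hw h
      have b2 : |(g w).re| ≤ C := (Complex.abs_re_le_norm _).trans g1
      have b3 : |(w * Kf f q w).im| ≤ ‖Kf f q w‖ := by
        refine (Complex.abs_im_le_norm _).trans ?_
        rw [norm_mul]
        calc ‖w‖ * ‖Kf f q w‖ ≤ 1 * ‖Kf f q w‖ := by gcongr
          _ = _ := one_mul _
      have b4 : ‖deriv f w‖ ≤ 1 + tau f w := by
        unfold tau; nlinarith [sq_nonneg (‖deriv f w‖ - 1), norm_nonneg (deriv f w)]
      calc |(w * Kf f q w).re * (g w).re + (w * Kf f q w).im * (g w).im|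
          ≤ |(w * Kf f q w).re| * |(g w).re| + |(w * Kf f q w).im| * |(g w).im| := by
            rw [← abs_mul, ← abs_mul]; exact abs_add_le _ _
        _ ≤ ((4 * M * ‖deriv f w‖ + 2 * M ^ 2) * (1 - ‖w‖)) * C
            + ‖Kf f q w‖ * (C * (1 - ‖w‖)) := by
            gcongr
        _ ≤ ((4 * M * (1 + tau f w) + 2 * M ^ 2) * (1 - ‖w‖)) * C
            + ‖Kf f q w‖ * (C * (1 - ‖w‖)) := by
            have : 0 ≤ 1 - ‖w‖ := by linarith
            gcongr
        _ = _ := by ring)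
    (K * C)
    (by
      intro w hw hw0 h
      rw [norm_mul, RCLike.norm_conj]
      exact mul_le_mul (hK w hw hw0 h) (hC w hw).1 (norm_nonneg _) hK0)
  rw [integral_congr_ae hae, integral_add iA iB] at key
  linarith

end Crest.Agent.HS
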