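import Crest.Agent.HS.Field
import Crest.Agent.HS.WeakG
import Crest.Agent.HS.WeakK
import Crest.Agent.HS.Ints
import Crest.Agent.HS.Ints2
import Crest.Agent.HS.Alg
set_option autoImplicit false
noncomputable section
namespace Crest.Agent.HS.Mn
open Crest.Agent.HS.Al
open MeasureTheory Complex Metric Set
open scoped ComplexConjugate Topology

lemma memLp_sq {μ : Measure ℂ} {a : ℂ → ℂ} (ha : MemLp a 2 μ) :
    Integrable (fun w => ‖a w‖ ^ 2) μ := by
  have := ha.integrable_norm_pow (by norm_num)
  simpa using this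

lemma int_re_mul {μ : Measure ℂ} {a b : ℂ → ℂ} (ha : MemLp a 2 μ) (hb : MemLp b 2 μ) :
    Integrable (fun w => (a w * conj (b w)).re) μ := by
  have h1 : Integrable (fun w => (1 / 2 : ℝ) * (‖a w‖ ^ 2 + ‖b w‖ ^ 2)) μ :=
    ((memLp_sq ha).add (memLp_sq hb)).const_mul _
  refine h1.mono' ?_ ?_
  · have hb' : AEStronglyMeasurable (fun w => conj (b w)) μ :=
      Complex.continuous_conj.comp_aestronglyMeasurable hb.aestronglyMeasurable
    exact Complex.continuous_re.comp_aestronglyMeasurable (ha.aestronglyMeasurable.mul hb')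
  · filter_upwards with w
    have e1 : |(a w * conj (b w)).re| ≤ ‖a w‖ * ‖b w‖ := by
      refine (Complex.abs_re_le_norm _).trans ?_
      rw [norm_mul, Complex.norm_conj]
    rw [Real.norm_eq_abs]
    nlinarith [sq_nonneg (‖a w‖ - ‖b w‖)]

lemma ae_D : ∀ᵐ w ∂(volume.restrict D : Measure ℂ), w ∈ D ∧ w ≠ 0 := by
  have h1 : ∀ᵐ w ∂(volume.restrict D : Measure ℂ), w ∈ D :=
    ae_restrict_mem measurableSet_ball
  have h2 : ∀ᵐ w ∂(volume.restrict D : Measure ℂ), w ≠ 0 := by
    have : ∀ᵐ w ∂(volume : Measure ℂ), w ≠ 0 := by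
      rw [ae_iff]
      simp
    exact ae_restrict_of_ae this
  filter_upwards [h1, h2] with w a b using ⟨a, b⟩

lemma adm_bound {g : ℂ → ℂ} (hg : Adm g) : ∃ C : ℝ, 0 ≤ C ∧ ∀ w ∈ D, ‖g w‖ ≤ C ∧ ‖dd g w‖ ≤ C := by
  have hc : ContinuousOn (fun w => ‖g w‖ + ‖dd g w‖) (closedBall (0 : ℂ) 1) := by
    have h1 : Continuous g := hg.smooth.continuous
    have h2 : Continuous (fderiv ℝ g) := hg.smooth.continuous_fderiv (by norm_num)
    have h3 : Continuous (dd g) := by
      unfold dd
      exact (h2.clm_apply continuous_const).sub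
        (continuous_const.mul (h2.clm_apply continuous_const))
    exact (h1.norm.add h3.norm).continuousOn
  obtain ⟨C, hC⟩ := (isCompact_closedBall (0 : ℂ) 1).exists_bound_of_continuousOn hc
  refine ⟨|C|, abs_nonneg _, fun w hw => ?_⟩
  have hw' := hC w (ball_subset_closedBall hw)
  rw [Real.norm_eq_abs] at hw'
  have h4 := le_abs_self C
  have h5 := le_abs_self (‖g w‖ + ‖dd g w‖)
  have h6 := norm_nonneg (g w)
  have h7 := norm_nonneg (dd g w)
  constructor <;> linarith

lemma adm_memLp_dd {g : ℂ → ℂ} (hg : Adm g) : MemLp (dd g) 2 (volume.restrict D) := by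
  obtain ⟨C, hC0, hC⟩ := adm_bound hg
  have h2 : Continuous (fderiv ℝ g) := hg.smooth.continuous_fderiv (by norm_num)
  have h3 : Continuous (dd g) := by
    unfold dd
    exact (h2.clm_apply continuous_const).sub
      (continuous_const.mul (h2.clm_apply continuous_const))
  haveI : IsFiniteMeasure (volume.restrict D : Measure ℂ) := ⟨by
    rw [Measure.restrict_apply_univ]; exact measure_ball_lt_top⟩
  refine MemLp.of_bound h3.aestronglyMeasurable C ?_
  filter_upwards [ae_D] with w hw using (hC w hw.1).2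

lemma meas_tau {f : ℂ → ℂ} (hf : Conf f) : AEStronglyMeasurable (tau f) (volume.restrict D) :=
  hf.area.aestronglyMeasurable

/-- `τ |θ| |ph|` -/
lemma int_thph {f : ℂ → ℂ} {κ c : ℝ} {θ : ℂ → ℝ} (hS : Sol f κ c θ) (q : ℂ) (hq : ‖q‖ = 1) :
    IntegrableOn (fun w => tau f w * (|θ w| * ‖ph q w‖)) D := by
  have h1 : IntegrableOn (fun w => (1 / 2 : ℝ) * (tau f w + tau f w * (θ w ^ 2 * ‖ph q w‖ ^ 2))) D :=
    (hS.conf.area.add (int_th hS q hq)).const_mul _
  refine h1.mono' ?_ ?_
  · exact (meas_tau hS.conf).mul ((meas_th hS).norm.mul (meas_ph q).norm)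
  · filter_upwards with w
    have ht : 0 ≤ tau f w := by unfold tau; positivity
    rw [Real.norm_eq_abs, abs_of_nonneg (by positivity)]
    have : |θ w| * ‖ph q w‖ ≤ (1 / 2) * (1 + θ w ^ 2 * ‖ph q w‖ ^ 2) := by
      have := sq_nonneg (|θ w| * ‖ph q w‖ - 1)
      have h3 : (|θ w| * ‖ph q w‖) ^ 2 = θ w ^ 2 * ‖ph q w‖ ^ 2 := by rw [mul_pow, sq_abs]
      nlinarith
    nlinarith [mul_le_mul_of_nonneg_left this ht]

lemma int_tchi {f : ℂ → ℂ} (hf : Conf f) (q : ℂ) (hq : ‖q‖ = 1) :
    IntegrableOn (fun w => tau f w * |chi f q w|) D := by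
  have h1 : IntegrableOn (fun w => (1 / 2 : ℝ) * (tau f w + tau f w * chi f q w ^ 2)) D :=
    (hf.area.add (int_chi hf q hq).2).const_mul _
  refine h1.mono' ?_ ?_
  · exact (meas_tau hf).mul ((int_chi hf q hq).1.norm)
  · filter_upwards with w
    have ht : 0 ≤ tau f w := by unfold tau; positivity
    rw [Real.norm_eq_abs, abs_of_nonneg (by positivity)]
    have : |chi f q w| ≤ (1 / 2) * (1 + chi f q w ^ 2) := by
      have := sq_nonneg (|chi f q w| - 1)
      have h3 := sq_abs (chi f q w)
      nlinarith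
    nlinarith [mul_le_mul_of_nonneg_left this ht]

theorem weak_vf {f : ℂ → ℂ} {κ c : ℝ} {θ : ℂ → ℝ} (hS : Sol f κ c θ) (q : ℂ) (hq : ‖q‖ = 1)
    (g : ℂ → ℂ) (hg : Adm g) :
    ∫ w in D, (vf f κ c θ q w * conj (dd g w)).re
      = -∫ w in D, tau f w * (sg f κ c θ q w * conj (g w)).re := by
  obtain ⟨C, hC0, hC⟩ := adm_bound hg
  have hgm : AEStronglyMeasurable g (volume.restrict D) :=
    hg.smooth.continuous.aestronglyMeasurable
  have hgc : AEStronglyMeasurable (fun w => conj (g w)) (volume.restrict D) :=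
    Complex.continuous_conj.comp_aestronglyMeasurable hgm
  have e1 : ∀ w, (vf f κ c θ q w * conj (dd g w)).re
      = (ph q w * gr θ w * conj (dd g w)).re - (κ * c) * (Kf f q w * conj (dd g w)).re := by
    intro w
    rw [vf, sub_mul, Complex.sub_re, mul_assoc ((κ * c : ℝ) : ℂ), Complex.re_ofReal_mul]
  have i1 := int_re_mul (memLp_grad hS q hq) (adm_memLp_dd hg)
  have i2 := int_re_mul (memLp_Kf hS.conf q hq) (adm_memLp_dd hg)
  simp_rw [e1]
  rw [integral_sub i1 (i2.const_mul _), integral_const_mul, weak_grad hS q hq g hg,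
    weak_K hS.conf q hq g hg]
  -- right-hand side
  have bR : ∀ w ∈ D, |(ph q w * conj (g w)).re| ≤ ‖ph q w‖ * C := by
    intro w hw
    refine (Complex.abs_re_le_norm _).trans ?_
    rw [norm_mul, Complex.norm_conj]
    exact mul_le_mul_of_nonneg_left (hC w hw).1 (norm_nonneg _)
  have mR : AEStronglyMeasurable (fun w => (ph q w * conj (g w)).re) (volume.restrict D) :=
    Complex.continuous_re.comp_aestronglyMeasurable ((meas_ph q).mul hgc)
  have j1 : IntegrableOn (fun w => tau f w * (ph q w * conj (g w)).re) D := by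
    refine ((int_phn hS.conf q hq).mul_const C).mono' ((meas_tau hS.conf).mul mR) ?_
    filter_upwards [ae_D] with w hw
    have ht : 0 ≤ tau f w := by unfold tau; positivity
    rw [Real.norm_eq_abs, abs_mul, abs_of_nonneg ht, mul_assoc]
    exact mul_le_mul_of_nonneg_left (bR w hw.1) ht
  have j2 : IntegrableOn (fun w => tau f w * (θ w * (ph q w * conj (g w)).re)) D := by
    refine ((int_thph hS q hq).mul_const C).mono'
      ((meas_tau hS.conf).mul ((meas_th hS).mul mR)) ?_
    filter_upwards [ae_D] with w hw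
    have ht : 0 ≤ tau f w := by unfold tau; positivity
    rw [Real.norm_eq_abs, abs_mul, abs_of_nonneg ht, abs_mul]
    have := mul_le_mul_of_nonneg_left (bR w hw.1) (abs_nonneg (θ w))
    nlinarith [mul_le_mul_of_nonneg_left this ht]
  have j3 : IntegrableOn (fun w => tau f w * (chi f q w * (g w).re)) D := by
    refine ((int_tchi hS.conf q hq).mul_const C).mono'
      ((meas_tau hS.conf).mul ((int_chi hS.conf q hq).1.mul
        (Complex.continuous_re.comp_aestronglyMeasurable hgm))) ?_
    filter_upwards [ae_D] with w hw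
    have ht : 0 ≤ tau f w := by unfold tau; positivity
    rw [Real.norm_eq_abs, abs_mul, abs_of_nonneg ht, abs_mul]
    have h1 : |(g w).re| ≤ C := (Complex.abs_re_le_norm _).trans (hC w hw.1).1
    have := mul_le_mul_of_nonneg_left h1 (abs_nonneg (chi f q w))
    nlinarith [mul_le_mul_of_nonneg_left this ht]
  have r1 : ∫ w in D, tau f w * ((c - θ w) * (ph q w * conj (g w)).re)
      = c * (∫ w in D, tau f w * (ph q w * conj (g w)).re)
        - ∫ w in D, tau f w * (θ w * (ph q w * conj (g w)).re) := by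
    rw [← integral_const_mul, ← integral_sub (j1.const_mul c) j2]
    refine integral_congr_ae ?_
    filter_upwards with w
    ring
  have r2 : ∫ w in D, tau f w * ((ph q w - (chi f q w : ℂ)) * conj (g w)).re
      = (∫ w in D, tau f w * (ph q w * conj (g w)).re)
        - ∫ w in D, tau f w * (chi f q w * (g w).re) := by
    rw [← integral_sub j1 j3]
    refine integral_congr_ae ?_
    filter_upwards with w
    rw [sub_mul, Complex.sub_re, Complex.re_ofReal_mul, Complex.conj_re]
    ring
  have r3 : ∫ w in D, tau f w * (sg f κ c θ q w * conj (g w)).re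
      = -κ * (∫ w in D, tau f w * (θ w * (ph q w * conj (g w)).re))
        + κ * c * ∫ w in D, tau f w * (chi f q w * (g w).re) := by
    rw [← integral_const_mul, ← integral_const_mul,
      ← integral_add (j2.const_mul (-κ)) (j3.const_mul (κ * c))]
    refine integral_congr_ae ?_
    filter_upwards with w
    rw [sg, add_mul, mul_assoc ((-κ * θ w : ℝ) : ℂ), Complex.add_re, Complex.re_ofReal_mul,
      Complex.re_ofReal_mul, Complex.conj_re]
    ring
  rw [r1, r2, r3]
  ring

end Crest.Agent.HS.Mn
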