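import Crest.Agent.HS.ParsAux
set_option autoImplicit false
noncomputable section
namespace Crest.Agent.HS
open MeasureTheory Complex Metric Set
open scoped ComplexConjugate Topology

/-- Parseval in the disc with a radial weight. -/
theorem pars2 (g h : ℂ → ℂ) (b c : ℕ → ℂ)
    (hg : ∀ w ∈ D, HasSum (fun m => b m * w ^ m) (g w))
    (hh : ∀ w ∈ D, HasSum (fun m => c m * w ^ m) (h w))
    (ω : ℝ → ℝ) (hω : Continuous ω)
    (Hb : Summable fun m => ‖b m‖ ^ 2 * ∫ t in (0 : ℝ)..1, t ^ m * |ω t|)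
    (Hc : Summable fun m => ‖c m‖ ^ 2 * ∫ t in (0 : ℝ)..1, t ^ m * |ω t|) :
    IntegrableOn (fun w => ω (tt w) * (g w * conj (h w)).re) D ∧
    HasSum (fun m => Real.pi * (b m * conj (c m)).re * ∫ t in (0 : ℝ)..1, t ^ m * ω t)
      (∫ w in D, ω (tt w) * (g w * conj (h w)).re) := by
  have hgc := cont_of_hasSum hg
  have hhc := cont_of_hasSum hh
  have hI : IntegrableOn (fun w => ω (tt w) * (g w * conj (h w)).re) D := by
    refine Integrable.mono' ((integr_sq hg ω hω Hb).add (integr_sq hh ω hω Hc)) ?_ ?_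
    · refine ContinuousOn.aestronglyMeasurable ?_ measurableSet_ball
      exact (hω.comp cont_tt).continuousOn.mul
        (Complex.continuous_re.comp_continuousOn (hgc.mul (Complex.continuous_conj.comp_continuousOn hhc)))
    · refine Filter.Eventually.of_forall fun w => ?_
      simp only [Pi.add_apply]
      rw [norm_mul, Real.norm_eq_abs, Real.norm_eq_abs, ← mul_add]
      refine mul_le_mul_of_nonneg_left ?_ (abs_nonneg _)
      calc |(g w * conj (h w)).re| ≤ ‖g w * conj (h w)‖ := Complex.abs_re_le_norm _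
        _ = ‖g w‖ * ‖h w‖ := by rw [norm_mul, Complex.norm_conj]
        _ ≤ _ := by nlinarith [sq_nonneg (‖g w‖ - ‖h w‖), norm_nonneg (g w), norm_nonneg (h w), sq_nonneg (‖g w‖), sq_nonneg ‖h w‖]
  refine ⟨hI, ?_⟩
  set G : ℝ × ℝ → ℝ := fun p => p.1 * (ω (p.1 ^ 2) * (g (PP p.1 p.2) * conj (h (PP p.1 p.2))).re) with hG
  have e2 : (volume.restrict TT : Measure (ℝ × ℝ))
      = (volume.restrict (Ioo (0 : ℝ) 1)).prod (volume.restrict (Ioo (-Real.pi) Real.pi)) := by
    rw [Measure.prod_restrict, ← Measure.volume_eq_prod]; rfl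
  have hGi : IntegrableOn G TT := by
    refine ⟨?_, ?_⟩
    · refine ContinuousOn.aestronglyMeasurable ?_ meas_TT
      refine continuous_fst.continuousOn.mul ((hω.comp (by fun_prop)).continuousOn.mul ?_)
      exact Complex.continuous_re.comp_continuousOn
        ((contOn_PP hgc).mul (Complex.continuous_conj.comp_continuousOn (contOn_PP hhc)))
    · have h1 := hI.2
      rw [hasFiniteIntegral_iff_enorm, polarL] at h1
      rw [hasFiniteIntegral_iff_enorm]
      refine lt_of_le_of_lt (le_of_eq ?_) h1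
      refine setLIntegral_congr_fun meas_TT fun p hp => ?_
      rw [hG]
      simp only
      rw [tt_PP _ _ hp.1.1.le, enorm_mul p.1, Real.enorm_of_nonneg hp.1.1.le]
  have e1 : (∫ w in D, ω (tt w) * (g w * conj (h w)).re) = ∫ p in TT, G p := by
    rw [polarI]
    refine setIntegral_congr_fun meas_TT fun p hp => ?_
    rw [hG]
    simp only
    rw [tt_PP _ _ hp.1.1.le]
  rw [e1]
  rw [IntegrableOn, e2] at hGi
  rw [e2, integral_prod _ hGi]
  set F : ℕ → ℝ → ℝ := fun m r => r * (ω (r ^ 2) * (2 * r ^ (2 * m))) * (Real.pi * (b m * conj (c m)).re) with hF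
  have hFc : ∀ m, Continuous (F m) := by intro m; rw [hF]; fun_prop
  have hFi : ∀ m, Integrable (F m) (volume.restrict (Ioo (0 : ℝ) 1)) := fun m =>
    ((hFc m).integrableOn_Icc).mono_set Ioo_subset_Icc_self
  have hFn : ∀ m, ∫ r in Ioo (0 : ℝ) 1, ‖F m r‖
      = Real.pi * |(b m * conj (c m)).re| * ∫ t in (0 : ℝ)..1, t ^ m * |ω t| := by
    intro m
    rw [← subst_sq (fun t => |ω t|) hω.abs m, intervalIntegral.integral_of_le zero_le_one,
      integral_Ioc_eq_integral_Ioo, mul_comm (Real.pi * _), ← integral_mul_const]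
    refine setIntegral_congr_fun measurableSet_Ioo fun r hr => ?_
    rw [hF]
    simp only [Real.norm_eq_abs]
    rw [abs_mul, abs_mul, abs_mul, abs_of_pos hr.1, abs_of_nonneg (by have := hr.1; positivity : 0 ≤ 2 * r ^ (2 * m)),
      abs_mul, abs_of_pos Real.pi_pos]
  have hsum : Summable fun m => ∫ r in Ioo (0 : ℝ) 1, ‖F m r‖ := by
    simp_rw [hFn]
    refine Summable.of_nonneg_of_le (fun m => ?_) (fun m => ?_) ((Hb.add Hc).mul_left Real.pi)
    · refine mul_nonneg (by positivity) ?_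
      exact intervalIntegral.integral_nonneg zero_le_one fun t ht =>
        mul_nonneg (pow_nonneg ht.1 _) (abs_nonneg _)
    · have hJ : 0 ≤ ∫ t in (0 : ℝ)..1, t ^ m * |ω t| :=
        intervalIntegral.integral_nonneg zero_le_one fun t ht =>
          mul_nonneg (pow_nonneg ht.1 _) (abs_nonneg _)
      have h7 : |(b m * conj (c m)).re| ≤ ‖b m‖ ^ 2 + ‖c m‖ ^ 2 := by
        calc |(b m * conj (c m)).re| ≤ ‖b m * conj (c m)‖ := Complex.abs_re_le_norm _
          _ = ‖b m‖ * ‖c m‖ := by rw [norm_mul, Complex.norm_conj]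
          _ ≤ _ := by nlinarith [sq_nonneg (‖b m‖ - ‖c m‖), norm_nonneg (b m), norm_nonneg (c m), sq_nonneg (‖b m‖), sq_nonneg ‖c m‖]
      rw [mul_assoc, ← add_mul]
      exact mul_le_mul_of_nonneg_left (mul_le_mul_of_nonneg_right h7 hJ) Real.pi_pos.le
  have h1 := hasSum_integral_of_summable_integral_norm hFi hsum
  have h2 : ∀ m, ∫ r in Ioo (0 : ℝ) 1, F m r
      = Real.pi * (b m * conj (c m)).re * ∫ t in (0 : ℝ)..1, t ^ m * ω t := by
    intro m
    rw [hF]
    simp only
    rw [integral_mul_const, ← integral_Ioc_eq_integral_Ioo,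
      ← intervalIntegral.integral_of_le zero_le_one, subst_sq ω hω m]
    ring
  simp_rw [h2] at h1
  have hfin : ∫ r in Ioo (0 : ℝ) 1, ∫ θ in Ioo (-Real.pi) Real.pi, G (r, θ)
      = ∫ r in Ioo (0 : ℝ) 1, ∑' m, F m r := by
    refine setIntegral_congr_fun (s := Ioo (0 : ℝ) 1) measurableSet_Ioo fun r hr => ?_
    have hci := circ hg hh r hr.1.le hr.2
    simp only [hG]
    rw [integral_const_mul, integral_const_mul]
    have h6 := (hci.mul_left (ω (r ^ 2))).mul_left r
    rw [← h6.tsum_eq]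
    congr 1
    funext m
    rw [hF]
    ring
  rw [hfin]
  exact h1

/-- converse summability: if `ω ≥ 0` and `ω |g|²` is integrable, the coefficient sum converges. -/
theorem pars_summable (g : ℂ → ℂ) (b : ℕ → ℂ)
    (hg : ∀ w ∈ D, HasSum (fun m => b m * w ^ m) (g w))
    (ω : ℝ → ℝ) (hω : Continuous ω) (hω0 : ∀ t ∈ Icc (0 : ℝ) 1, 0 ≤ ω t)
    (hi : IntegrableOn (fun w => ω (tt w) * ‖g w‖ ^ 2) D) :
    Summable fun m => ‖b m‖ ^ 2 * ∫ t in (0 : ℝ)..1, t ^ m * ω t := by
  have h0 : ∀ m : ℕ, 0 ≤ ∫ t in (0 : ℝ)..1, t ^ m * ω t := fun m =>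
    intervalIntegral.integral_nonneg zero_le_one fun t ht =>
      mul_nonneg (pow_nonneg ht.1 _) (hω0 t ht)
  have hae : 0 ≤ᵐ[volume.restrict D] fun w => ω (tt w) * ‖g w‖ ^ 2 := by
    refine (ae_restrict_iff' measurableSet_ball).mpr (Filter.Eventually.of_forall fun w hw => ?_)
    have hw1 : ‖w‖ < 1 := by simpa [D] using hw
    refine mul_nonneg (hω0 _ ⟨by unfold tt; positivity, ?_⟩) (by positivity)
    unfold tt
    nlinarith [norm_nonneg w]
  have h1 := hi.2
  rw [hasFiniteIntegral_iff_ofReal hae, lint hg ω hω hω0] at h1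
  have h2 := ENNReal.summable_toReal h1.ne
  have h3 : Summable fun m => Real.pi * ‖b m‖ ^ 2 * ∫ t in (0 : ℝ)..1, t ^ m * ω t := by
    refine h2.congr fun m => ?_
    rw [ENNReal.toReal_ofReal (mul_nonneg (by positivity) (h0 m))]
  have h4 := h3.mul_left (Real.pi⁻¹)
  refine h4.congr fun m => ?_
  field_simp

end Crest.Agent.HS
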