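import Crest.Agent.HS.Defs
set_option autoImplicit false
noncomputable section
namespace Crest.Agent.HS
open MeasureTheory Complex Metric Set
open scoped ComplexConjugate Topology

/-- the point with polar coordinates `(r, θ)` -/
def PP (r θ : ℝ) : ℂ := (r : ℂ) * (Real.cos θ + Real.sin θ * I)

lemma cos_sin_eq (θ : ℝ) : ((Real.cos θ : ℂ) + Real.sin θ * I) = exp (θ * I) := by
  rw [Complex.exp_mul_I, ofReal_cos, ofReal_sin]

lemma norm_PP (r θ : ℝ) (hr : 0 ≤ r) : ‖PP r θ‖ = r := by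
  unfold PP
  rw [norm_mul, cos_sin_eq, Complex.norm_exp_ofReal_mul_I, mul_one]
  simp [abs_of_nonneg hr]

lemma cont_PP (r : ℝ) : Continuous (fun θ : ℝ => PP r θ) := by
  unfold PP; fun_prop

lemma cont_PP2 : Continuous (fun p : ℝ × ℝ => PP p.1 p.2) := by
  unfold PP; fun_prop

lemma PP_mem (r θ : ℝ) (hr : 0 ≤ r) (hr1 : r < 1) : PP r θ ∈ D := by
  simp [D, norm_PP r θ hr, hr1]

/-- continuity of a sum of a power series in the disc -/
lemma cont_of_hasSum {g : ℂ → ℂ} {b : ℕ → ℂ}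
    (hg : ∀ w ∈ D, HasSum (fun m => b m * w ^ m) (g w)) : ContinuousOn g D := by
  intro w hw
  have hw1 : ‖w‖ < 1 := by simpa [D] using hw
  obtain ⟨r, hr1, hr2⟩ := exists_between hw1
  have hr0 : 0 ≤ r := le_trans (norm_nonneg _) hr1.le
  have hrD : (r : ℂ) ∈ D := by simp [D, abs_of_nonneg hr0, hr2]
  have hs : Summable (fun m => ‖b m‖ * r ^ m) := by
    have := (hg _ hrD).summable.norm
    simpa [abs_of_nonneg hr0] using this
  have hc : ContinuousOn (fun x => ∑' m, b m * x ^ m) (ball (0 : ℂ) r) := by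
    refine continuousOn_tsum (fun m => by fun_prop) hs ?_
    intro m x hx
    have hx1 : ‖x‖ < r := by simpa using hx
    rw [norm_mul, norm_pow]
    gcongr
  have hsub : ball (0 : ℂ) r ⊆ D := ball_subset_ball hr2.le
  have hc2 : ContinuousOn g (ball (0 : ℂ) r) := by
    refine hc.congr fun x hx => ?_
    exact ((hg x (hsub hx)).tsum_eq).symm
  exact (hc2.continuousAt (isOpen_ball.mem_nhds (by simpa using hr1))).continuousWithinAt

lemma orth (m n : ℕ) : ∫ θ in Ioo (-Real.pi) Real.pi, exp (θ * I) ^ m * conj (exp (θ * I) ^ n)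
    = if m = n then (2 * Real.pi : ℂ) else 0 := by
  rw [← integral_Ioc_eq_integral_Ioo, ← intervalIntegral.integral_of_le (by linarith [Real.pi_pos])]
  have e : ∀ θ : ℝ, exp (θ * I) ^ m * conj (exp (θ * I) ^ n)
      = exp ((((m : ℝ) - n : ℝ) * I : ℂ) * θ) := by
    intro θ
    rw [map_pow, ← Complex.exp_conj, ← Complex.exp_nat_mul, ← Complex.exp_nat_mul, ← Complex.exp_add]
    congr 1
    simp
    ring
  simp_rw [e]
  by_cases h : m = n
  · subst h
    simp
    ring_nf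
  · rw [if_neg h]
    have hc : ((((m : ℝ) - n : ℝ) : ℂ) * I) ≠ 0 := by
      have : ((m : ℝ) - n) ≠ 0 := sub_ne_zero.mpr (by exact_mod_cast h)
      simpa using (by exact_mod_cast this : (((m : ℝ) - n : ℝ) : ℂ) ≠ 0)
    rw [integral_exp_mul_complex hc]
    have : exp ((((m : ℝ) - n : ℝ) * I : ℂ) * (Real.pi : ℝ))
        = exp ((((m : ℝ) - n : ℝ) * I : ℂ) * (-Real.pi : ℝ)) := by
      rw [Complex.exp_eq_exp_iff_exists_int]
      refine ⟨(m : ℤ) - n, ?_⟩
      push_cast
      ring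
    rw [this]; simp

lemma expI_norm (θ : ℝ) (m : ℕ) : ‖exp (θ * I) ^ m‖ = 1 := by
  rw [norm_pow, Complex.norm_exp_ofReal_mul_I, one_pow]

lemma PP_pow (r θ : ℝ) (m : ℕ) : PP r θ ^ m = (r : ℂ) ^ m * exp (θ * I) ^ m := by
  unfold PP
  rw [cos_sin_eq, mul_pow]

lemma vol_Ioo : (volume.restrict (Ioo (-Real.pi) Real.pi)).real univ = 2 * Real.pi := by
  rw [measureReal_restrict_apply MeasurableSet.univ]
  simp [Real.volume_real_Ioo]
  rw [max_eq_left (by positivity)]
  ring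

/-- Fourier coefficient on the circle of radius `r` -/
lemma coefB {h : ℂ → ℂ} {c : ℕ → ℂ} (hh : ∀ w ∈ D, HasSum (fun m => c m * w ^ m) (h w))
    (r : ℝ) (hr0 : 0 ≤ r) (hr1 : r < 1) (m : ℕ) :
    ∫ θ in Ioo (-Real.pi) Real.pi, exp (θ * I) ^ m * conj (h (PP r θ))
      = 2 * Real.pi * conj (c m * (r : ℂ) ^ m) := by
  have hrD : (r : ℂ) ∈ D := by simp [D, abs_of_nonneg hr0, hr1]
  have hs : Summable (fun n => ‖c n * (r : ℂ) ^ n‖) := (hh _ hrD).summable.norm
  set F : ℕ → ℝ → ℂ := fun n θ => exp (θ * I) ^ m * conj (c n * (r : ℂ) ^ n * exp (θ * I) ^ n) with hF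
  have hFc : ∀ n, Continuous (F n) := by
    intro n; rw [hF]; dsimp only
    exact (by fun_prop : Continuous fun θ : ℝ => exp (θ * I) ^ m).mul
      (Complex.continuous_conj.comp (by fun_prop))
  have hFn : ∀ n θ, ‖F n θ‖ = ‖c n * (r : ℂ) ^ n‖ := by
    intro n θ
    rw [hF]; dsimp only
    rw [norm_mul, expI_norm, one_mul, Complex.norm_conj, norm_mul, expI_norm, mul_one]
  have hint : ∀ n, Integrable (F n) (volume.restrict (Ioo (-Real.pi) Real.pi)) := by
    intro n
    refine Integrable.mono' (integrable_const (‖c n * (r : ℂ) ^ n‖)) (hFc n).aestronglyMeasurable ?_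
    exact Filter.Eventually.of_forall fun θ => (hFn n θ).le
  have h1 := hasSum_integral_of_summable_integral_norm hint (by
    simp_rw [hFn]
    simp only [integral_const, vol_Ioo, smul_eq_mul]
    exact hs.mul_left _)
  have e1 : (∫ θ in Ioo (-Real.pi) Real.pi, ∑' n, F n θ)
      = ∫ θ in Ioo (-Real.pi) Real.pi, exp (θ * I) ^ m * conj (h (PP r θ)) := by
    congr 1
    funext θ
    have h2 := hh _ (PP_mem r θ hr0 hr1)
    have h3 : HasSum (fun n => F n θ) (exp (θ * I) ^ m * conj (h (PP r θ))) := by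
      refine HasSum.mul_left _ ?_
      have h4 := (Complex.hasSum_conj'.mpr h2)
      simp_rw [PP_pow, ← mul_assoc] at h4
      exact h4
    exact h3.tsum_eq
  have e2 : ∀ n, ∫ θ in Ioo (-Real.pi) Real.pi, F n θ
      = if m = n then 2 * Real.pi * conj (c m * (r : ℂ) ^ m) else 0 := by
    intro n
    have : ∀ θ, F n θ = conj (c n * (r : ℂ) ^ n) * (exp (θ * I) ^ m * conj (exp (θ * I) ^ n)) := by
      intro θ
      rw [hF]; dsimp only
      rw [map_mul]
      ring
    simp_rw [this]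
    rw [integral_const_mul, orth]
    split_ifs with hmn
    · subst hmn; ring
    · simp
  rw [e1] at h1
  simp_rw [e2] at h1
  have h5 : HasSum (fun n => if m = n then 2 * Real.pi * conj (c m * (r : ℂ) ^ m) else (0 : ℂ))
      (2 * Real.pi * conj (c m * (r : ℂ) ^ m)) := by
    have := hasSum_ite_eq m (2 * Real.pi * conj (c m * (r : ℂ) ^ m) : ℂ)
    simpa [eq_comm] using this
  exact h1.unique h5

/-- Parseval on a circle -/
lemma circ {g h : ℂ → ℂ} {b c : ℕ → ℂ} (hg : ∀ w ∈ D, HasSum (fun m => b m * w ^ m) (g w))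
    (hh : ∀ w ∈ D, HasSum (fun m => c m * w ^ m) (h w))
    (r : ℝ) (hr0 : 0 ≤ r) (hr1 : r < 1) :
    HasSum (fun m => 2 * Real.pi * (b m * conj (c m)).re * r ^ (2 * m))
      (∫ θ in Ioo (-Real.pi) Real.pi, (g (PP r θ) * conj (h (PP r θ))).re) := by
  have hrD : (r : ℂ) ∈ D := by simp [D, abs_of_nonneg hr0, hr1]
  have hsb : Summable (fun n => ‖b n * (r : ℂ) ^ n‖) := (hg _ hrD).summable.norm
  have hsc : Summable (fun n => ‖c n * (r : ℂ) ^ n‖) := (hh _ hrD).summable.norm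
  have hcont : ∀ {k : ℂ → ℂ} {a : ℕ → ℂ}, (∀ w ∈ D, HasSum (fun m => a m * w ^ m) (k w)) →
      Continuous (fun θ => k (PP r θ)) := by
    intro k a hk
    exact (cont_of_hasSum hk).comp_continuous (cont_PP r) (fun θ => PP_mem r θ hr0 hr1)
  set H : ℝ := ∑' n, ‖c n * (r : ℂ) ^ n‖ with hH
  have hbound : ∀ θ, ‖h (PP r θ)‖ ≤ H := by
    intro θ
    have h2 := hh _ (PP_mem r θ hr0 hr1)
    have e : ∀ n, ‖c n * PP r θ ^ n‖ = ‖c n * (r : ℂ) ^ n‖ := by
      intro n; rw [norm_mul, norm_mul, norm_pow, norm_pow, norm_PP r θ hr0]; simp [abs_of_nonneg hr0]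
    rw [← h2.tsum_eq, hH]
    refine (norm_tsum_le_tsum_norm ?_).trans (le_of_eq ?_)
    · simp_rw [e]; exact hsc
    · simp_rw [e]
  set F : ℕ → ℝ → ℂ := fun n θ => b n * (r : ℂ) ^ n * (exp (θ * I) ^ n * conj (h (PP r θ))) with hF
  have hFc : ∀ n, Continuous (F n) := by
    intro n; rw [hF]; dsimp only
    exact continuous_const.mul ((by fun_prop : Continuous fun θ : ℝ => exp (θ * I) ^ n).mul
      (Complex.continuous_conj.comp (hcont hh)))
  have hFn : ∀ n θ, ‖F n θ‖ ≤ ‖b n * (r : ℂ) ^ n‖ * H := by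
    intro n θ
    rw [hF]; dsimp only
    rw [norm_mul, norm_mul (exp _ ^ n), expI_norm, one_mul, Complex.norm_conj]
    exact mul_le_mul_of_nonneg_left (hbound θ) (norm_nonneg _)
  have hint : ∀ n, Integrable (F n) (volume.restrict (Ioo (-Real.pi) Real.pi)) := by
    intro n
    refine Integrable.mono' (integrable_const (‖b n * (r : ℂ) ^ n‖ * H)) (hFc n).aestronglyMeasurable ?_
    exact Filter.Eventually.of_forall fun θ => (hFn n θ)
  have h1 := hasSum_integral_of_summable_integral_norm hint (by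
    refine Summable.of_nonneg_of_le (fun n => integral_nonneg fun θ => norm_nonneg _) (fun n => ?_)
      ((hsb.mul_right H).mul_left (2 * Real.pi))
    calc ∫ θ in Ioo (-Real.pi) Real.pi, ‖F n θ‖
        ≤ ∫ θ in Ioo (-Real.pi) Real.pi, ‖b n * (r : ℂ) ^ n‖ * H :=
          integral_mono (hint n).norm (integrable_const _) (hFn n)
      _ = _ := by rw [integral_const, vol_Ioo, smul_eq_mul])
  have e1 : (∫ θ in Ioo (-Real.pi) Real.pi, ∑' n, F n θ)
      = ∫ θ in Ioo (-Real.pi) Real.pi, g (PP r θ) * conj (h (PP r θ)) := by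
    congr 1
    funext θ
    have h2 := hg _ (PP_mem r θ hr0 hr1)
    have h3 := h2.mul_right (conj (h (PP r θ)))
    simp_rw [PP_pow, ← mul_assoc] at h3
    simp_rw [hF, ← mul_assoc]
    exact h3.tsum_eq
  have e2 : ∀ n, ∫ θ in Ioo (-Real.pi) Real.pi, F n θ
      = 2 * Real.pi * (b n * conj (c n)) * (r : ℂ) ^ (2 * n) := by
    intro n
    rw [hF]; dsimp only
    rw [integral_const_mul, coefB hh r hr0 hr1 n, map_mul, map_pow, Complex.conj_ofReal]
    ring
  rw [e1] at h1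
  simp_rw [e2] at h1
  have h6 := (Complex.hasSum_re h1)
  have hgi : Integrable (fun θ => g (PP r θ) * conj (h (PP r θ)))
      (volume.restrict (Ioo (-Real.pi) Real.pi)) := by
    have : Continuous (fun θ => g (PP r θ) * conj (h (PP r θ))) :=
      (hcont hg).mul (Complex.continuous_conj.comp (hcont hh))
    exact (this.integrableOn_Icc).mono_set Ioo_subset_Icc_self
  have e3 : (∫ θ in Ioo (-Real.pi) Real.pi, g (PP r θ) * conj (h (PP r θ))).re
      = ∫ θ in Ioo (-Real.pi) Real.pi, (g (PP r θ) * conj (h (PP r θ))).re := by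
    have := integral_re hgi
    simpa using this.symm
  rw [e3] at h6
  convert h6 using 2 with m
  have : (2 * Real.pi * (b m * conj (c m)) * (r : ℂ) ^ (2 * m))
      = ((2 * Real.pi * r ^ (2 * m) : ℝ) : ℂ) * (b m * conj (c m)) := by push_cast; ring
  rw [this, Complex.re_ofReal_mul]
  ring

/-- substitution `t = r²` -/
lemma subst_sq (ω : ℝ → ℝ) (hω : Continuous ω) (m : ℕ) :
    ∫ r in (0 : ℝ)..1, r * (ω (r ^ 2) * (2 * r ^ (2 * m))) = ∫ t in (0 : ℝ)..1, t ^ m * ω t := by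
  have := intervalIntegral.integral_comp_mul_deriv (a := 0) (b := 1) (f := fun x : ℝ => x ^ 2)
    (f' := fun x => 2 * x) (g := fun t => t ^ m * ω t)
    (fun x _ => by simpa using hasDerivAt_pow 2 x) (by fun_prop) (by fun_prop)
  simp only [Function.comp] at this
  norm_num at this
  rw [← this]
  congr 1
  funext r
  rw [pow_mul]
  ring

/-- the parameter set of polar coordinates of the disc -/
def TT : Set (ℝ × ℝ) := Ioo (0 : ℝ) 1 ×ˢ Ioo (-Real.pi) Real.pi

lemma meas_TT : MeasurableSet TT := measurableSet_Ioo.prod measurableSet_Ioo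

lemma mem_D_iff {p : ℝ × ℝ} (hp : p ∈ polarCoord.target) :
    Complex.polarCoord.symm p ∈ D ↔ p.1 < 1 := by
  have h0 : 0 < p.1 := by
    have : p ∈ Ioi (0 : ℝ) ×ˢ Ioo (-Real.pi) Real.pi := hp
    exact this.1
  simp only [D, mem_ball, dist_zero_right]
  rw [Complex.norm_polarCoord_symm, abs_of_pos h0]

lemma polarL (F : ℂ → ENNReal) :
    ∫⁻ w in D, F w = ∫⁻ p in TT, ENNReal.ofReal p.1 * F (PP p.1 p.2) := by
  rw [← lintegral_indicator measurableSet_ball, ← Complex.lintegral_comp_polarCoord_symm,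
    ← lintegral_indicator (by exact polarCoord.open_target.measurableSet),
    ← lintegral_indicator meas_TT]
  congr 1
  funext p
  by_cases hp : p ∈ polarCoord.target
  · have hp' : p ∈ Ioi (0 : ℝ) ×ˢ Ioo (-Real.pi) Real.pi := hp
    rw [indicator_of_mem hp]
    by_cases h1 : p.1 < 1
    · rw [indicator_of_mem ((mem_D_iff hp).mpr h1), indicator_of_mem (show p ∈ TT from ⟨⟨hp'.1, h1⟩, hp'.2⟩)]
      simp [PP]
    · rw [indicator_of_notMem (fun h => h1 ((mem_D_iff hp).mp h)),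
        indicator_of_notMem (fun h : p ∈ TT => h1 h.1.2)]
      simp
  · rw [indicator_of_notMem hp, indicator_of_notMem]
    intro h
    exact hp (show p ∈ Ioi (0 : ℝ) ×ˢ Ioo (-Real.pi) Real.pi from ⟨h.1.1, h.2⟩)

lemma polarI (F : ℂ → ℝ) :
    ∫ w in D, F w = ∫ p in TT, p.1 * F (PP p.1 p.2) := by
  rw [← integral_indicator measurableSet_ball, ← Complex.integral_comp_polarCoord_symm,
    ← integral_indicator (by exact polarCoord.open_target.measurableSet),
    ← integral_indicator meas_TT]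
  congr 1
  funext p
  by_cases hp : p ∈ polarCoord.target
  · have hp' : p ∈ Ioi (0 : ℝ) ×ˢ Ioo (-Real.pi) Real.pi := hp
    rw [indicator_of_mem hp]
    by_cases h1 : p.1 < 1
    · rw [indicator_of_mem ((mem_D_iff hp).mpr h1), indicator_of_mem (show p ∈ TT from ⟨⟨hp'.1, h1⟩, hp'.2⟩)]
      simp [PP]
    · rw [indicator_of_notMem (fun h => h1 ((mem_D_iff hp).mp h)),
        indicator_of_notMem (fun h : p ∈ TT => h1 h.1.2)]
      simp
  · rw [indicator_of_notMem hp, indicator_of_notMem]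
    intro h
    exact hp (show p ∈ Ioi (0 : ℝ) ×ˢ Ioo (-Real.pi) Real.pi from ⟨h.1.1, h.2⟩)

lemma contOn_PP {k : ℂ → ℂ} (hk : ContinuousOn k D) :
    ContinuousOn (fun p : ℝ × ℝ => k (PP p.1 p.2)) TT := by
  refine hk.comp cont_PP2.continuousOn fun p hp => PP_mem _ _ hp.1.1.le hp.1.2

lemma tt_PP (r θ : ℝ) (hr : 0 ≤ r) : tt (PP r θ) = r ^ 2 := by
  rw [tt, norm_PP r θ hr]

/-- Parseval in the disc, extended nonnegative version -/
lemma lint {g : ℂ → ℂ} {b : ℕ → ℂ} (hg : ∀ w ∈ D, HasSum (fun m => b m * w ^ m) (g w))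
    (ω : ℝ → ℝ) (hω : Continuous ω) (hω0 : ∀ t ∈ Icc (0 : ℝ) 1, 0 ≤ ω t) :
    ∫⁻ w in D, ENNReal.ofReal (ω (tt w) * ‖g w‖ ^ 2)
      = ∑' m, ENNReal.ofReal (Real.pi * ‖b m‖ ^ 2 * ∫ t in (0 : ℝ)..1, t ^ m * ω t) := by
  rw [polarL]
  have hgc := cont_of_hasSum hg
  have hω1 : ∀ r ∈ Ioo (0 : ℝ) 1, 0 ≤ ω (r ^ 2) := fun r hr =>
    hω0 _ ⟨by positivity, by nlinarith [hr.1, hr.2]⟩
  have e1 : ∫⁻ p in TT, ENNReal.ofReal p.1 * ENNReal.ofReal (ω (tt (PP p.1 p.2)) * ‖g (PP p.1 p.2)‖ ^ 2)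
      = ∫⁻ p in TT, ENNReal.ofReal (p.1 * (ω (p.1 ^ 2) * ‖g (PP p.1 p.2)‖ ^ 2)) := by
    refine setLIntegral_congr_fun meas_TT fun p hp => ?_
    rw [tt_PP _ _ hp.1.1.le, ENNReal.ofReal_mul hp.1.1.le]
  rw [e1]
  have hc : ContinuousOn (fun p : ℝ × ℝ => p.1 * (ω (p.1 ^ 2) * ‖g (PP p.1 p.2)‖ ^ 2)) TT := by
    refine continuous_fst.continuousOn.mul ((hω.comp (by fun_prop)).continuousOn.mul ?_)
    exact (contOn_PP hgc).norm.pow 2
  have hm : AEMeasurable (fun p : ℝ × ℝ => ENNReal.ofReal (p.1 * (ω (p.1 ^ 2) * ‖g (PP p.1 p.2)‖ ^ 2)))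
      ((volume.restrict (Ioo (0 : ℝ) 1)).prod (volume.restrict (Ioo (-Real.pi) Real.pi))) := by
    rw [Measure.prod_restrict, ← Measure.volume_eq_prod]
    exact (hc.aemeasurable meas_TT).ennreal_ofReal
  have e2 : (volume.restrict TT : Measure (ℝ × ℝ))
      = (volume.restrict (Ioo (0 : ℝ) 1)).prod (volume.restrict (Ioo (-Real.pi) Real.pi)) := by
    rw [Measure.prod_restrict, ← Measure.volume_eq_prod]; rfl
  rw [e2, lintegral_prod _ hm]
  have e3 : ∀ r ∈ Ioo (0 : ℝ) 1,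
      ∫⁻ θ in Ioo (-Real.pi) Real.pi, ENNReal.ofReal (r * (ω (r ^ 2) * ‖g (PP r θ)‖ ^ 2))
      = ∑' m, ENNReal.ofReal (r * (ω (r ^ 2) * (2 * r ^ (2 * m))) * (Real.pi * ‖b m‖ ^ 2)) := by
    intro r hr
    have hci := circ hg hg r hr.1.le hr.2
    have hcont : Continuous (fun θ => r * (ω (r ^ 2) * ‖g (PP r θ)‖ ^ 2)) := by
      have : Continuous (fun θ => g (PP r θ)) :=
        hgc.comp_continuous (cont_PP r) (fun θ => PP_mem r θ hr.1.le hr.2)
      exact continuous_const.mul (continuous_const.mul (this.norm.pow 2))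
    have h0 : ∀ θ, 0 ≤ r * (ω (r ^ 2) * ‖g (PP r θ)‖ ^ 2) := fun θ =>
      mul_nonneg hr.1.le (mul_nonneg (hω1 r hr) (by positivity))
    rw [← ofReal_integral_eq_lintegral_ofReal
      ((hcont.integrableOn_Icc).mono_set Ioo_subset_Icc_self) (Filter.Eventually.of_forall h0)]
    have h5 : (∫ θ in Ioo (-Real.pi) Real.pi, r * (ω (r ^ 2) * ‖g (PP r θ)‖ ^ 2))
        = r * (ω (r ^ 2) * ∫ θ in Ioo (-Real.pi) Real.pi, (g (PP r θ) * conj (g (PP r θ))).re) := by
      rw [integral_const_mul, integral_const_mul]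
      congr 3
      funext θ
      rw [Complex.mul_conj, Complex.normSq_eq_norm_sq, Complex.ofReal_re]
    rw [h5]
    have h6 := (hci.mul_left (ω (r ^ 2))).mul_left r
    rw [← h6.tsum_eq, ENNReal.ofReal_tsum_of_nonneg ?_ h6.summable]
    · congr 1
      funext m
      congr 1
      rw [Complex.mul_conj, Complex.normSq_eq_norm_sq, Complex.ofReal_re]
      ring
    · intro m
      rw [Complex.mul_conj, Complex.normSq_eq_norm_sq, Complex.ofReal_re]
      exact mul_nonneg hr.1.le (mul_nonneg (hω1 r hr) (by have := hr.1; positivity))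
  rw [setLIntegral_congr_fun measurableSet_Ioo e3]
  rw [lintegral_tsum (fun m => by
    refine Measurable.aemeasurable ?_
    refine ENNReal.measurable_ofReal.comp ?_
    exact (by fun_prop : Continuous fun r : ℝ =>
      r * (ω (r ^ 2) * (2 * r ^ (2 * m))) * (Real.pi * ‖b m‖ ^ 2)).measurable)]
  congr 1
  funext m
  have hci : Continuous fun r : ℝ =>
      r * (ω (r ^ 2) * (2 * r ^ (2 * m))) * (Real.pi * ‖b m‖ ^ 2) := by fun_prop
  rw [← ofReal_integral_eq_lintegral_ofReal ((hci.integrableOn_Icc).mono_set Ioo_subset_Icc_self)]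
  · congr 1
    rw [integral_mul_const, ← integral_Ioc_eq_integral_Ioo,
      ← intervalIntegral.integral_of_le zero_le_one, subst_sq ω hω m]
    ring
  · refine (ae_restrict_iff' measurableSet_Ioo).mpr (Filter.Eventually.of_forall fun r hr => ?_)
    exact mul_nonneg (mul_nonneg hr.1.le (mul_nonneg (hω1 r hr) (by have := hr.1; positivity)))
      (by positivity)

lemma cont_tt : Continuous tt := by unfold tt; fun_prop

lemma integr_sq {g : ℂ → ℂ} {b : ℕ → ℂ} (hg : ∀ w ∈ D, HasSum (fun m => b m * w ^ m) (g w))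
    (ω : ℝ → ℝ) (hω : Continuous ω)
    (Hb : Summable fun m => ‖b m‖ ^ 2 * ∫ t in (0 : ℝ)..1, t ^ m * |ω t|) :
    IntegrableOn (fun w => |ω (tt w)| * ‖g w‖ ^ 2) D := by
  have hgc := cont_of_hasSum hg
  refine ⟨?_, ?_⟩
  · refine ContinuousOn.aestronglyMeasurable ?_ measurableSet_ball
    exact (hω.comp cont_tt).abs.continuousOn.mul (hgc.norm.pow 2)
  · rw [hasFiniteIntegral_iff_ofReal (Filter.Eventually.of_forall fun w => by positivity)]
    have := lint hg (fun t => |ω t|) hω.abs (fun t _ => abs_nonneg _)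
    rw [this]
    have hs : Summable fun m => Real.pi * ‖b m‖ ^ 2 * ∫ t in (0 : ℝ)..1, t ^ m * |ω t| := by
      have := Hb.mul_left Real.pi
      simpa [mul_assoc] using this
    rw [← ENNReal.ofReal_tsum_of_nonneg ?_ hs]
    · exact ENNReal.ofReal_lt_top
    · intro m
      refine mul_nonneg (by positivity) ?_
      exact intervalIntegral.integral_nonneg zero_le_one fun t ht =>
        mul_nonneg (pow_nonneg ht.1 _) (abs_nonneg _)

end Crest.Agent.HS
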