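import Crest.Agent.HS.Defs

/-! Row 101: interior regularity of C¹ weak Helmholtz solutions in the plane. -/

set_option autoImplicit false
open MeasureTheory Metric Set Filter Topology
open scoped ContDiff

namespace Crest.Agent.HS.Reg

/-- weak solution of `Δu = -k u` on `U` -/
def Weak (U : Set ℂ) (k : ℝ) (u : ℂ → ℝ) : Prop :=
  ∀ v : ℂ → ℝ, ContDiff ℝ ∞ v → HasCompactSupport v → tsupport v ⊆ U →
    ∫ z, (fderiv ℝ u z 1 * fderiv ℝ v z 1 + fderiv ℝ u z Complex.I * fderiv ℝ v z Complex.I)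
      = k * ∫ z, u z * v z

/-- profile functions -/
def Good (R : ℝ) (Ψ : ℝ → ℝ) : Prop :=
  ContDiff ℝ ∞ Ψ ∧ (∀ s, R ^ 2 ≤ s → Ψ s = 0) ∧ ∀ s, 0 ≤ s → |Ψ s| ≤ 1

theorem antideriv {R : ℝ} {Ψ : ℝ → ℝ} (h : Good R Ψ) :
    ∃ P : ℝ → ℝ, ContDiff ℝ ∞ P ∧ (∀ s, HasDerivAt P (Ψ s) s) ∧ (∀ s, R ^ 2 ≤ s → P s = 0) ∧
      ∀ s, 0 ≤ s → |P s| ≤ R ^ 2 := by
  obtain ⟨h1, h2, h3⟩ := h
  have hc : Continuous Ψ := h1.continuous
  have hd : ∀ s, HasDerivAt (fun s => ∫ t in (R^2)..s, Ψ t) (Ψ s) s := fun s =>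
    intervalIntegral.integral_hasDerivAt_right (hc.intervalIntegrable _ _)
      (hc.stronglyMeasurableAtFilter _ _) hc.continuousAt
  have hz : ∀ s, R ^ 2 ≤ s → (∫ t in (R^2)..s, Ψ t) = 0 := by
    intro s hs
    rw [intervalIntegral.integral_congr (g := fun _ => (0:ℝ))]
    · simp
    · intro t ht
      rw [uIcc_of_le hs] at ht
      exact h2 t ht.1
  refine ⟨fun s => ∫ t in (R^2)..s, Ψ t, ?_, hd, hz, ?_⟩
  · rw [contDiff_infty_iff_deriv]
    refine ⟨fun s => (hd s).differentiableAt, ?_⟩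
    have : deriv (fun s => ∫ t in (R^2)..s, Ψ t) = Ψ := by
      ext s; exact (hd s).deriv
    rw [this]; exact h1
  · intro s hs
    rcases le_total (R^2) s with h | h
    · simp only [hz s h]; simp; positivity
    · have : ‖∫ t in (R^2)..s, Ψ t‖ ≤ 1 * |s - R^2| := by
        apply intervalIntegral.norm_integral_le_of_norm_le_const
        intro t ht
        rw [uIoc_of_ge h] at ht
        rw [Real.norm_eq_abs]
        exact h3 t (by linarith [ht.1])
      rw [Real.norm_eq_abs] at this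
      refine this.trans ?_
      rw [abs_of_nonpos (by linarith)]; linarith

theorem fderiv_split (L : ℂ →L[ℝ] ℝ) (y : ℂ) : L y = L 1 * y.re + L Complex.I * y.im := by
  conv_lhs => rw [← Complex.re_add_im y]
  have h1 : ((y.re : ℂ)) = y.re • (1:ℂ) := by simp
  have h2 : ((y.im : ℂ)) * Complex.I = y.im • Complex.I := by simp
  rw [h1, h2, map_add, map_smul, map_smul]
  simp [mul_comm]

theorem normSq_hasFDerivAt (p : ℂ) (x : ℂ) :
    HasFDerivAt (fun x : ℂ => ‖x - p‖ ^ 2) (2 • (innerSL ℝ (x - p))) x := by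
  have := ((hasFDerivAt_id (𝕜 := ℝ) x).sub_const p).norm_sq
  simpa using this

/-- the scaled weak identity -/
theorem scaled {U : Set ℂ} {k : ℝ} {u : ℂ → ℝ} (hweak : Weak U k u) {p : ℂ} {R : ℝ} (hR : 0 < R)
    (hU : closedBall p R ⊆ U) {Ψ P : ℝ → ℝ} (hP : ContDiff ℝ ∞ P) (hPd : ∀ s, HasDerivAt P (Ψ s) s)
    (hP0 : ∀ s, R ^ 2 ≤ s → P s = 0) {l : ℝ} (hl : 0 < l) (hl1 : l ≤ 1) :
    ∫ z, fderiv ℝ u (p + l * z) z * Ψ (‖z‖ ^ 2) = k * l / 2 * ∫ z, u (p + l * z) * P (‖z‖ ^ 2) := by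
  set v : ℂ → ℝ := fun x => P (‖x - p‖ ^ 2 / l ^ 2) with hv
  have hv0 : ∀ x, x ∉ closedBall p R → v x = 0 := by
    intro x hx
    simp only [mem_closedBall, dist_eq_norm, not_le] at hx
    apply hP0
    rw [le_div_iff₀ (by positivity)]
    have : l ^ 2 ≤ 1 := by nlinarith
    nlinarith [sq_nonneg (‖x-p‖ - R), sq_nonneg R, hx, mul_le_mul_of_nonneg_left this (sq_nonneg R)]
  have hvs : ContDiff ℝ ∞ v := by
    apply hP.comp
    apply ContDiff.div_const
    exact (contDiff_id.sub contDiff_const).norm_sq ℝ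
  have hts : tsupport v ⊆ closedBall p R := by
    apply closure_minimal _ isClosed_closedBall
    intro x hx
    by_contra h
    exact hx (hv0 x h)
  have hcs : HasCompactSupport v := (isCompact_closedBall p R).of_isClosed_subset (isClosed_tsupport v) hts
  have hw := hweak v hvs hcs (hts.trans hU)
  have hfv : ∀ x, ∀ h, fderiv ℝ v x h = Ψ (‖x - p‖ ^ 2 / l ^ 2) * (2 / l ^ 2) * (inner ℝ (x - p) h) := by
    intro x h
    have h1 := (normSq_hasFDerivAt p x).mul_const (l ^ 2)⁻¹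
    have h2 := (hPd (‖x - p‖ ^ 2 / l ^ 2)).comp_hasFDerivAt x (by simpa [div_eq_mul_inv] using h1)
    have h3 : fderiv ℝ v x = _ := h2.fderiv
    rw [h3]
    simp
    ring
  have e1 : ∀ x, fderiv ℝ u x 1 * fderiv ℝ v x 1 + fderiv ℝ u x Complex.I * fderiv ℝ v x Complex.I
      = (2 / l ^ 2) * (fderiv ℝ u x (x - p) * Ψ (‖x - p‖ ^ 2 / l ^ 2)) := by
    intro x
    rw [hfv, hfv, fderiv_split (fderiv ℝ u x) (x - p)]
    have i1 : inner ℝ (x - p) 1 = (x - p).re := by
      simp [Complex.inner]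
    have i2 : inner ℝ (x - p) Complex.I = (x - p).im := by
      simp [Complex.inner]; ring
    rw [i1, i2]; ring
  simp_rw [e1] at hw
  rw [integral_const_mul] at hw
  -- change of variables x = p + l z
  have cv : ∀ F : ℂ → ℝ, ∫ x, F x = l ^ 2 * ∫ z, F (p + l * z) := by
    intro F
    have h1 : ∫ z : ℂ, F (p + l * z) = |(l ^ Module.finrank ℝ ℂ)⁻¹| • ∫ z, F (p + z) := by
      have := Measure.integral_comp_smul (μ := (volume : Measure ℂ)) (fun z => F (p + z)) l
      simpa using this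
    rw [h1, integral_add_left_eq_self, Complex.finrank_real_complex, abs_of_nonneg (by positivity)]
    simp only [smul_eq_mul]
    rw [← mul_assoc, mul_inv_cancel₀ (by positivity), one_mul]
  rw [cv, cv (fun x => u x * v x)] at hw
  have hl0 : (l : ℂ) ≠ 0 := by exact_mod_cast hl.ne'
  have e2 : ∀ z : ℂ, fderiv ℝ u (p + l * z) (p + l * z - p) * Ψ (‖p + l * z - p‖ ^ 2 / l ^ 2)
      = l * (fderiv ℝ u (p + l * z) z * Ψ (‖z‖ ^ 2)) := by
    intro z
    have a1 : p + l * z - p = l • z := by simp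
    have a2 : ‖p + l * z - p‖ ^ 2 / l ^ 2 = ‖z‖ ^ 2 := by
      rw [a1, norm_smul, Real.norm_eq_abs, mul_pow, sq_abs]; field_simp
    rw [a2, a1, map_smul]; simp; ring
  have e3 : ∀ z : ℂ, v (p + l * z) = P (‖z‖ ^ 2) := by
    intro z
    have a1 : p + l * z - p = l • z := by simp
    have a2 : ‖p + l * z - p‖ ^ 2 / l ^ 2 = ‖z‖ ^ 2 := by
      rw [a1, norm_smul, Real.norm_eq_abs, mul_pow, sq_abs]; field_simp
    simp only [hv, a2]
  simp_rw [e2, e3] at hw
  rw [integral_const_mul] at hw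
  have hl2 : l ≠ 0 := hl.ne'
  field_simp at hw ⊢
  linarith

/-- scaled point lies in the closed ball -/
theorem mem_ball' {p : ℂ} {R : ℝ} {z : ℂ} (hz : z ∈ closedBall (0:ℂ) R) {l : ℝ} (hl : 0 ≤ l) (hl1 : l ≤ 1) :
    p + l * z ∈ closedBall p R := by
  rw [mem_closedBall, dist_eq_norm]
  have h1 : ‖p + l * z - p‖ = l * ‖z‖ := by
    rw [add_sub_cancel_left, norm_mul, Complex.norm_real, Real.norm_eq_abs, abs_of_nonneg hl]
  rw [h1]
  have h2 : ‖z‖ ≤ R := by simpa using hz
  nlinarith [norm_nonneg z]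

/-- the scaled radial integral -/
noncomputable def J (R : ℝ) (p : ℂ) (u : ℂ → ℝ) (Ψ : ℝ → ℝ) (l : ℝ) : ℝ :=
  ∫ z in closedBall (0:ℂ) R, u (p + l * z) * Ψ (‖z‖ ^ 2)

theorem J_eq {R : ℝ} (hR : 0 < R) {F : ℂ → ℝ} {Ψ : ℝ → ℝ} (h0 : ∀ s, R ^ 2 ≤ s → Ψ s = 0) :
    ∫ z in closedBall (0:ℂ) R, F z * Ψ (‖z‖ ^ 2) = ∫ z, F z * Ψ (‖z‖ ^ 2) := by
  apply setIntegral_eq_integral_of_forall_compl_eq_zero
  intro z hz
  have : R < ‖z‖ := by simpa using hz
  rw [h0 _ (by nlinarith), mul_zero]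

theorem J_deriv {U : Set ℂ} (hUo : IsOpen U) {u : ℂ → ℝ} (hu : ContDiffOn ℝ 1 u U) {p : ℂ} {R : ℝ}
    (hU : closedBall p R ⊆ U) {Ψ : ℝ → ℝ} (hΨ : Continuous Ψ) {l : ℝ} (hl : l ∈ Ioo (0:ℝ) 1) :
    HasDerivAt (J R p u Ψ) (∫ z in closedBall (0:ℂ) R, fderiv ℝ u (p + l * z) z * Ψ (‖z‖ ^ 2)) l := by
  have hud : ∀ x ∈ U, HasFDerivAt u (fderiv ℝ u x) x := fun x hx =>
    ((hu.differentiableOn one_ne_zero).differentiableAt (hUo.mem_nhds hx)).hasFDerivAt
  have hfc : ContinuousOn (fderiv ℝ u) U := hu.continuousOn_fderiv_of_isOpen hUo le_rfl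
  have huc : ContinuousOn u U := hu.continuousOn
  have hK : IsCompact (closedBall p R) := isCompact_closedBall p R
  obtain ⟨C, hC⟩ := hK.exists_bound_of_continuousOn (hfc.mono hU)
  obtain ⟨B, hB⟩ := (isCompact_closedBall (0:ℂ) R).exists_bound_of_continuousOn
    (f := fun z : ℂ => Ψ (‖z‖ ^ 2)) (by fun_prop)
  have hcont : ∀ l' ∈ Icc (0:ℝ) 1, ContinuousOn (fun z : ℂ => u (p + l' * z) * Ψ (‖z‖ ^ 2)) (closedBall 0 R) := by
    intro l' hl'
    apply ContinuousOn.mul _ (by fun_prop)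
    apply huc.comp (by fun_prop)
    intro z hz
    exact hU (mem_ball' hz hl'.1 hl'.2)
  have hcontd : ∀ l' ∈ Icc (0:ℝ) 1, ContinuousOn (fun z : ℂ => fderiv ℝ u (p + l' * z) z * Ψ (‖z‖ ^ 2)) (closedBall 0 R) := by
    intro l' hl'
    apply ContinuousOn.mul _ (by fun_prop)
    apply ContinuousOn.clm_apply _ continuousOn_id
    apply hfc.comp (by fun_prop)
    intro z hz
    exact hU (mem_ball' hz hl'.1 hl'.2)
  have hmeas : MeasurableSet (closedBall (0:ℂ) R) := measurableSet_closedBall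
  have key := hasDerivAt_integral_of_dominated_loc_of_deriv_le (μ := volume.restrict (closedBall (0:ℂ) R))
    (F := fun (l' : ℝ) (z : ℂ) => u (p + l' * z) * Ψ (‖z‖ ^ 2))
    (F' := fun (l' : ℝ) (z : ℂ) => fderiv ℝ u (p + l' * z) z * Ψ (‖z‖ ^ 2)) (x₀ := l) (s := Ioo (0:ℝ) 1)
    (bound := fun _ => C * R * B) (isOpen_Ioo.mem_nhds hl) ?_ ?_ ?_ ?_ ?_ ?_
  · exact key.2
  · filter_upwards [isOpen_Ioo.mem_nhds hl] with l' hl'
    exact (hcont l' ⟨hl'.1.le, hl'.2.le⟩).aestronglyMeasurable hmeas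
  · exact (hcont l ⟨hl.1.le, hl.2.le⟩).integrableOn_compact (isCompact_closedBall 0 R)
  · exact (hcontd l ⟨hl.1.le, hl.2.le⟩).aestronglyMeasurable hmeas
  · filter_upwards [ae_restrict_mem hmeas] with z hz l' hl'
    have hz' : ‖z‖ ≤ R := by simpa using hz
    have m := mem_ball' (p := p) hz hl'.1.le hl'.2.le
    rw [norm_mul]
    have hC0 : 0 ≤ C := (norm_nonneg _).trans (hC _ m)
    have hR0 : 0 ≤ R := (norm_nonneg _).trans hz'
    apply mul_le_mul _ (hB z hz) (norm_nonneg _) (by positivity)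
    refine (ContinuousLinearMap.le_opNorm _ _).trans ?_
    exact mul_le_mul (hC _ m) hz' (norm_nonneg _) hC0
  · exact integrableOn_const (isCompact_closedBall (0:ℂ) R).measure_ne_top
  · filter_upwards [ae_restrict_mem hmeas] with z hz l' hl'
    have m := mem_ball' (p := p) hz hl'.1.le hl'.2.le
    have h1 : HasDerivAt (fun l' : ℝ => p + (l' : ℂ) * z) z l' := by
      have := ((Complex.ofRealCLM.hasDerivAt (x := l')).mul_const z).const_add p
      simpa using this
    have h2 := (hud _ (hU m)).comp_hasDerivAt l' h1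
    exact h2.mul_const _

theorem J_cont {U : Set ℂ} {u : ℂ → ℝ} (huc : ContinuousOn u U) {p : ℂ} {R : ℝ}
    (hU : closedBall p R ⊆ U) {Ψ : ℝ → ℝ} (hΨ : Continuous Ψ) :
    ContinuousOn (J R p u Ψ) (Icc 0 1) := by
  have hK : IsCompact (closedBall p R) := isCompact_closedBall p R
  obtain ⟨C, hC⟩ := hK.exists_bound_of_continuousOn (huc.mono hU)
  obtain ⟨B, hB⟩ := (isCompact_closedBall (0:ℂ) R).exists_bound_of_continuousOn
    (f := fun z : ℂ => Ψ (‖z‖ ^ 2)) (by fun_prop)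
  have hmeas : MeasurableSet (closedBall (0:ℂ) R) := measurableSet_closedBall
  unfold J
  apply continuousOn_of_dominated (bound := fun _ => C * B)
  · intro l' hl'
    apply ContinuousOn.aestronglyMeasurable _ hmeas
    apply ContinuousOn.mul _ (by fun_prop)
    apply huc.comp (by fun_prop)
    intro z hz
    exact hU (mem_ball' hz hl'.1 hl'.2)
  · intro l' hl'
    filter_upwards [ae_restrict_mem hmeas] with z hz
    have m := mem_ball' (p := p) hz hl'.1 hl'.2
    rw [norm_mul]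
    exact mul_le_mul (hC _ m) (hB z hz) (norm_nonneg _) ((norm_nonneg _).trans (hC _ m))
  · exact integrableOn_const (isCompact_closedBall (0:ℂ) R).measure_ne_top
  · filter_upwards [ae_restrict_mem hmeas] with z hz
    apply ContinuousOn.mul _ continuousOn_const
    apply huc.comp (by fun_prop)
    intro l' hl'
    exact hU (mem_ball' hz hl'.1 hl'.2)

theorem J_bound {U : Set ℂ} {k : ℝ} {u : ℂ → ℝ} (hUo : IsOpen U) (hu : ContDiffOn ℝ 1 u U)
    (hweak : Weak U k u) {p : ℂ} {R : ℝ} (hR : 0 < R) (hU : closedBall p R ⊆ U)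
    (hkR : |k| * R ^ 2 ≤ 1) (hp : u p = 0) :
    ∃ K : ℝ, 0 ≤ K ∧ ∀ n : ℕ, ∀ Ψ : ℝ → ℝ, Good R Ψ → ∀ l ∈ Icc (0:ℝ) 1, |J R p u Ψ l| ≤ K * (1/2) ^ n := by
  have hK : IsCompact (closedBall p R) := isCompact_closedBall p R
  obtain ⟨C, hC⟩ := hK.exists_bound_of_continuousOn (hu.continuousOn.mono hU)
  have hC0 : 0 ≤ C := (norm_nonneg _).trans (hC p (mem_closedBall_self hR.le))
  refine ⟨C * (volume (closedBall (0:ℂ) R)).toReal, by positivity, ?_⟩
  intro n
  induction n with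
  | zero =>
    intro Ψ hΨ l hl
    simp only [pow_zero, mul_one]
    rw [← Real.norm_eq_abs]
    have := norm_setIntegral_le_of_norm_le_const (μ := volume) (s := closedBall (0:ℂ) R)
      (f := fun z => u (p + l * z) * Ψ (‖z‖ ^ 2)) (C := C) (isCompact_closedBall (0:ℂ) R).measure_lt_top ?_
    · exact this
    · intro z hz
      have m := mem_ball' (p := p) hz hl.1 hl.2
      rw [norm_mul]
      have h1 := hC _ m
      have h2 : ‖Ψ (‖z‖ ^ 2)‖ ≤ 1 := hΨ.2.2 _ (by positivity)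
      nlinarith [norm_nonneg (u (p + l * z)), norm_nonneg (Ψ (‖z‖ ^ 2))]
  | succ n ih =>
    intro Ψ hΨ l hl
    obtain ⟨P, hP1, hP2, hP3, hP4⟩ := antideriv hΨ
    have hG : Good R (fun s => (R ^ 2)⁻¹ * P s) := by
      refine ⟨contDiff_const.mul hP1, fun s hs => by simp [hP3 s hs], fun s hs => ?_⟩
      rw [abs_mul, abs_of_nonneg (by positivity), inv_mul_le_iff₀ (by positivity), mul_one]
      exact hP4 s hs
    have hJ0 : J R p u Ψ 0 = 0 := by
      simp [J, hp]
    have hJP : ∀ l' ∈ Ioo (0:ℝ) 1, |k * l' / 2 * J R p u P l'| ≤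
        C * (volume (closedBall (0:ℂ) R)).toReal * (1/2) ^ (n+1) := by
      intro l' hl'
      have h1 := ih _ hG l' ⟨hl'.1.le, hl'.2.le⟩
      have h2 : J R p u (fun s => (R ^ 2)⁻¹ * P s) l' = (R ^ 2)⁻¹ * J R p u P l' := by
        unfold J; rw [← integral_const_mul]; congr 1; ext z; ring
      rw [h2, abs_mul, abs_of_nonneg (by positivity), inv_mul_le_iff₀ (by positivity)] at h1
      have hl0 := hl'.1.le
      have hl1 := hl'.2.le
      have h3 : |k| * l' / 2 ≤ |k| / 2 := by nlinarith [abs_nonneg k]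
      have h3' : |k * l' / 2| = |k| * l' / 2 := by
        rw [abs_div, abs_mul, abs_of_nonneg hl0]; norm_num
      rw [abs_mul, h3']
      have h4 : (0:ℝ) ≤ C * (volume (closedBall (0:ℂ) R)).toReal * (1/2) ^ n := by positivity
      calc |k| * l' / 2 * |J R p u P l'| ≤ |k| / 2 * (R ^ 2 * (C * (volume (closedBall (0:ℂ) R)).toReal * (1/2) ^ n)) := by
            apply mul_le_mul h3 h1 (abs_nonneg _) (by positivity)
        _ = (|k| * R ^ 2) * (C * (volume (closedBall (0:ℂ) R)).toReal * (1/2) ^ n) * (1/2) := by ring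
        _ ≤ 1 * (C * (volume (closedBall (0:ℂ) R)).toReal * (1/2) ^ n) * (1/2) := by
            apply mul_le_mul_of_nonneg_right _ (by norm_num)
            exact mul_le_mul_of_nonneg_right hkR h4
        _ = _ := by ring
    have hder : ∀ l' ∈ Ioo (0:ℝ) 1, HasDerivAt (J R p u Ψ) (k * l' / 2 * J R p u P l') l' := by
      intro l' hl'
      have h1 := J_deriv hUo hu hU hΨ.1.continuous hl'
      have h2 := scaled hweak hR hU hP1 hP2 hP3 hl'.1 hl'.2.le
      rw [J_eq hR (F := fun z => fderiv ℝ u (p + l' * z) z) hΨ.2.1, h2] at h1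
      have h3 : J R p u P l' = ∫ z, u (p + l' * z) * P (‖z‖ ^ 2) := J_eq hR (F := fun z => u (p + l' * z)) hP3
      rw [h3]; exact h1
    -- mean value inequality
    rcases eq_or_lt_of_le hl.1 with h0 | h0
    · rw [← h0, hJ0, abs_zero]; positivity
    have hmv := exists_hasDerivAt_eq_slope (J R p u Ψ) (fun l' => k * l' / 2 * J R p u P l') h0
      ((J_cont hu.continuousOn hU hΨ.1.continuous).mono (Icc_subset_Icc le_rfl hl.2))
      (fun x hx => hder x ⟨hx.1, hx.2.trans_le hl.2⟩)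
    obtain ⟨c, hc, hce⟩ := hmv
    have h5 := hJP c ⟨hc.1, hc.2.trans_le hl.2⟩
    rw [hce, hJ0, sub_zero, sub_zero, abs_div, abs_of_pos h0, div_le_iff₀ h0] at h5
    refine h5.trans ?_
    have h4 : (0:ℝ) ≤ C * (volume (closedBall (0:ℂ) R)).toReal * (1/2) ^ (n+1) := by positivity
    nlinarith [hl.2]

theorem J_zero {U : Set ℂ} {k : ℝ} {u : ℂ → ℝ} (hUo : IsOpen U) (hu : ContDiffOn ℝ 1 u U)
    (hweak : Weak U k u) {p : ℂ} {R : ℝ} (hR : 0 < R) (hU : closedBall p R ⊆ U)
    (hkR : |k| * R ^ 2 ≤ 1) (hp : u p = 0) {Ψ : ℝ → ℝ} (hΨ : Good R Ψ) :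
    ∫ x, u x * Ψ (‖x - p‖ ^ 2) = 0 := by
  obtain ⟨K, hK0, hK⟩ := J_bound hUo hu hweak hR hU hkR hp
  have h1 : J R p u Ψ 1 = 0 := by
    have h2 : ∀ n : ℕ, |J R p u Ψ 1| ≤ K * (1/2) ^ n := fun n => hK n Ψ hΨ 1 ⟨by norm_num, le_rfl⟩
    have h3 : Tendsto (fun n : ℕ => K * (1/2 : ℝ) ^ n) atTop (𝓝 (K * 0)) :=
      (tendsto_pow_atTop_nhds_zero_of_lt_one (by norm_num) (by norm_num)).const_mul K
    have h4 := ge_of_tendsto' h3 h2
    rw [mul_zero] at h4
    exact abs_nonpos_iff.mp h4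
  have h2 : J R p u Ψ 1 = ∫ z, u (p + z) * Ψ (‖z‖ ^ 2) := by
    have := J_eq hR (F := fun z => u (p + (1:ℝ) * z)) hΨ.2.1
    simpa [J] using this
  rw [h2] at h1
  rw [← h1, ← integral_add_left_eq_self (fun x => u x * Ψ (‖x - p‖ ^ 2)) p]
  simp

theorem re_hasFDerivAt (p x : ℂ) : HasFDerivAt (fun x : ℂ => (x - p).re) Complex.reCLM x := by
  have := Complex.reCLM.hasFDerivAt.comp x ((hasFDerivAt_id (𝕜 := ℝ) x).sub_const p)
  exact this

theorem wave_weak {k : ℝ} {φ φ' : ℝ → ℝ} (h1 : ∀ t, HasDerivAt φ (φ' t) t)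
    (h2 : ∀ t, HasDerivAt φ' (-k * φ t) t) (p : ℂ) : Weak univ k (fun x => φ ((x - p).re)) := by
  intro v hv hc _
  have hφc : Continuous φ := continuous_iff_continuousAt.2 fun t => (h1 t).continuousAt
  have hφc' : Continuous φ' := continuous_iff_continuousAt.2 fun t => (h2 t).continuousAt
  have hd : ∀ z, HasFDerivAt (fun x : ℂ => φ ((x - p).re)) (φ' ((z - p).re) • Complex.reCLM) z :=
    fun z => (h1 ((z-p).re)).comp_hasFDerivAt z (re_hasFDerivAt p z)
  have e1 : ∀ z, fderiv ℝ (fun x : ℂ => φ ((x - p).re)) z 1 * fderiv ℝ v z 1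
      + fderiv ℝ (fun x : ℂ => φ ((x - p).re)) z Complex.I * fderiv ℝ v z Complex.I
      = φ' ((z - p).re) * fderiv ℝ v z 1 := by
    intro z; rw [(hd z).fderiv]; simp
  simp_rw [e1]
  set g : ℂ → ℝ := fun z => φ' ((z - p).re) with hg
  have hgd : ∀ z, HasFDerivAt g ((-k * φ ((z - p).re)) • Complex.reCLM) z :=
    fun z => (h2 ((z-p).re)).comp_hasFDerivAt z (re_hasFDerivAt p z)
  have hgc : Continuous g := by unfold g; fun_prop
  have hvc : Continuous (fun z => fderiv ℝ v z 1) := (hv.continuous_fderiv (by simp)).clm_apply continuous_const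
  have hv1 : HasCompactSupport (fun z => fderiv ℝ v z 1) := hc.fderiv_apply (𝕜 := ℝ) 1
  have hgf : ∀ z, fderiv ℝ g z 1 = - k * φ ((z - p).re) := by
    intro z
    rw [(hgd z).fderiv]
    simp
  rw [integral_mul_fderiv_eq_neg_fderiv_mul_of_integrable (f := g) (g := v) (v := (1:ℂ))]
  · simp_rw [hgf]
    rw [← integral_const_mul, ← integral_neg]
    congr 1; ext z; ring
  · simp_rw [hgf]
    apply Continuous.integrable_of_hasCompactSupport
    · exact (by fun_prop : Continuous fun z : ℂ => -k * φ ((z - p).re)).mul hv.continuous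
    · exact hc.mul_left
  · apply Continuous.integrable_of_hasCompactSupport
    · exact hgc.mul hvc
    · exact hv1.mul_left
  · apply Continuous.integrable_of_hasCompactSupport
    · exact hgc.mul hv.continuous
    · exact hc.mul_left
  · exact fun z _ => (hgd z).differentiableAt
  · exact fun z _ => (hv.differentiable (by simp)) z

theorem exists_wave (k : ℝ) : ∃ W : ℂ → ℝ, ContDiff ℝ ∞ W ∧ W 0 = 1 ∧
    (∀ p, Weak univ k (fun x => W (x - p))) ∧ ∀ x, |k| * ‖x‖ ^ 2 ≤ 1 → 1 / 2 ≤ W x := by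
  rcases le_or_gt 0 k with hk | hk
  · refine ⟨fun x => Real.cos (Real.sqrt k * x.re), ?_, by simp, ?_, ?_⟩
    · exact Real.contDiff_cos.comp (contDiff_const.mul Complex.reCLM.contDiff)
    · intro p
      apply wave_weak (φ := fun t => Real.cos (Real.sqrt k * t)) (φ' := fun t => - Real.sin (Real.sqrt k * t) * (Real.sqrt k * 1))
      · intro t
        exact ((hasDerivAt_id t).const_mul (Real.sqrt k)).cos
      · intro t
        have := (((hasDerivAt_id t).const_mul (Real.sqrt k)).sin).neg.mul_const (Real.sqrt k * 1)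
        refine this.congr_deriv ?_
        have h := Real.mul_self_sqrt hk
        simp only [id]
        linear_combination (-Real.cos (Real.sqrt k * t)) * h
    · intro x hx
      have h1 := Real.one_sub_sq_div_two_le_cos (x := Real.sqrt k * x.re)
      rw [abs_of_nonneg hk] at hx
      have h2 : (Real.sqrt k * x.re) ^ 2 ≤ 1 := by
        rw [mul_pow, Real.sq_sqrt hk]
        have h3 : x.re ^ 2 ≤ ‖x‖ ^ 2 := by
          have := Complex.abs_re_le_norm x
          rw [← sq_abs x.re]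
          have h4 := abs_nonneg x.re
          nlinarith
        nlinarith
      linarith
  · refine ⟨fun x => Real.cosh (Real.sqrt (-k) * x.re), ?_, by simp, ?_, ?_⟩
    · exact Real.contDiff_cosh.comp (contDiff_const.mul Complex.reCLM.contDiff)
    · intro p
      apply wave_weak (φ := fun t => Real.cosh (Real.sqrt (-k) * t)) (φ' := fun t => Real.sinh (Real.sqrt (-k) * t) * (Real.sqrt (-k) * 1))
      · intro t
        exact ((hasDerivAt_id t).const_mul (Real.sqrt (-k))).cosh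
      · intro t
        have := (((hasDerivAt_id t).const_mul (Real.sqrt (-k))).sinh).mul_const (Real.sqrt (-k) * 1)
        refine this.congr_deriv ?_
        have h := Real.mul_self_sqrt (show 0 ≤ -k by linarith)
        simp only [id]
        linear_combination (Real.cosh (Real.sqrt (-k) * t)) * h
    · intro x _
      have := Real.one_le_cosh (Real.sqrt (-k) * x.re)
      linarith

theorem int_of_supp {U : Set ℂ} {F : ℂ → ℝ} {v : ℂ → ℝ} (hc : HasCompactSupport v)
    (hU : tsupport v ⊆ U) (hF : ContinuousOn F U) (h0 : ∀ z, z ∉ tsupport v → F z = 0) : Integrable F := by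
  have h1 : IntegrableOn F (tsupport v) := (hF.mono hU).integrableOn_compact hc
  rwa [integrableOn_iff_integrable_of_support_subset] at h1
  intro z hz
  by_contra h
  exact hz (h0 z h)

theorem fd_zero {v : ℂ → ℝ} {z : ℂ} (h : z ∉ tsupport v) : fderiv ℝ v z = 0 := by
  have h1 := support_fderiv_subset ℝ (f := v)
  by_contra h2
  exact h (h1 h2)

theorem v_zero {v : ℂ → ℝ} {z : ℂ} (h : z ∉ tsupport v) : v z = 0 := image_eq_zero_of_notMem_tsupport h

theorem weak_sub {U : Set ℂ} (hUo : IsOpen U) {k : ℝ} {u w : ℂ → ℝ} (hu : ContDiffOn ℝ 1 u U)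
    (hw : ContDiff ℝ ∞ w) (hwu : Weak U k u) (hww : Weak univ k w) (c : ℝ) :
    Weak U k (fun x => u x - c * w x) := by
  intro v hv hc hs
  have h1 := hwu v hv hc hs
  have h2 := hww v hv hc (subset_univ _)
  have hfc : ContinuousOn (fderiv ℝ u) U := hu.continuousOn_fderiv_of_isOpen hUo le_rfl
  have hwf : Continuous (fderiv ℝ w) := hw.continuous_fderiv (by simp)
  have hvf : Continuous (fderiv ℝ v) := hv.continuous_fderiv (by simp)
  have hwd : Differentiable ℝ w := hw.differentiable (by simp)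
  have e1 : ∀ z, fderiv ℝ (fun x => u x - c * w x) z 1 * fderiv ℝ v z 1
      + fderiv ℝ (fun x => u x - c * w x) z Complex.I * fderiv ℝ v z Complex.I
      = (fderiv ℝ u z 1 * fderiv ℝ v z 1 + fderiv ℝ u z Complex.I * fderiv ℝ v z Complex.I)
        - c * (fderiv ℝ w z 1 * fderiv ℝ v z 1 + fderiv ℝ w z Complex.I * fderiv ℝ v z Complex.I) := by
    intro z
    by_cases hz : z ∈ tsupport v
    · have hzU := hs hz
      have hd : HasFDerivAt u (fderiv ℝ u z) z :=
        ((hu.differentiableOn one_ne_zero).differentiableAt (hUo.mem_nhds hzU)).hasFDerivAt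
      have := (hd.sub ((hwd z).hasFDerivAt.const_mul c)).fderiv
      have h3 : fderiv ℝ (fun x => u x - c * w x) z = fderiv ℝ u z - c • fderiv ℝ w z := this
      rw [h3]; simp; ring
    · rw [fd_zero hz]; simp
  have e2 : ∀ z, (u z - c * w z) * v z = u z * v z - c * (w z * v z) := fun z => by ring
  simp_rw [e1, e2]
  have i1 : Integrable (fun z => fderiv ℝ u z 1 * fderiv ℝ v z 1 + fderiv ℝ u z Complex.I * fderiv ℝ v z Complex.I) := by
    apply int_of_supp hc hs
    · fun_prop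
    · intro z hz; rw [fd_zero hz]; simp
  have i2 : Integrable (fun z => c * (fderiv ℝ w z 1 * fderiv ℝ v z 1 + fderiv ℝ w z Complex.I * fderiv ℝ v z Complex.I)) := by
    apply int_of_supp hc (subset_univ _)
    · fun_prop
    · intro z hz; rw [fd_zero hz]; simp
  have i3 : Integrable (fun z => u z * v z) := by
    apply int_of_supp hc hs
    · exact hu.continuousOn.mul hv.continuous.continuousOn
    · intro z hz; rw [v_zero hz]; simp
  have i4 : Integrable (fun z => c * (w z * v z)) := by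
    apply int_of_supp hc (subset_univ _)
    · exact (continuous_const.mul (hw.continuous.mul hv.continuous)).continuousOn
    · intro z hz; rw [v_zero hz]; simp
  rw [integral_sub i1 i2, integral_sub i3 i4, integral_const_mul, integral_const_mul, h1, h2]
  ring

/-- the bump profile -/
noncomputable def bump (R : ℝ) (s : ℝ) : ℝ := Real.smoothTransition (1 - s / R ^ 2)

theorem bump_good {R : ℝ} (hR : 0 < R) : Good R (bump R) := by
  refine ⟨?_, ?_, ?_⟩
  · unfold bump
    apply Real.smoothTransition.contDiff.comp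
    exact contDiff_const.sub (contDiff_id.div_const _)
  · intro s hs
    apply Real.smoothTransition.zero_of_nonpos
    have : 1 ≤ s / R ^ 2 := by rw [le_div_iff₀ (by positivity)]; linarith
    linarith
  · intro s _
    unfold bump
    rw [abs_of_nonneg (Real.smoothTransition.nonneg _)]
    exact Real.smoothTransition.le_one _

theorem repr_eq {U : Set ℂ} {k : ℝ} {u : ℂ → ℝ} (hUo : IsOpen U) (hu : ContDiffOn ℝ 1 u U)
    (hweak : Weak U k u) {p : ℂ} {R : ℝ} (hR : 0 < R) (hU : closedBall p R ⊆ U)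
    (hkR : |k| * R ^ 2 ≤ 1) {W : ℂ → ℝ} (hW : ContDiff ℝ ∞ W) (hW0 : W 0 = 1)
    (hWw : ∀ p, Weak univ k (fun x => W (x - p))) :
    ∫ x, u x * bump R (‖x - p‖ ^ 2) = u p * ∫ x, W x * bump R (‖x‖ ^ 2) := by
  have hw : ContDiff ℝ ∞ (fun x => W (x - p)) := hW.comp (contDiff_id.sub contDiff_const)
  have h1 := weak_sub hUo hu hw hweak (hWw p) (u p)
  have h2 : ContDiffOn ℝ 1 (fun x => u x - u p * W (x - p)) U :=
    hu.sub ((contDiff_const.mul (hw.of_le (by simp))).contDiffOn)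
  have h3 := J_zero hUo h2 h1 hR hU hkR (by simp [hW0]) (bump_good hR)
  have hcs : ∀ x, x ∉ closedBall p R → bump R (‖x - p‖ ^ 2) = 0 := by
    intro x hx
    simp only [mem_closedBall, dist_eq_norm, not_le] at hx
    exact (bump_good hR).2.1 _ (by nlinarith)
  have hbc : Continuous (fun x : ℂ => bump R (‖x - p‖ ^ 2)) := by
    exact (bump_good hR).1.continuous.comp (by fun_prop)
  have hint : ∀ F : ℂ → ℝ, ContinuousOn F (closedBall p R) → Integrable (fun x => F x * bump R (‖x - p‖ ^ 2)) := by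
    intro F hF
    have h1 : IntegrableOn (fun x => F x * bump R (‖x - p‖ ^ 2)) (closedBall p R) :=
      (hF.mul hbc.continuousOn).integrableOn_compact (isCompact_closedBall p R)
    rwa [integrableOn_iff_integrable_of_support_subset] at h1
    intro z hz
    by_contra h
    apply hz
    simp only
    rw [hcs z h, mul_zero]
  have e : ∀ x, (u x - u p * W (x - p)) * bump R (‖x - p‖ ^ 2)
      = u x * bump R (‖x - p‖ ^ 2) - u p * (W (x - p) * bump R (‖x - p‖ ^ 2)) := fun x => by ring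
  simp_rw [e] at h3
  rw [integral_sub (hint u (hu.continuousOn.mono hU)) ((hint _ hw.continuous.continuousOn).const_mul _),
    integral_const_mul, sub_eq_zero] at h3
  rw [h3]
  congr 1
  rw [← integral_add_left_eq_self (fun x => W (x - p) * bump R (‖x - p‖ ^ 2)) p]
  simp

theorem const_pos {k R : ℝ} (hR : 0 < R) (hkR : |k| * R ^ 2 ≤ 1) {W : ℂ → ℝ} (hW : Continuous W)
    (hWp : ∀ x, |k| * ‖x‖ ^ 2 ≤ 1 → 1 / 2 ≤ W x) :
    0 < ∫ x, W x * bump R (‖x‖ ^ 2) := by
  have hb : Continuous (fun x : ℂ => bump R (‖x‖ ^ 2)) :=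
    (bump_good hR).1.continuous.comp (by fun_prop)
  have h0 : ∀ x : ℂ, 0 ≤ bump R (‖x‖ ^ 2) := fun x => Real.smoothTransition.nonneg _
  have hz : ∀ x : ℂ, R ≤ ‖x‖ → bump R (‖x‖ ^ 2) = 0 := by
    intro x hx
    exact (bump_good hR).2.1 _ (by nlinarith)
  have hnn : ∀ x : ℂ, 0 ≤ W x * bump R (‖x‖ ^ 2) := by
    intro x
    rcases le_total R ‖x‖ with h | h
    · rw [hz x h, mul_zero]
    · apply mul_nonneg _ (h0 x)
      have h2 : |k| * ‖x‖ ^ 2 ≤ 1 := by
        have : ‖x‖ ^ 2 ≤ R ^ 2 := by nlinarith [norm_nonneg x]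
        nlinarith [abs_nonneg k]
      linarith [hWp x h2]
  apply Continuous.integral_pos_of_hasCompactSupport_nonneg_nonzero (x := 0)
  · exact hW.mul hb
  · apply HasCompactSupport.of_support_subset_isCompact (isCompact_closedBall (0:ℂ) R)
    intro x hx
    by_contra h
    simp only [mem_closedBall, dist_zero_right, not_le] at h
    apply hx
    simp only
    rw [hz x h.le, mul_zero]
  · exact hnn
  · have := hWp 0 (by simp)
    simp [bump]; linarith

/-- **Interior regularity**: a C¹ weak solution of `Δu = -k u` on an open planar set is smooth. -/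
theorem helmholtz_smooth {U : Set ℂ} (hUo : IsOpen U) {k : ℝ} {u : ℂ → ℝ}
    (hu : ContDiffOn ℝ 1 u U) (hweak : Weak U k u) : ContDiffOn ℝ ∞ u U := by
  intro p0 hp0
  apply ContDiffAt.contDiffWithinAt
  obtain ⟨ε, hε, hεU⟩ := Metric.isOpen_iff.mp hUo p0 hp0
  obtain ⟨W, hW, hW0, hWw, hWp⟩ := exists_wave k
  obtain ⟨R, hR, hR1, hR2⟩ : ∃ R : ℝ, 0 < R ∧ 2 * R < ε ∧ |k| * R ^ 2 ≤ 1 := by
    have hk := abs_nonneg k
    refine ⟨min (ε / 3) (1 / (|k| + 1)), by positivity, ?_, ?_⟩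
    · have := min_le_left (ε / 3) (1 / (|k| + 1)); linarith
    · have h1 := min_le_right (ε / 3) (1 / (|k| + 1))
      have h0 : 0 ≤ min (ε / 3) (1 / (|k| + 1)) := by positivity
      have h2 : (min (ε / 3) (1 / (|k| + 1))) ^ 2 ≤ (1 / (|k|+1)) ^ 2 := by
        exact pow_le_pow_left₀ h0 h1 2
      calc |k| * (min (ε / 3) (1 / (|k| + 1))) ^ 2 ≤ |k| * (1 / (|k|+1)) ^ 2 := mul_le_mul_of_nonneg_left h2 hk
        _ = |k| / (|k|+1)^2 := by rw [one_div, inv_pow, div_eq_mul_inv]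
        _ ≤ 1 := by rw [div_le_one (by positivity)]; nlinarith
  have hK : closedBall p0 (2 * R) ⊆ U := (closedBall_subset_ball hR1).trans hεU
  set K := closedBall p0 (2 * R) with hKdef
  set g : ℂ → ℝ := fun y => bump R (‖y‖ ^ 2) with hg
  have hgs : ContDiff ℝ ∞ g := (bump_good hR).1.comp (contDiff_id.norm_sq ℝ)
  have hgc : HasCompactSupport g := by
    apply HasCompactSupport.of_support_subset_isCompact (isCompact_closedBall (0:ℂ) R)
    intro x hx
    by_contra h
    simp only [mem_closedBall, dist_zero_right, not_le] at h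
    apply hx
    exact (bump_good hR).2.1 _ (by nlinarith)
  have hloc : LocallyIntegrable (K.indicator u) := by
    apply Integrable.locallyIntegrable
    rw [integrable_indicator_iff measurableSet_closedBall]
    exact (hu.continuousOn.mono hK).integrableOn_compact (isCompact_closedBall _ _)
  have hconv := hgc.contDiff_convolution_right (μ := volume) (n := ⊤) (ContinuousLinearMap.mul ℝ ℝ) hloc hgs
  set c := ∫ x, W x * bump R (‖x‖ ^ 2) with hc
  have hcpos : 0 < c := const_pos hR hR2 hW.continuous hWp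
  have heq : ∀ p ∈ ball p0 R, u p = c⁻¹ * (convolution (K.indicator u) g (ContinuousLinearMap.mul ℝ ℝ) volume) p := by
    intro p hp
    have hsub : closedBall p R ⊆ K := by
      apply closedBall_subset_closedBall'
      have := mem_ball.mp hp
      linarith
    have h1 := repr_eq hUo hu hweak hR (hsub.trans hK) hR2 hW hW0 hWw
    have h2 : (convolution (K.indicator u) g (ContinuousLinearMap.mul ℝ ℝ) volume) p = ∫ x, u x * bump R (‖x - p‖ ^ 2) := by
      unfold convolution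
      congr 1; ext t
      simp only [ContinuousLinearMap.mul_apply', hg]
      rw [norm_sub_rev p t]
      by_cases ht : t ∈ K
      · rw [indicator_of_mem ht]
      · rw [indicator_of_notMem ht]
        have : t ∉ closedBall p R := fun h => ht (hsub h)
        simp only [mem_closedBall, dist_eq_norm, not_le] at this
        rw [(bump_good hR).2.1 _ (by nlinarith)]; simp
    rw [h2, h1, ← hc]
    field_simp
  have : ContDiffAt ℝ ∞ (fun p => c⁻¹ * (convolution (K.indicator u) g (ContinuousLinearMap.mul ℝ ℝ) volume) p) p0 :=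
    (contDiff_const.mul hconv).contDiffAt
  apply this.congr_of_eventuallyEq
  filter_upwards [isOpen_ball.mem_nhds (mem_ball_self hR)] with p hp
  exact heq p hp

end Crest.Agent.HS.Reg

noncomputable section
namespace Crest.Agent.HS
open MeasureTheory Complex Metric Set
open scoped ComplexConjugate Topology

/-- Interior regularity at a critical point of a `C¹` weak solution of `Δu = -κ u`. -/
theorem near_crit (Ω : Set ℂ) (hΩ : IsOpen Ω) (u : ℂ → ℝ) (κ : ℝ) (hu : ContDiffOn ℝ 1 u Ω)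
    (hw : ∀ χ : ℂ → ℝ, ContDiff ℝ (⊤ : ℕ∞) χ → HasCompactSupport χ → tsupport χ ⊆ Ω →
      ∫ p, (gr u p * conj (gr χ p)).re = κ * ∫ p, u p * χ p)
    (x0 : ℂ) (hx : x0 ∈ Ω) (h0 : gr u x0 = 0) :
    ∃ C r : ℝ, 0 < r ∧ ∀ p ∈ ball x0 r,
      |u p - u x0| ≤ C * ‖p - x0‖ ^ 2 ∧ ‖gr u p‖ ≤ C * ‖p - x0‖ := by
  have hweak : Reg.Weak Ω κ u := by
    intro v hv hc hs
    rw [← hw v hv hc hs]
    congr 1; ext z
    simp [gr]
  have hsm := Reg.helmholtz_smooth hΩ hu hweak
  have hg : ContDiffOn ℝ 1 (fderiv ℝ u) Ω :=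
    hsm.fderiv_of_isOpen hΩ (by
      have h : ((2:ℕ∞) : WithTop ℕ∞) ≤ ((⊤:ℕ∞) : WithTop ℕ∞) := WithTop.coe_le_coe.mpr le_top
      norm_num; exact h)
  have hga : ContDiffAt ℝ 1 (fderiv ℝ u) x0 := hg.contDiffAt (hΩ.mem_nhds hx)
  obtain ⟨K, s, hs, hL⟩ := hga.exists_lipschitzOnWith
  obtain ⟨r1, hr1, hr1s⟩ := Metric.mem_nhds_iff.mp hs
  obtain ⟨r2, hr2, hr2s⟩ := Metric.isOpen_iff.mp hΩ x0 hx
  have hf0 : fderiv ℝ u x0 = 0 := by
    have h1 : fderiv ℝ u x0 1 = 0 := congrArg Complex.re h0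
    have h2 : -(fderiv ℝ u x0 I) = 0 := congrArg Complex.im h0
    ext y
    rw [Reg.fderiv_split (fderiv ℝ u x0) y, h1, neg_eq_zero.mp h2]; simp
  have hfb : ∀ p ∈ ball x0 (min r1 r2), ‖fderiv ℝ u p‖ ≤ K * ‖p - x0‖ := by
    intro p hp
    have := hL.norm_sub_le (hr1s (ball_subset_ball (min_le_left _ _) hp)) (hr1s (mem_ball_self hr1))
    rwa [hf0, sub_zero] at this
  refine ⟨2 * K, min r1 r2, lt_min hr1 hr2, ?_⟩
  intro p hp
  have hb := hfb p hp
  constructor
  · have hseg : ∀ y ∈ segment ℝ x0 p, ‖fderiv ℝ u y‖ ≤ K * ‖p - x0‖ ∧ y ∈ Ω := by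
      intro y hy
      have hyb : y ∈ ball x0 (min r1 r2) :=
        (convex_ball x0 (min r1 r2)).segment_subset (mem_ball_self (lt_min hr1 hr2)) hp hy
      refine ⟨(hfb y hyb).trans ?_, hr2s (ball_subset_ball (min_le_right _ _) hyb)⟩
      apply mul_le_mul_of_nonneg_left _ K.2
      exact norm_sub_le_of_mem_segment hy
    have := (convex_segment x0 p).norm_image_sub_le_of_norm_fderiv_le (𝕜 := ℝ) (f := u) (C := K * ‖p - x0‖)
      (fun y hy => ((hu.differentiableOn one_ne_zero).differentiableAt (hΩ.mem_nhds (hseg y hy).2)))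
      (fun y hy => (hseg y hy).1) (left_mem_segment ℝ x0 p) (right_mem_segment ℝ x0 p)
    rw [Real.norm_eq_abs] at this
    refine this.trans ?_
    have hK : (0:ℝ) ≤ K := K.2
    nlinarith [sq_nonneg ‖p - x0‖, mul_nonneg hK (sq_nonneg ‖p - x0‖)]
  · have h1 : ‖gr u p‖ ≤ ‖fderiv ℝ u p 1‖ + ‖fderiv ℝ u p I‖ := by
      have := Complex.norm_le_abs_re_add_abs_im (gr u p)
      simpa [gr] using this
    have h2 : ‖fderiv ℝ u p 1‖ ≤ ‖fderiv ℝ u p‖ := by
      simpa using (fderiv ℝ u p).le_opNorm 1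
    have h3 : ‖fderiv ℝ u p I‖ ≤ ‖fderiv ℝ u p‖ := by
      simpa using (fderiv ℝ u p).le_opNorm I
    linarith

end Crest.Agent.HS
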