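import Crest.Agent.HS.Final
import Crest.Prelude.Def_PlanarDomain
set_option autoImplicit false
noncomputable section
namespace Crest.Agent.HS
open MeasureTheory Complex Metric Set
open scoped ComplexConjugate Topology Gradient

/-- the isometry -/
def eC : ℂ ≃ₗᵢ[ℝ] EuclideanSpace ℝ (Fin 2) := Complex.orthonormalBasisOneI.repr

theorem eC_one : eC 1 = EuclideanSpace.basisFun (Fin 2) ℝ 0 := by
  have h := Complex.orthonormalBasisOneI.repr_self 0
  simpa [eC] using h

theorem eC_I : eC I = EuclideanSpace.basisFun (Fin 2) ℝ 1 := by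
  have h := Complex.orthonormalBasisOneI.repr_self 1
  simpa [eC] using h

theorem norm_gr_eC (v : EuclideanSpace ℝ (Fin 2) → ℝ) (p : ℂ) :
    ‖gr (fun z => v (eC z)) p‖ ^ 2 = ‖∇ v (eC p)‖ ^ 2 := by
  have hfd : fderiv ℝ (fun z => v (eC z)) p
      = (fderiv ℝ v (eC p)).comp (eC.toContinuousLinearEquiv : ℂ →L[ℝ] EuclideanSpace ℝ (Fin 2)) :=
    eC.toContinuousLinearEquiv.comp_right_fderiv (f := v) (x := p)
  have h1 : fderiv ℝ (fun z => v (eC z)) p 1
      = inner ℝ (∇ v (eC p)) (EuclideanSpace.basisFun (Fin 2) ℝ 0) := by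
    rw [hfd, gradient, InnerProductSpace.toDual_symm_apply, ← eC_one]
    rfl
  have h2 : fderiv ℝ (fun z => v (eC z)) p I
      = inner ℝ (∇ v (eC p)) (EuclideanSpace.basisFun (Fin 2) ℝ 1) := by
    rw [hfd, gradient, InnerProductSpace.toDual_symm_apply, ← eC_I]
    rfl
  have h3 := (EuclideanSpace.basisFun (Fin 2) ℝ).sum_sq_norm_inner_left (∇ v (eC p))
  rw [Fin.sum_univ_two] at h3
  rw [← h3, ← h1, ← h2, Complex.sq_norm, Complex.normSq_apply]
  simp only [gr, Real.norm_eq_abs, sq_abs]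
  ring

theorem main_E
    (Ω : Set (EuclideanSpace ℝ (Fin 2))) (hopen : IsOpen Ω) (hne : Ω.Nonempty)
    (hbdd : Bornology.IsBounded Ω) (hsc : IsSimplyConnected Ω)
    (u : EuclideanSpace ℝ (Fin 2) → ℝ) (hu : ContDiffOn ℝ 1 u Ω)
    (huL2 : IntegrableOn (fun x => u x ^ 2) Ω) (hgradL2 : IntegrableOn (fun x => ‖∇ u x‖ ^ 2) Ω)
    (hmean : ∫ x in Ω, u x = 0) (hnz : ∃ x ∈ Ω, u x ≠ 0)
    (hmin : ∀ v : EuclideanSpace ℝ (Fin 2) → ℝ, ContDiffOn ℝ 1 v Ω →
      IntegrableOn (fun x => v x ^ 2) Ω → IntegrableOn (fun x => ‖∇ v x‖ ^ 2) Ω →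
      ∫ x in Ω, v x = 0 →
      (∫ x in Ω, ‖∇ u x‖ ^ 2) * (∫ x in Ω, v x ^ 2) ≤ (∫ x in Ω, ‖∇ v x‖ ^ 2) * (∫ x in Ω, u x ^ 2)) :
    ∀ x ∈ Ω, ∇ u x ≠ 0 := by
  have hmp : MeasurePreserving (eC : ℂ → EuclideanSpace ℝ (Fin 2)) volume volume :=
    eC.measurePreserving
  have hme : MeasurableEmbedding (eC : ℂ → EuclideanSpace ℝ (Fin 2)) :=
    eC.toHomeomorph.measurableEmbedding
  have hint : ∀ F : EuclideanSpace ℝ (Fin 2) → ℝ,
      ∫ p in eC ⁻¹' Ω, F (eC p) = ∫ x in Ω, F x := fun F =>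
    hmp.setIntegral_preimage_emb hme F Ω
  have hio : ∀ F : EuclideanSpace ℝ (Fin 2) → ℝ,
      IntegrableOn (fun p => F (eC p)) (eC ⁻¹' Ω) ↔ IntegrableOn F Ω := fun F =>
    hmp.integrableOn_comp_preimage hme
  have hfin := main_C (eC ⁻¹' Ω) (hopen.preimage eC.continuous)
    ((eC.toHomeomorph.isSimplyConnected_preimage).2 hsc) ?_ (fun p => u (eC p)) ?_ ?_ ?_ ?_ ?_ ?_
  · intro x hx h0
    have h := hfin (eC.symm x) (by simpa using hx)
    apply h
    have h2 := norm_gr_eC u (eC.symm x)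
    rw [eC.apply_symm_apply, h0, norm_zero] at h2
    have h3 : ‖gr (fun z => u (eC z)) (eC.symm x)‖ = 0 := by
      have : ‖gr (fun z => u (eC z)) (eC.symm x)‖ ^ 2 = 0 := by rw [h2]; norm_num
      exact pow_eq_zero_iff (two_ne_zero) |>.1 this
    exact norm_eq_zero.1 h3
  · exact eC.antilipschitz.isBounded_preimage hbdd
  · exact hu.comp (eC.toContinuousLinearEquiv.contDiff.contDiffOn) (fun p hp => hp)
  · exact (hio (fun x => u x ^ 2)).2 huL2
  · simp only [norm_gr_eC]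
    exact (hio (fun x => ‖∇ u x‖ ^ 2)).2 hgradL2
  · rw [hint (fun x => u x)]
    exact hmean
  · obtain ⟨x, hx, hux⟩ := hnz
    exact ⟨eC.symm x, by simpa using hx, by simpa using hux⟩
  · intro v hv hv2 hvg hv0
    -- transfer
    have hve : (fun z => v (eC.symm (eC z))) = v := by
      funext z; rw [eC.symm_apply_apply]
    have key := hmin (fun x => v (eC.symm x)) ?_ ?_ ?_ ?_
    · rw [← hint, ← hint, ← hint, ← hint] at key
      simp only [← norm_gr_eC, eC.symm_apply_apply] at key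
      exact key
    · refine hv.comp (eC.symm.toContinuousLinearEquiv.contDiff.contDiffOn) (fun x hx => ?_)
      show eC (eC.symm x) ∈ Ω
      rw [eC.apply_symm_apply]; exact hx
    · rw [← hio]
      simp only [eC.symm_apply_apply]
      exact hv2
    · rw [← hio]
      simp only [← norm_gr_eC, eC.symm_apply_apply]
      exact hvg
    · rw [← hint]
      simp only [eC.symm_apply_apply]
      exact hv0

end Crest.Agent.HS
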